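import Vale.Agent.P199.LiftSym
import Vale.Agent.P199.Stage.TrProj

/-!
P199, freeze: the trace of left multiplication over a monomial base change. It sees only the monomial `1`, and what
commutes with an old element is a combination of old commutants times monomials.
-/

namespace Vale.Agent.P199

open Module Vale.P199

noncomputable section

/-- A base change along the monomials `U ^ i V ^ j` of a symbol algebra of degree `l > 1`. -/
structure Mono {P P₁ : Pt} (E : Ext P P₁) where
  /-- The degree. -/
  l : ℕ
  one_lt : 1 < l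
  /-- The root of unity. -/
  ζ : P₁.K
  /-- The power of `U`. -/
  u : P₁.K
  /-- The power of `V`. -/
  v : P₁.K
  /-- The first generator. -/
  U : P₁.Dˣ
  /-- The second generator. -/
  V : P₁.Dˣ
  prim : IsPrimitiveRoot ζ l
  hVU : (V : P₁.D) * U = ζ • ((U : P₁.D) * V)
  hU : (U : P₁.D) ^ l = algebraMap P₁.K P₁.D u
  hV : (V : P₁.D) ^ l = algebraMap P₁.K P₁.D v
  /-- The numbering. -/
  idx : Fin E.m ≃ Fin l × Fin l
  hmon : ∀ k, E.mon k = pmon U V (idx k)
  commU : ∀ a, E.iD a * U = U * E.iD a
  commV : ∀ a, E.iD a * V = V * E.iD a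

/-- The monomials of the symbol algebra of a point. -/
def SymData.mono {P : Pt} (S : SymData P) (hl : 1 < S.l) : Mono S.ext :=
  letI := S.algebra
  haveI := P.charZero
  { l := S.l
    one_lt := hl
    ζ := S.iK S.z
    u := HahnSeries.C (HahnSeries.single 1 (1 : P.K))
    v := HahnSeries.single 1 (1 : LaurentSeries P.K)
    U := symUu S.unit S.unit_central
    V := symVu S.unit S.unit_central
    prim := sym_primitive S.unit S.unit_order S.z rfl
    hVU := sym_relation S.unit S.unit_central S.pos S.unit_order S.z rfl fun _ => rfl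
    hU := symU_pow_scalar S.unit S.unit_central S.pos S.unit_order
    hV := symV_pow_scalar S.unit S.unit_central S.pos S.unit_order
    idx := finProdFinEquiv.symm
    hmon := fun _ => rfl
    commU := fun a => (symC_commute S.unit S.unit_central a).1.symm.eq
    commV := fun a => (symC_commute S.unit S.unit_central a).2.symm.eq }

namespace Mono

open LiftSeries

variable {P P₁ : Pt} {E : Ext P P₁} (M : Mono E)

include M in
theorem m_eq : E.m = M.l * M.l := by simpa using Fintype.card_congr M.idx

theorem idx_one : M.idx (one E) = (⟨0, by have := M.one_lt; omega⟩, ⟨0, by have := M.one_lt; omega⟩) := by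
  by_contra hne
  obtain ⟨i₀⟩ : Nonempty (Fin (finrank P.K P.D)) := ⟨⟨0, finrank_pos⟩⟩
  set k := M.idx.symm (⟨0, by have := M.one_lt; omega⟩, ⟨0, by have := M.one_lt; omega⟩)
  have h1 : E.mon k = E.mon (one E) := by
    rw [M.hmon, Equiv.apply_symm_apply, mon_one_eq]; simp [pmon]
  have h2 := congrArg Prod.snd ((basis E).injective (a₁ := (i₀, k)) (a₂ := (i₀, one E))
    (by rw [basis_apply, basis_apply, h1]))
  exact hne (by rw [← show k = one E from h2, Equiv.apply_symm_apply])

include M in
/-- **The trace sees only the monomial `1`.** -/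
theorem tr_iD_mul_mon (a : P.D) (k : Fin E.m) :
    TrProj.tr (K := P₁.K) (E.iD a * E.mon k) =
      if k = one E then (E.m : P₁.K) * E.iK (TrProj.tr (K := P.K) a) else 0 := by
  classical
  have : NeZero M.l := ⟨by have := M.one_lt; omega⟩
  have hrep : ∀ z : Fin (finrank P.K P.D) × Fin E.m,
      (basis E).repr (E.iD a * E.mon k * basis E z) z =
        if k = one E then E.iK ((oldBasis P).repr (a * oldBasis P z.1) z.1) else 0 := by
    intro z
    obtain ⟨i, k'⟩ := z
    set c := monFactor M.l M.ζ M.u M.v (M.idx k) (M.idx k')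
    have hprod : E.mon k * E.mon k' = c • E.mon (M.idx.symm (M.idx k + M.idx k')) := by
      rw [M.hmon, M.hmon, M.hmon, Equiv.apply_symm_apply, pmon_mul M.hVU M.hU M.hV]
      rfl
    have hmul : E.iD a * E.mon k * basis E (i, k') =
        c • (E.iD (a * oldBasis P i) * E.mon (M.idx.symm (M.idx k + M.idx k'))) := by
      rw [basis_apply, map_mul, mul_assoc (E.iD a), ← mul_assoc (E.mon k), ← E.comm,
        mul_assoc, hprod, mul_smul_comm, mul_smul_comm, ← mul_assoc]
    rw [hmul, iD_mul_mon, map_smul, map_sum, Finsupp.smul_apply, Finsupp.finsetSum_apply]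
    simp only [map_smul, Finsupp.smul_apply, Basis.repr_self, Finsupp.single_apply, Prod.mk.injEq,
      smul_eq_mul]
    have hiff : M.idx.symm (M.idx k + M.idx k') = k' ↔ k = one E := by
      rw [Equiv.symm_apply_eq, add_eq_right]
      constructor
      · intro h
        exact M.idx.injective (by rw [h, M.idx_one]; rfl)
      · rintro rfl
        rw [M.idx_one]
        rfl
    by_cases hk : k = one E
    · rw [if_pos hk, hiff.2 hk]
      have hc : c = 1 := by
        simp only [c, hk, monFactor, M.idx_one]
        simp [Nat.div_eq_of_lt (M.idx k').1.isLt, Nat.div_eq_of_lt (M.idx k').2.isLt]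
      simp [hc]
    · rw [if_neg hk]
      simp [mt hiff.1 hk]
  simp only [TrProj.tr, LinearMap.comp_apply, AlgHom.toLinearMap_apply]
  rw [LinearMap.trace_eq_matrix_trace P₁.K (basis E)]
  simp only [Matrix.trace, Matrix.diag_apply, LinearMap.toMatrix_apply, Algebra.coe_lmul_eq_mul,
    LinearMap.mul_apply', hrep]
  by_cases hk : k = one E
  · simp only [if_pos hk]
    rw [LinearMap.trace_eq_matrix_trace P.K (oldBasis P), Matrix.trace, map_sum, Fintype.sum_prod_type]
    simp [LinearMap.toMatrix_apply, Finset.mul_sum]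
  · simp [if_neg hk]

include M in
theorem tr_iD (a : P.D) :
    TrProj.tr (K := P₁.K) (E.iD a) = (E.m : P₁.K) * E.iK (TrProj.tr (K := P.K) a) := by
  simpa [mon_one_eq] using M.tr_iD_mul_mon a (one E)

end Mono

namespace LiftSeries

variable {P P₁ : Pt} (E : Ext P P₁)

/-- The span of an old subspace times the monomials. -/
def upSpan (S : Submodule P.K P.D) : Submodule P₁.K P₁.D :=
  Submodule.span P₁.K (Set.range fun z : S × Fin E.m => E.iD (z.1 : P.D) * E.mon z.2)

theorem mem_upSpan {S : Submodule P.K P.D} {a : P.D} (ha : a ∈ S) (k : Fin E.m) :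
    E.iD a * E.mon k ∈ upSpan E S := Submodule.subset_span ⟨(⟨a, ha⟩, k), rfl⟩

theorem iD_mul_mem_upSpan {S : Submodule P.K P.D} {a : P.D} (ha : a ∈ S) {ν : P₁.D}
    (hν : ν ∈ monSpan E) : E.iD a * ν ∈ upSpan E S := by
  induction hν using Submodule.span_induction with
  | mem x h => obtain ⟨k, rfl⟩ := h; exact mem_upSpan E ha k
  | zero => simp
  | add x y _ _ hx hy => rw [mul_add]; exact add_mem hx hy
  | smul c x _ hx => rw [mul_smul_comm]; exact Submodule.smul_mem _ _ hx

/-- The kernel of a map acting on the old factor comes from the old kernel. -/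
theorem ker_le_upSpan (f : P.D →ₗ[P.K] P.D) (F : P₁.D →ₗ[P₁.K] P₁.D)
    (hF : ∀ a k, F (E.iD a * E.mon k) = E.iD (f a) * E.mon k) :
    LinearMap.ker F ≤ upSpan E (LinearMap.ker f) := by
  classical
  obtain ⟨N, hN⟩ := exists_isCompl (LinearMap.ker f)
  let b := finBasis P.K N
  let vN : Fin (finrank P.K N) × Fin E.m → P₁.D := fun z => E.iD (b z.1 : P.D) * E.mon z.2
  have hv : LinearIndependent P.K fun i => f (b i : P.D) := by
    have h := (b.linearIndependent.map' N.subtype (Submodule.ker_subtype _)).map (f := f) (by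
      refine Disjoint.mono_left (Submodule.span_le.2 ?_) hN.disjoint.symm
      rintro _ ⟨i, rfl⟩
      exact (b i).2)
    exact h
  have hind := E.indep (fun i => f (b i : P.D)) hv
  have hall : ∀ x : P₁.D, ∃ y ∈ upSpan E (LinearMap.ker f), ∃ c : Fin (finrank P.K N) × Fin E.m → P₁.K,
      x = y + ∑ z, c z • vN z := by
    intro x
    rw [← (basis E).sum_repr x]
    have hmem : ∑ z, (basis E).repr x z • basis E z ∈
        upSpan E (LinearMap.ker f) ⊔ Submodule.span P₁.K (Set.range vN) := by
      refine sum_mem fun z _ => Submodule.smul_mem _ _ ?_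
      rw [basis_apply]
      obtain ⟨p, hp, q, hq, hpq⟩ := Submodule.mem_sup.1
        (show oldBasis P z.1 ∈ LinearMap.ker f ⊔ N by rw [hN.sup_eq_top]; trivial)
      rw [← hpq, map_add, add_mul]
      refine Submodule.add_mem_sup (mem_upSpan E hp z.2) ?_
      have hq' : q = ∑ i, b.repr ⟨q, hq⟩ i • (b i : P.D) := by
        conv_lhs => rw [show q = N.subtype ⟨q, hq⟩ from rfl, ← b.sum_repr ⟨q, hq⟩, map_sum]
        exact Finset.sum_congr rfl fun i _ => map_smul N.subtype _ _
      rw [hq', map_sum, Finset.sum_mul]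
      refine sum_mem fun i _ => ?_
      rw [iD_smul, smul_mul_assoc]
      exact Submodule.smul_mem _ _ (Submodule.subset_span ⟨(i, z.2), rfl⟩)
    obtain ⟨y, hy, w, hw, hyw⟩ := Submodule.mem_sup.1 hmem
    obtain ⟨c, hc⟩ := (Submodule.mem_span_range_iff_exists_fun P₁.K).1 hw
    exact ⟨y, hy, c, by rw [hc, hyw]⟩
  intro x hx
  obtain ⟨y, hy, c, rfl⟩ := hall x
  have hFy : F y = 0 := by
    refine Submodule.span_induction (p := fun y _ => F y = 0) ?_ (map_zero _)
      (fun a b _ _ ha hb => by rw [map_add, ha, hb, add_zero])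
      (fun c a _ ha => by rw [map_smul, ha, smul_zero]) hy
    rintro _ ⟨z, rfl⟩
    rw [hF, LinearMap.mem_ker.1 z.1.2, map_zero, zero_mul]
  rw [LinearMap.mem_ker, map_add, hFy, zero_add, map_sum] at hx
  simp only [map_smul, vN, hF] at hx
  have hc := Fintype.linearIndependent_iff.1 hind c hx
  simpa [hc] using hy

/-- What commutes with an old element is spanned by old commutants times monomials. -/
theorem mem_upSpan_of_commute (q : P.D) {x : P₁.D} (hx : E.iD q * x = x * E.iD q) :
    x ∈ upSpan E (LinearMap.ker (LinearMap.mulLeft P.K q - LinearMap.mulRight P.K q)) := by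
  refine ker_le_upSpan E _ (LinearMap.mulLeft P₁.K (E.iD q) - LinearMap.mulRight P₁.K (E.iD q))
    (fun a k => ?_) ?_
  · simp only [LinearMap.sub_apply, LinearMap.mulLeft_apply, LinearMap.mulRight_apply]
    rw [map_sub, map_mul, map_mul, sub_mul, mul_assoc, mul_assoc (E.iD a), ← E.comm, mul_assoc]
  · simp [hx]

end LiftSeries

end

end Vale.Agent.P199
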