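import Vale.Agent.P199.Main.Bound
import Vale.Agent.P199.Stage.TrProj
import Vale.Agent.P199.Pole
import Vale.Agent.P199.Stage.NewRow

/-!
P199, freeze: centralisers in central division algebras, the range of `ad q`, and the first coefficient of a polynomial
in a series against the centraliser of its constant term.
-/

namespace Vale.Agent.P199.FreezeComm

open Module Vale.P199

noncomputable section

variable {K D : Type} [Field K] [DivisionRing D] [Algebra K D] [FiniteDimensional K D]

/-- A subalgebra and its centraliser fit into the algebra. -/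
theorem finrank_mul_centralizer_le (hK : ∀ d : D, (∀ t, d * t = t * d) → ∃ r : K, algebraMap K D r = d)
    (A : Subalgebra K D) :
    finrank K A * finrank K (Subalgebra.centralizer K (A : Set D)) ≤ finrank K D := by
  set C := Subalgebra.centralizer K (A : Set D)
  let _ : DivisionRing C := divSub C
  set g := finrank K A
  let l := Module.finBasis K A
  set h := finrank C D
  have hfin : Module.Finite C D := Module.Finite.of_restrictScalars_finite K C D
  let e := Module.finBasis C D
  have hmul : finrank K C * h = finrank K D := Module.finrank_mul_finrank K C D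
  have hl : LinearIndependent K fun k => (l k : D) :=
    l.linearIndependent.map' A.val.toLinearMap (LinearMap.ker_eq_bot.2 Subtype.val_injective)
  let ev : (Fin g → D) →ₗ[K] (Fin h → D) :=
    { toFun := fun y i => ∑ k, (l k : D) * e i * y k
      map_add' := fun y z => funext fun i => by simp [mul_add, Finset.sum_add_distrib]
      map_smul' := fun r y => funext fun i => by simp [Finset.smul_sum] }
  have hinj : Function.Injective ev := by
    rw [injective_iff_map_eq_zero]
    intro y hy
    funext k
    refine Vale.P199.Fld.sum_mul_mul_eq_zero hK _ hl Finset.univ y (fun b => ?_) k (Finset.mem_univ k)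
    rw [← e.sum_repr b]
    simp only [Finset.mul_sum, Finset.sum_mul]
    rw [Finset.sum_comm]
    refine Finset.sum_eq_zero fun i _ => ?_
    have h0 : ∑ k, (l k : D) * e i * y k = 0 := congrFun hy i
    rw [show (0 : D) = (e.repr b i : D) * ∑ k, (l k : D) * e i * y k by rw [h0, mul_zero],
      Finset.mul_sum]
    refine Finset.sum_congr rfl fun k _ => ?_
    show (l k : D) * ((e.repr b i : D) * e i) * y k = _
    rw [← mul_assoc, (Subalgebra.mem_centralizer_iff K).1 (e.repr b i).2 _ (l k).2]
    simp only [mul_assoc]
  have hle := LinearMap.finrank_le_finrank_of_injective hinj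
  rw [Module.finrank_pi_fintype, Module.finrank_pi_fintype] at hle
  simp only [Finset.sum_const, Finset.card_univ, Fintype.card_fin, smul_eq_mul] at hle
  have hgh : g ≤ h := Nat.le_of_mul_le_mul_right hle Module.finrank_pos
  rw [← hmul, mul_comm g]
  exact Nat.mul_le_mul_left _ hgh

/-- The algebra is spanned over the centraliser of a subalgebra by as many elements as its dimension. -/
theorem le_finrank_mul_centralizer (A : Subalgebra K D) :
    finrank K D ≤ finrank K A * finrank K (Subalgebra.centralizer K (A : Set D)) := by
  set C := Subalgebra.centralizer K (A : Set D)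
  obtain ⟨m, x, hm, hspan⟩ := exists_centralizer_span A
  let f : (Fin m → C) →ₗ[K] D :=
    { toFun := fun c => ∑ i, x i * (c i : D)
      map_add' := fun c c' => by simp [mul_add, Finset.sum_add_distrib]
      map_smul' := fun r c => by simp [Finset.smul_sum] }
  have hs : Function.Surjective f := fun y => by
    obtain ⟨c, hc, rfl⟩ := hspan y
    exact ⟨fun i => ⟨c i, hc i⟩, rfl⟩
  have hle := LinearMap.finrank_le_finrank_of_surjective hs
  simp only [Module.finrank_pi_fintype, Finset.sum_const, Finset.card_univ, Fintype.card_fin,
    smul_eq_mul] at hle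
  exact hle.trans (Nat.mul_le_mul_right _ hm)

/-- A subalgebra of more than half the dimension is everything. -/
theorem eq_of_half {F' F : Subalgebra K D} (h : F' ≤ F) (hd : finrank K F < 2 * finrank K F') :
    F' = F := by
  refine le_antisymm h fun x hx => ?_
  by_contra hne
  let f : (F' × F') →ₗ[K] F :=
    { toFun := fun p => ⟨(p.1 : D) + (p.2 : D) * x, F.add_mem (h p.1.2) (F.mul_mem (h p.2.2) hx)⟩
      map_add' := fun p p' => Subtype.ext (by simp [add_mul]; abel)
      map_smul' := fun r p => Subtype.ext (by simp) }
  have hf : Function.Injective f := by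
    refine (injective_iff_map_eq_zero f).2 fun p hp => ?_
    have h0 : (p.1 : D) + (p.2 : D) * x = 0 := congrArg Subtype.val hp
    have hb : (p.2 : D) = 0 := by
      by_contra hb
      refine hne ?_
      have e : x = -((p.2 : D)⁻¹ * (p.1 : D)) := by
        rw [eq_neg_of_add_eq_zero_left h0, mul_neg, neg_neg, ← mul_assoc, inv_mul_cancel₀ hb, one_mul]
      rw [e]
      exact F'.neg_mem (F'.mul_mem (TrProj.inv_mem _ p.2.2) p.1.2)
    rw [hb, zero_mul, add_zero] at h0
    exact Prod.ext (Subtype.ext h0) (Subtype.ext hb)
  have := LinearMap.finrank_le_finrank_of_injective hf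
  rw [Module.finrank_prod] at this
  omega

variable [CharZero K]

/-- An element of a subalgebra orthogonal to it vanishes. -/
theorem eq_zero_of_tr (S : Subalgebra K D) {x : D} (hx : x ∈ S)
    (h : ∀ c ∈ S, TrProj.tr (K := K) (c * x) = 0) : x = 0 := by
  by_contra h0
  obtain ⟨t, ht, hne⟩ := TrProj.exists_tr_mul_ne_zero S hx h0
  exact hne (by rw [TrProj.tr_comm]; exact h t ht)

/-- Two elements of a subalgebra pairing alike with it are equal. -/
theorem eq_of_tr (S : Subalgebra K D) {x y : D} (hx : x ∈ S) (hy : y ∈ S)
    (h : ∀ c ∈ S, TrProj.tr (K := K) (c * x) = TrProj.tr (c * y)) : x = y :=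
  sub_eq_zero.1 (eq_zero_of_tr S (S.sub_mem hx hy) fun c hc => by rw [mul_sub, map_sub, h c hc, sub_self])

/-- The orthogonal of the centraliser of `q` is the range of `ad q`. -/
theorem exists_ad_eq (q a : D) (h : ∀ c : D, q * c = c * q → TrProj.tr (K := K) (c * a) = 0) :
    ∃ ξ, q * ξ - ξ * q = a := by
  let f : D →ₗ[K] D := LinearMap.mulLeft K q - LinearMap.mulRight K q
  let C := Subalgebra.centralizer K ({q} : Set D)
  have hC : ∀ c, c ∈ C ↔ q * c = c * q := fun c => by simp [C, Subalgebra.mem_centralizer_iff]
  let π : D →ₗ[K] Dual K C := LinearMap.mk₂ K (fun (a : D) (c : C) => TrProj.tr (K := K) ((c : D) * a))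
    (fun a a' b => by simp [mul_add]) (fun c a b => by simp)
    (fun a b b' => by simp [add_mul]) (fun c a b => by simp)
  have hπ : Function.Surjective π := fun φ => by
    obtain ⟨z, -, hz⟩ := TrProj.exists_eq_tr C φ
    exact ⟨z, LinearMap.ext fun s => by rw [hz, TrProj.tr_comm]; rfl⟩
  have hker : LinearMap.ker f = Subalgebra.toSubmodule C := by
    ext c
    simp [f, hC, sub_eq_zero]
  have hle : LinearMap.range f ≤ LinearMap.ker π := by
    rintro _ ⟨ξ, rfl⟩
    refine LinearMap.mem_ker.2 (LinearMap.ext fun c => ?_)
    show TrProj.tr (K := K) ((c : D) * (q * ξ - ξ * q)) = 0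
    rw [mul_sub, map_sub, ← mul_assoc, ← (hC _).1 c.2, mul_assoc, TrProj.tr_comm q, mul_assoc, sub_self]
  have h1 := f.finrank_range_add_finrank_ker
  have h2 := π.finrank_range_add_finrank_ker
  rw [LinearMap.range_eq_top.2 hπ, finrank_top, Subspace.dual_finrank_eq] at h2
  rw [hker, Subalgebra.finrank_toSubmodule] at h1
  have heq : LinearMap.range f = LinearMap.ker π := Submodule.eq_of_le_of_finrank_le hle (by omega)
  have ha : a ∈ LinearMap.ker π := LinearMap.mem_ker.2 (LinearMap.ext fun c => h c ((hC _).1 c.2))
  rw [← heq] at ha
  exact ha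

section Series

open PowerSeries Polynomial

variable (S : PowerSeries D)

omit [FiniteDimensional K D] [CharZero K] in
/-- The first coefficient of a power, against what commutes with the constant term. -/
theorem tr_coeff_one_pow (m : ℕ) : ∀ c : D, c * constantCoeff S = constantCoeff S * c →
    TrProj.tr (K := K) (c * PowerSeries.coeff 1 (S ^ m)) =
      TrProj.tr (c * ((m : D) * constantCoeff S ^ (m - 1)) * PowerSeries.coeff 1 S) := by
  induction m with
  | zero => intro c _; simp
  | succ m ih =>
    intro c hc
    set q := constantCoeff S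
    have e : PowerSeries.coeff 1 (S ^ (m + 1)) =
        q ^ m * PowerSeries.coeff 1 S + PowerSeries.coeff 1 (S ^ m) * q := by
      rw [pow_succ, PowerSeries.coeff_mul, Finset.Nat.sum_antidiagonal_succ,
        Finset.Nat.antidiagonal_zero, Finset.sum_singleton]
      simp only [zero_add, coeff_zero_eq_constantCoeff_apply, map_pow, q]
    have hcq : c * q * q = q * (c * q) := by rw [← mul_assoc, ← hc]
    have e1 : TrProj.tr (K := K) (c * (PowerSeries.coeff 1 (S ^ m) * q)) =
        TrProj.tr (c * q * PowerSeries.coeff 1 (S ^ m)) := by
      rw [← mul_assoc, TrProj.tr_comm, ← mul_assoc, ← hc]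
    have hm : q * ((m : D) * q ^ (m - 1)) = (m : D) * q ^ m := by
      rcases Nat.eq_zero_or_pos m with h | h
      · simp [h]
      rw [← mul_assoc, ← Nat.cast_comm, mul_assoc, ← pow_succ', Nat.sub_add_cancel h]
    have := ih (c * q) (hcq.trans (by rfl))
    rw [mul_assoc c q ((m : D) * q ^ (m - 1)), hm] at this
    rw [e, mul_add, map_add, e1, this, Nat.add_sub_cancel, Nat.cast_succ, add_mul, one_mul, mul_add,
      add_mul, map_add, mul_assoc c (q ^ m), add_comm]

omit [FiniteDimensional K D] [CharZero K] in
/-- The first coefficient of a polynomial against what commutes with the constant term. -/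
theorem tr_coeff_one_aeval (f : Polynomial K) {c : D} (hc : c * constantCoeff S = constantCoeff S * c) :
    TrProj.tr (K := K) (c * PowerSeries.coeff 1 (aeval S f)) =
      TrProj.tr (c * aeval (constantCoeff S) (derivative f) * PowerSeries.coeff 1 S) := by
  induction f using Polynomial.induction_on' with
  | add p q hp hq => simp only [map_add, mul_add, add_mul, hp, hq]
  | monomial m r =>
    rw [aeval_monomial, derivative_monomial, aeval_monomial, PowerSeries.algebraMap_apply,
      PowerSeries.coeff_C_mul, ← Algebra.smul_def, ← Algebra.smul_def, mul_smul_comm, map_smul,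
      tr_coeff_one_pow S m c hc, mul_smul, mul_smul_comm, smul_mul_assoc, map_smul, ← map_natCast
      (algebraMap K D) m, ← Algebra.smul_def]

omit [FiniteDimensional K D] [CharZero K] in
theorem constantCoeff_aeval (f : Polynomial K) :
    constantCoeff (aeval S f) = aeval (constantCoeff S) f := by
  induction f using Polynomial.induction_on' with
  | add p q hp hq => simp only [map_add, hp, hq]
  | monomial m r =>
    rw [aeval_monomial, aeval_monomial, map_mul, map_pow, PowerSeries.algebraMap_apply,
      PowerSeries.constantCoeff_C]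

omit [FiniteDimensional K D] [CharZero K] in
/-- Where the polynomial kills the constant term, its first coefficient commutes with it. -/
theorem coeff_one_aeval_commute {f : Polynomial K} (hf : aeval (constantCoeff S) f = 0) :
    constantCoeff S * PowerSeries.coeff 1 (aeval S f) =
      PowerSeries.coeff 1 (aeval S f) * constantCoeff S := by
  have h0 : constantCoeff (aeval S f) = 0 := by rw [constantCoeff_aeval, hf]
  have h := congrArg (PowerSeries.coeff 1)
    (Algebra.commute_of_mem_adjoin_self (aeval_mem_adjoin_singleton K S (p := f))).eq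
  simp only [PowerSeries.coeff_mul, Finset.Nat.sum_antidiagonal_succ, Finset.Nat.antidiagonal_zero,
    Finset.sum_singleton, zero_add, coeff_zero_eq_constantCoeff_apply, h0, mul_zero, zero_mul,
    add_zero] at h
  exact h

end Series

section Equation

open Polynomial Finset

variable {K R : Type} [Field K] [DivisionRing R] [Algebra K R] [FiniteDimensional K R]
  (x u : Var → R) (p : Poly)

omit [FiniteDimensional K R] in
/-- The differential of a power against what commutes with the value. -/
theorem tr_d1_pow (m : ℕ) : ∀ c : R, c * Poly.ev x p = Poly.ev x p * c →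
    TrProj.tr (K := K) (c * Poly.d1 x u (p ^ m)) =
      TrProj.tr (c * ((m : R) * Poly.ev x p ^ (m - 1)) * Poly.d1 x u p) := by
  induction m with
  | zero => intro c _; simp [Poly.d1]
  | succ m ih =>
    intro c hc
    set q := Poly.ev x p
    have hcq : c * q * q = q * (c * q) := by rw [← mul_assoc, ← hc]
    have e1 : TrProj.tr (K := K) (c * (Poly.d1 x u (p ^ m) * q)) =
        TrProj.tr (c * q * Poly.d1 x u (p ^ m)) := by
      rw [← mul_assoc, TrProj.tr_comm, ← mul_assoc, ← hc]
    have hm : q * ((m : R) * q ^ (m - 1)) = (m : R) * q ^ m := by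
      rcases Nat.eq_zero_or_pos m with h | h
      · simp [h]
      rw [← mul_assoc, ← Nat.cast_comm, mul_assoc, ← pow_succ', Nat.sub_add_cancel h]
    have := ih (c * q) hcq
    rw [mul_assoc c q ((m : R) * q ^ (m - 1)), hm] at this
    rw [pow_succ, Poly.d1_mul, map_pow, mul_add, map_add, e1, this, Nat.add_sub_cancel, Nat.cast_succ,
      add_mul, one_mul, mul_add, add_mul, map_add, mul_assoc c (q ^ m), add_comm]

omit [FiniteDimensional K R] in
/-- The differential of an equation with fixed symbols against what commutes with the value. -/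
theorem tr_d1_eqn (e : ℕ) (s : ℕ → Var) (c : ℕ → K) (hx : ∀ i < e, x (s i) = algebraMap K R (c i))
    (hu : ∀ i < e, u (s i) = 0) (z : R) (hz : z * Poly.ev x p = Poly.ev x p * z) :
    TrProj.tr (K := K) (z * Poly.d1 x u (p ^ e + ∑ i ∈ range e, Poly.X (s i) * p ^ i)) =
      TrProj.tr (z * aeval (Poly.ev x p)
        (derivative (Polynomial.X ^ e + ∑ i ∈ range e, C (c i) * Polynomial.X ^ i)) *
          Poly.d1 x u p) := by
  have h1 : ∀ i < e, Poly.d1 x u (Poly.X (s i) * p ^ i) = c i • Poly.d1 x u (p ^ i) := fun i hi => by
    simp [Poly.d1_mul, Poly.ev_X, hx i hi, hu i hi, Algebra.smul_def]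
  rw [Poly.d1_add, Poly.d1_sum, sum_congr rfl fun i hi => h1 i (mem_range.1 hi)]
  simp only [mul_add, add_mul, map_add, derivative_C_mul_X_pow, derivative_X_pow, map_sum, mul_sum,
    sum_mul, map_mul, aeval_C, map_pow, aeval_X, mul_smul_comm, map_smul,
    tr_d1_pow x u p _ z hz, map_natCast, ← Algebra.smul_def, smul_mul_assoc]

end Equation

end

end Vale.Agent.P199.FreezeComm
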