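import Vale.Agent.P199.Freeze.Spread

/-!
P199, freeze: the leading part of a covector of the new rows with a nonzero new part. Scaled, it is a pair of traces: on
the old rows against `η`, on the motion of the new element against `ζ`; order zero kills the range of the residue rows,
order one is the linear relation, and on new tangents the form leads to the second order against `η` plus the pole against
`ζ`.
-/

namespace Vale.Agent.P199.Motion

open Module LiftSeries Vale.P199 LaurData

noncomputable section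

variable {P P₁ : Pt} {E : Ext P P₁} {M : Mono E} {L : Listing} {n : ℕ} {r : Rows L n P}
  {μ : Motion M r} {T : LaurData P₁} {rE : Rows L n T.pt} {s₁ : Rows.Amb T.pt}

/-- The leading part of a covector with nonzero new part. -/
structure Leading (μ : Motion M r) (T : LaurData P₁) (rE' : Rows L (n + 1) T.pt)
    (y : Dual T.pt.K ((j : Fin (n + 1)) → rE'.W j)) (η : Fin n → P₁.D) (ζ : P₁.D) : Prop where
  ne : η ≠ 0 ∨ ζ ≠ 0
  mem_big : ζ ∈ μ.big
  mem_field : ζ * E.iD (Freeze.phi L n μ.s₀) ∈ μ.cls.field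
  inv : ∀ (j : Fin n) (x : P₁.D),
    TrProj.tr (K := P₁.K) (η j * PJ E r j x) = TrProj.tr (η j * x)
  range : ∀ u : Rows.Amb P₁,
    ∑ j, TrProj.tr (K := P₁.K) (η j * P₁.dEq L (L.b n) j (u, 0)) = 0
  linear : ∀ u ∈ (baseRows E r).T,
    (∑ j, TrProj.tr (K := P₁.K)
        (η j * Lin (L := L) (n := n) E μ.a μ.b (M.U : P₁.D) (M.V : P₁.D) j (u, 0))) +
      TrProj.tr (K := P₁.K) (ζ * Freeze.dp L n u) = 0
  form : ∀ p q : Bool → PowerSeries P₁.D, T.emDir p ∈ rE'.T → T.emDir q ∈ rE'.T →
    rE'.form y (T.emDir p) (T.emDir q) = 0 → ∀ π : PowerSeries P₁.D,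
      T.qS L n * π - π * T.qS L n = PowerSeries.X * Poly.d1 T.ser (pdir p) (L.p n) →
      (∑ j : Fin n, TrProj.tr (K := P₁.K) (η j * Poly.d2 P₁.val
          (P₁.dirVal (N := L.b n) (fun c => PowerSeries.constantCoeff (p c), 0))
          (P₁.dirVal (N := L.b n) (fun c => PowerSeries.constantCoeff (q c), 0)) (L.eqn j))) +
        TrProj.tr (K := P₁.K) (ζ * (PowerSeries.constantCoeff π *
          Freeze.dp L n fun c => PowerSeries.constantCoeff (q c))) = 0

variable (H : μ.Setup T rE s₁)

include H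

/-- **The leading part exists.** -/
theorem Setup.exists_leading {y : Dual T.pt.K ((j : Fin (n + 1)) → (NewRow.rows H.hyp).W j)}
    (hy : y ∈ (NewRow.rows H.hyp).Y) (h0 : NewRow.newPart H.hyp y ≠ 0) :
    ∃ η ζ, μ.Leading T (NewRow.rows H.hyp) y η ζ := by
  classical
  have : CharZero T.pt.K := T.pt.charZero
  have : CharZero P₁.K := P₁.charZero
  obtain ⟨z, hzψ, hz⟩ := NewRow.exists_newPart_eq H.hyp y
  set C := NewRow.classes rE s₁
  set f := Polynomial.aeval (T.pt.q L n) (Polynomial.derivative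
      (Polynomial.X ^ L.e n + ∑ i ∈ Finset.range (L.e n),
        Polynomial.C (T.pt.c (L.b n + i)) * Polynomial.X ^ i)) with hfdef
  have hf : f ∈ T.pt.qAlg L n := Polynomial.aeval_mem_adjoin_singleton _ _
  have hf0 : f ≠ 0 := H.lifted.deriv_ne_zero
  have hzq : z ∈ T.pt.qAlg L n := by
    have h := mul_mem (NewRow.classes_le H.hyp hzψ)
      (TrProj.inv_mem _ (NewRow.psi_mem H.hyp H.hyp.mem))
    rwa [mul_assoc, mul_inv_cancel₀ H.hyp.ne, mul_one] at h
  have hzne : z ≠ 0 := fun h => h0 (LinearMap.ext fun a => by rw [hz, h, zero_mul, map_zero]; rfl)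
  set zh := z * f with hzh
  have hcomm : ∀ {x : T.pt.D}, x ∈ T.pt.qAlg L n → x * T.pt.q L n = T.pt.q L n * x :=
    fun hx => T.pt.qAlg_comm L hx (Algebra.self_mem_adjoin_singleton _ _)
  -- the old part as traces
  set y₀ := NewRow.oldPart H.hyp y
  have hZ : ∀ j : Fin n, ∃ Zj : T.pt.D, ∀ x, yv rE y₀ (Pi.single j x) = TrProj.tr (K := T.pt.K) (Zj * x) := by
    intro j
    obtain ⟨Zj, -, h⟩ := TrProj.exists_eq_tr (⊤ : Subalgebra T.pt.K T.pt.D)
      (((yv rE y₀).comp (LinearMap.single T.pt.K (fun _ : Fin n => T.pt.D) j)).comp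
        (⊤ : Subalgebra T.pt.K T.pt.D).val.toLinearMap)
    exact ⟨Zj, fun x => h ⟨x, Algebra.mem_top⟩⟩
  choose Z hZ using hZ
  have hyv : ∀ a : Fin n → T.pt.D, yv rE y₀ a = ∑ j, TrProj.tr (K := T.pt.K) (Z j * a j) := fun a => by
    conv_lhs => rw [← Finset.univ_sum_single a]
    rw [map_sum]
    exact Finset.sum_congr rfl fun j _ => hZ j _
  have hinv : ∀ (j : Fin n) x,
      TrProj.tr (K := T.pt.K) (Z j * rE.proj j x) = TrProj.tr (Z j * x) := by
    intro j x
    rw [← hZ, ← hZ, yv_apply, yv_apply]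
    congr 1
    funext i
    refine Subtype.ext ?_
    rcases eq_or_ne i j with rfl | hij
    · simp [rE.proj_self i _ (rE.proj_mem i x)]
    · simp [Pi.single_eq_of_ne hij]
  -- scaling
  obtain ⟨t, pp, ht, hpp, a₀, ha₀⟩ := T.exists_scale (κ := Option (Fin n))
    (fun o => o.elim zh fun j => T.eps • Z j)
    fun e => mul_ne_zero hzne hf0 (congrFun e none)
  have hζ : t • zh = T.em (pp none) := hpp none
  have hη : ∀ j, t • T.eps • Z j = T.em (pp (some j)) := fun j => hpp (some j)
  have key : ∀ (a : Fin n → PowerSeries P₁.D) (b : PowerSeries P₁.D),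
      yv rE y₀ (fun j => T.em (a j)) + TrProj.tr (K := T.pt.K) (zh * (T.eps⁻¹ • T.em b)) = 0 →
      ∀ k, TrProj.tr (K := P₁.K) (PowerSeries.coeff k (∑ j, pp (some j) * a j + pp none * b)) = 0 := by
    intro a b h k
    refine T.tr_coeff_eq_zero ?_ k
    simp only [map_add, map_sum, map_mul, ← hη, ← hζ, smul_mul_assoc, map_smul]
    have h2 : TrProj.tr (K := T.pt.K) (zh * T.em b) =
        T.eps • TrProj.tr (K := T.pt.K) (zh * (T.eps⁻¹ • T.em b)) := by
      rw [mul_smul_comm, map_smul, smul_smul, mul_inv_cancel₀ T.eps_ne_zero, one_smul]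
    simp only [h2, ← Finset.smul_sum, ← smul_add, ← hyv]
    rw [h, smul_zero, smul_zero]
  refine ⟨fun j => PowerSeries.constantCoeff (pp (some j)), PowerSeries.constantCoeff (pp none),
    ?_, ?_, ?_, ?_, ?_, ?_, ?_⟩
  · cases a₀ with
    | none => exact Or.inr ha₀
    | some j => exact Or.inl fun e => ha₀ (congrFun e j)
  · rw [← H.lifted.leadAlgebra_eq.1]
    exact T.mem_leadAlgebra.2
      ⟨pp none, hζ ▸ Subalgebra.smul_mem _ (mul_mem hzq hf) t, rfl⟩
  · obtain ⟨hlead, -, -, t₁, w, -, hw, h, hh, hh0, hw0⟩ := H.classes_eq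
    have hmem : PowerSeries.constantCoeff (pp none) * PowerSeries.constantCoeff w ∈ μ.cls.field := by
      rw [← hlead]
      refine T.mem_leadAlgebra.2 ⟨pp none * w, ?_, map_mul _ _ _⟩
      rw [map_mul, ← hζ, ← hw, smul_mul_assoc, mul_smul_comm, hzh, mul_assoc, ← H.psi_eq H.hyp.mem]
      exact Subalgebra.smul_mem _ (Subalgebra.smul_mem _ hzψ _) _
    rw [hw0, ← mul_assoc] at hmem
    have h2 := mul_mem hmem (TrProj.inv_mem _ hh)
    rwa [mul_assoc, mul_inv_cancel₀ hh0, mul_one] at h2
  · intro j x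
    obtain ⟨p', hp', hp'0⟩ := H.proj j (PowerSeries.C x)
    rw [PowerSeries.constantCoeff_C] at hp'0
    have h1 := T.tr_coeff_eq (p := pp (some j) * p') (q := pp (some j) * PowerSeries.C x) (by
      rw [map_mul T.em, map_mul T.em, ← hη, ← hp']
      simp only [smul_mul_assoc, map_smul, hinv]) 0
    simpa [hp'0] using h1
  -- the identity on ambient directions
  all_goals
    have hid : ∀ p : Bool → PowerSeries P₁.D,
        yv rE y₀ (fun j : Fin n => T.em (Poly.d1 T.ser (pdir p) (L.eqn j))) +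
          TrProj.tr (K := T.pt.K)
            (zh * (T.eps⁻¹ • T.em (PowerSeries.X * Poly.d1 T.ser (pdir p) (L.p n)))) = 0 := by
      intro p
      rw [T.em_X_mul, inv_smul_smul₀ T.eps_ne_zero]
      have h := (Submodule.mem_dualAnnihilator _).1 hy _ ⟨T.emDir p, rfl⟩
      rw [show (NewRow.rows H.hyp).J (T.emDir p) =
          fun j => ⟨(NewRow.rows H.hyp).proj j (T.pt.dEq L (L.b (n + 1)) j (T.emDir p, 0)),
            (NewRow.rows H.hyp).proj_mem j _⟩ from rfl,
        NewRow.apply_eq_parts H.hyp y fun j => T.pt.dEq L (L.b (n + 1)) j (T.emDir p, 0)] at h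
      simp only [T.pt.dEq_ambient L (L.b (n + 1)) (L.b n), Fin.val_castSucc, Fin.val_last, hz] at h
      rw [← h]
      congr 1
      · show y₀ _ = y₀ _
        congr 1
        funext j
        refine Subtype.ext ?_
        show rE.proj j (T.em (Poly.d1 T.ser (pdir p) (L.eqn j))) = rE.proj j _
        rw [← T.em_d1 (L.b n)]
        rfl
      · rw [← T.em_d1 (L.b n), hzh]
        exact (FreezeComm.tr_d1_eqn (K := T.pt.K) T.pt.val
          (T.pt.dirVal (N := L.b n) (T.emDir p, 0)) (L.p n) (L.e n)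
          (fun i => Sum.inr (L.b n + i)) (fun i => T.pt.c (L.b n + i)) (fun i _ => rfl)
          (fun i _ => by simp [Pt.dirVal]) z (hcomm hzq)).symm
  · intro u
    have h := key _ _ (hid fun c => PowerSeries.C (u c)) 0
    simp only [PowerSeries.coeff_zero_eq_constantCoeff_apply, map_add, map_sum, map_mul,
      PowerSeries.constantCoeff_X, zero_mul, mul_zero, add_zero] at h
    convert h using 1
    refine Finset.sum_congr rfl fun j _ => ?_
    have h1 := (H.d1_orders (fun c => PowerSeries.C (u c)) j).1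
    rw [PowerSeries.coeff_zero_eq_constantCoeff_apply] at h1
    rw [h1]
    simp
  · intro u hu
    have h := key _ _ (hid fun c => PowerSeries.C (u c)) 1
    have hd0 : ∀ j : Fin n, PowerSeries.constantCoeff
        (Poly.d1 T.ser (pdir fun c => PowerSeries.C (u c)) (L.eqn j)) = 0 := fun j => by
      rw [← PowerSeries.coeff_zero_eq_constantCoeff_apply, (H.d1_orders _ j).1]
      simpa using baseRows_fixed E r H.data.tight.fixed u hu j
    have hd1 : ∀ j : Fin n, PowerSeries.coeff 1
        (Poly.d1 T.ser (pdir fun c => PowerSeries.C (u c)) (L.eqn j)) =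
          Lin (L := L) (n := n) E μ.a μ.b (M.U : P₁.D) (M.V : P₁.D) j (u, 0) := fun j => by
      rw [(H.d1_orders _ j).2]
      simp only [PowerSeries.constantCoeff_C, PowerSeries.coeff_C, one_ne_zero, if_false]
      have e : ((fun _ => 0, 0) : P₁.Dir (L.b n)) = 0 := rfl
      rw [e, map_zero, zero_add]
    simp only [map_add, map_sum, PowerSeries.coeff_mul, Finset.Nat.sum_antidiagonal_succ,
      Finset.Nat.antidiagonal_zero, Finset.sum_singleton, zero_add,
      PowerSeries.coeff_zero_eq_constantCoeff_apply, hd0, hd1, mul_zero, add_zero,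
      PowerSeries.constantCoeff_X, zero_mul, PowerSeries.coeff_one_X, one_mul] at h
    convert h using 3
    congr 1
    rw [← PowerSeries.coeff_zero_eq_constantCoeff_apply, Poly.coeff_zero_d1, T.cf_zero_ser,
      cf_zero_pdir (L.b n)]
    simp [Freeze.dp_apply]
  · intro p q hp hq hform π hπ
    obtain ⟨hpT, hpψ⟩ := (NewRow.mem_T H.hyp).1 hp
    obtain ⟨hqT, hqψ⟩ := (NewRow.mem_T H.hyp).1 hq
    set x := T.pt.val with hx
    set a := fun j : Fin n => Poly.d2 T.ser (pdir p) (pdir q) (L.eqn j)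
    set b := π * Poly.d1 T.ser (pdir q) (L.p n) + PowerSeries.X * Poly.d2 T.ser (pdir p) (pdir q) (L.p n)
    have hξ : T.em (Poly.d1 T.ser (pdir p) (L.p n)) =
        T.pt.q L n * (T.eps⁻¹ • T.em π) - (T.eps⁻¹ • T.em π) * T.pt.q L n := by
      have h := congrArg T.em hπ
      rw [map_sub, map_mul, map_mul, T.em_qS, T.em_X_mul] at h
      rw [mul_smul_comm, smul_mul_assoc, ← smul_sub, h, inv_smul_smul₀ T.eps_ne_zero]
    have hnew : NewRow.newPart H.hyp y (Poly.d2 x (T.pt.dirVal (N := L.b n) (T.emDir p, 0))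
        (T.pt.dirVal (N := L.b n) (T.emDir q, 0)) (L.eqn n)) =
          TrProj.tr (K := T.pt.K) (zh * (T.eps⁻¹ • T.em b)) := by
      rw [hz]
      have h := Poly.tau_d2_tangent x (T.pt.dirVal (N := L.b n) (T.emDir p, 0))
        (T.pt.dirVal (N := L.b n) (T.emDir q, 0)) (L.p n) (TrProj.tr (K := T.pt.K)) TrProj.tr_comm
        (ξ := T.eps⁻¹ • T.em π) (by rw [hx, T.em_d1]; exact hξ) (L.e n)
        (fun i => Sum.inr (L.b n + i)) (fun i => T.pt.c (L.b n + i)) (fun i _ => rfl)
        (fun i _ => by simp [Pt.dirVal]) (fun i _ => by simp [Pt.dirVal]) zh f⁻¹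
        (hcomm (mul_mem hzq hf)) (hcomm (TrProj.inv_mem _ hf))
        (inv_mul_cancel₀ hf0) hqψ
      rw [hzh, mul_assoc z f f⁻¹, mul_inv_cancel₀ hf0, mul_one] at h
      refine h.trans (congrArg (fun w => TrProj.tr (K := T.pt.K) (zh * w)) ?_)
      rw [hx, T.em_d1, T.em_d2, smul_mul_assoc, ← map_mul]
      simp only [b]
      rw [map_add, T.em_X_mul, smul_add, inv_smul_smul₀ T.eps_ne_zero]
    have hold : rE.form y₀ (T.emDir p) (T.emDir q) = yv rE y₀ fun j => T.em (a j) := by
      show y₀ _ = y₀ _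
      congr 1
      funext j
      refine Subtype.ext ?_
      show rE.proj j _ = rE.proj j _
      rw [T.em_d2]
      rfl
    rw [NewRow.form_eq, hold, hnew] at hform
    have h := key a b hform 0
    simp only [a, b, PowerSeries.coeff_zero_eq_constantCoeff_apply, map_add, map_sum, map_mul,
      PowerSeries.constantCoeff_X, zero_mul, add_zero] at h
    simp only [← PowerSeries.coeff_zero_eq_constantCoeff_apply, Poly.coeff_zero_d1, Poly.coeff_zero_d2,
      T.cf_zero_ser, cf_zero_pdir (L.b n)] at h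
    simp only [PowerSeries.coeff_zero_eq_constantCoeff_apply] at h
    exact h

end

end Vale.Agent.P199.Motion
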