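import Vale.Agent.P199.Freeze.Order

/-!
P199, freeze: the centraliser of the element at the lifted point and the pole of a motion. The centraliser leads to the
centraliser of the big algebra, by counting dimensions; a motion orthogonal to it is `[q, ξ]` with `ε ξ` integral, and
the leading term of `ε ξ` is fixed up to that centraliser.
-/

namespace Vale.Agent.P199.Motion

open Module LiftSeries Vale.P199 LaurData PowerSeries

noncomputable section

variable {P P₁ : Pt} {E : Ext P P₁} {M : Mono E} {L : Listing} {n : ℕ} {r : Rows L n P}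
  {μ : Motion M r} {T : LaurData P₁} (H : μ.Lifted T)

omit H in
/-- What commutes with the old element commutes with its field. -/
theorem commute_iD_qAlg {x : P₁.D} (hx : x ∈ μ.C1) {y : P.D} (hy : y ∈ P.qAlg L n) :
    E.iD y * x = x * E.iD y := by
  refine Algebra.adjoin_induction (p := fun y _ => E.iD y * x = x * E.iD y) ?_ ?_ ?_ ?_ hy
  · intro z hz
    rw [Set.mem_singleton_iff.1 hz]
    exact μ.mem_C1.1 hx
  · intro k
    rw [E.map_algebraMap, Algebra.commutes]
  · intro a b _ _ ha hb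
    rw [map_add, add_mul, mul_add, ha, hb]
  · intro a b _ _ ha hb
    rw [map_mul, mul_assoc, hb, ← mul_assoc, ha, mul_assoc]

omit H in
/-- The centraliser of the big algebra. -/
theorem mem_centralizer_big {x : P₁.D} :
    x ∈ Subalgebra.centralizer P₁.K (μ.big : Set P₁.D) ↔ x ∈ μ.C1 ∧ μ.lead * x = x * μ.lead := by
  constructor
  · intro h
    rw [Subalgebra.mem_centralizer_iff] at h
    exact ⟨μ.mem_C1.2 (h _ (μ.iD_mem_big (Algebra.self_mem_adjoin_singleton _ _))), h _ μ.lead_mem_big⟩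
  · rintro ⟨h1, h2⟩
    rw [Subalgebra.mem_centralizer_iff]
    intro g hg
    refine ((Algebra.commute_of_mem_adjoin_of_forall_mem_commute hg fun a ha => ?_).symm).eq
    rcases ha with rfl | ⟨y, hy, rfl⟩
    · exact h2.symm
    · exact (commute_iD_qAlg h1 hy).symm

include H

/-- **The centraliser of the element leads onto the centraliser of the big algebra.** -/
theorem Lifted.exists_lift_commute
    (hK₁ : ∀ d : P₁.D, (∀ t, d * t = t * d) → ∃ a : P₁.K, algebraMap P₁.K P₁.D a = d) {κ : P₁.D}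
    (hκ : κ ∈ μ.C1) (hκ' : μ.lead * κ = κ * μ.lead) :
    ∃ χ : PowerSeries P₁.D, constantCoeff χ = κ ∧ T.qS L n * χ = χ * T.qS L n := by
  set A := T.pt.qAlg L n
  set C := Subalgebra.centralizer T.pt.K (A : Set T.pt.D)
  set B := Subalgebra.centralizer P₁.K (μ.big : Set P₁.D)
  obtain ⟨hA, hdim, hdimA⟩ := H.leadAlgebra_eq
  have hle : T.leadSub (Subalgebra.toSubmodule C) ≤ Subalgebra.toSubmodule B := by
    rintro _ ⟨p, hp, rfl⟩
    refine (Subalgebra.mem_centralizer_iff P₁.K).2 fun z hz => ?_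
    rw [← hA] at hz
    obtain ⟨w, hw, rfl⟩ := T.mem_leadAlgebra.1 hz
    have h : T.em (w * p) = T.em (p * w) := by
      rw [map_mul, map_mul]; exact (Subalgebra.mem_centralizer_iff T.pt.K).1 hp _ hw
    rw [← map_mul, ← map_mul, T.em_injective h]
  have h1 := FreezeComm.le_finrank_mul_centralizer A
  have h2 := FreezeComm.finrank_mul_centralizer_le hK₁ μ.big
  have hpos : 0 < finrank P₁.K μ.big := Module.finrank_pos
  rw [T.finrank_pt, hdimA, ← hdim] at h1
  have h3 : finrank P₁.K B ≤ finrank T.pt.K C := Nat.le_of_mul_le_mul_left (h2.trans h1) hpos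
  have heq : T.leadSub (Subalgebra.toSubmodule C) = Subalgebra.toSubmodule B := by
    refine Submodule.eq_of_le_of_finrank_le hle ?_
    rw [T.finrank_leadSub, Subalgebra.finrank_toSubmodule, Subalgebra.finrank_toSubmodule]
    exact h3
  have hmem : κ ∈ T.leadSub (Subalgebra.toSubmodule C) := by
    rw [heq]; exact mem_centralizer_big.2 ⟨hκ, hκ'⟩
  obtain ⟨χ, hχ, rfl⟩ := T.mem_leadSub.1 hmem
  refine ⟨χ, rfl, T.em_injective ?_⟩
  rw [map_mul, map_mul, T.em_qS]
  exact (Subalgebra.mem_centralizer_iff T.pt.K).1 hχ _ (Algebra.self_mem_adjoin_singleton _ _)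

omit H in
theorem tr_bracket (x y c : P₁.D) : TrProj.tr (K := P₁.K) (c * (x * y - y * x)) =
    TrProj.tr ((y * c - c * y) * x) := by
  rw [mul_sub, sub_mul, map_sub, map_sub, ← mul_assoc, TrProj.tr_comm (c * x) y, ← mul_assoc,
    ← mul_assoc]

/-- Orders zero and one of a commutator with the element. -/
theorem Lifted.bracket_orders (p : PowerSeries P₁.D)
    (h0 : constantCoeff (T.qS L n * p - p * T.qS L n) = 0) :
    constantCoeff p ∈ μ.C1 ∧ ∀ c ∈ μ.C1,
      TrProj.tr (K := P₁.K) (c * PowerSeries.coeff 1 (T.qS L n * p - p * T.qS L n)) =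
        TrProj.tr (c * (μ.lead * constantCoeff p - constantCoeff p * μ.lead)) := by
  rw [map_sub, map_mul, map_mul, H.qS_zero, sub_eq_zero] at h0
  have hp : constantCoeff p ∈ μ.C1 := μ.mem_C1.2 h0
  refine ⟨hp, fun c hc => ?_⟩
  have hz : TrProj.tr (K := P₁.K)
      (c * (E.iD (P.q L n) * PowerSeries.coeff 1 p - PowerSeries.coeff 1 p * E.iD (P.q L n))) = 0 := by
    rw [mul_sub, map_sub, ← mul_assoc, ← μ.mem_C1.1 hc, mul_assoc, TrProj.tr_comm, mul_assoc, sub_self]
  have hzm : ∀ x : P₁.D, TrProj.tr (K := P₁.K) (c * (x * constantCoeff p - constantCoeff p * x)) =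
      TrProj.tr ((constantCoeff p * c - c * constantCoeff p) * x) := fun x => tr_bracket _ _ _
  rw [map_sub, PowerSeries.coeff_mul, PowerSeries.coeff_mul, Finset.Nat.sum_antidiagonal_succ,
    Finset.Nat.sum_antidiagonal_succ, Finset.Nat.antidiagonal_zero, Finset.sum_singleton,
    Finset.sum_singleton]
  simp only [zero_add, coeff_zero_eq_constantCoeff_apply, H.qS_zero, H.qS_one]
  rw [show E.iD (P.q L n) * PowerSeries.coeff 1 p + μ.motion * constantCoeff p -
      (constantCoeff p * μ.motion + PowerSeries.coeff 1 p * E.iD (P.q L n)) =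
    (μ.motion * constantCoeff p - constantCoeff p * μ.motion) +
      (E.iD (P.q L n) * PowerSeries.coeff 1 p - PowerSeries.coeff 1 p * E.iD (P.q L n)) from by abel,
    mul_add, map_add, hz, add_zero, hzm, hzm,
    μ.tr_motion (sub_mem (mul_mem hp hc) (mul_mem hc hp))]

/-- **The pole is simple.** -/
theorem Lifted.exists_pole
    (hK₁ : ∀ d : P₁.D, (∀ t, d * t = t * d) → ∃ a : P₁.K, algebraMap P₁.K P₁.D a = d)
    (a : PowerSeries P₁.D)
    (ha : ∀ c : T.pt.D, T.pt.q L n * c = c * T.pt.q L n → TrProj.tr (K := T.pt.K) (c * T.em a) = 0) :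
    ∃ p : PowerSeries P₁.D, T.qS L n * p - p * T.qS L n = PowerSeries.X * a ∧
      constantCoeff p ∈ μ.C1 ∧ ∀ c ∈ μ.C1,
        TrProj.tr (K := P₁.K) (c * (μ.lead * constantCoeff p - constantCoeff p * μ.lead)) =
          TrProj.tr (c * constantCoeff a) := by
  have : CharZero T.pt.K := T.pt.charZero
  have : CharZero P₁.K := P₁.charZero
  obtain ⟨ξ, hξ⟩ := FreezeComm.exists_ad_eq (T.pt.q L n) (T.em a) ha
  obtain ⟨k, p, hp⟩ := T.exists_eps_pow ξ
  suffices h : ∀ k, ∀ p : PowerSeries P₁.D,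
      T.qS L n * p - p * T.qS L n = PowerSeries.X ^ (k + 1) * a →
        ∃ p' : PowerSeries P₁.D, T.qS L n * p' - p' * T.qS L n = PowerSeries.X * a by
    have hX : ∀ m (w : PowerSeries P₁.D), T.em (PowerSeries.X ^ m * w) = T.eps ^ m • T.em w := by
      intro m w
      induction m with
      | zero => simp
      | succ m ih => rw [pow_succ', mul_assoc, em_X_mul, ih, smul_smul, pow_succ']
    obtain ⟨p', hp'⟩ := h k (PowerSeries.X * p) (T.em_injective (by
      rw [map_sub, map_mul T.em (T.qS L n), map_mul T.em (PowerSeries.X * p), em_X_mul, T.em_qS, hX, ← hp, mul_smul_comm, mul_smul_comm,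
        smul_mul_assoc, smul_mul_assoc, smul_smul, smul_smul, ← pow_succ', ← smul_sub, hξ]))
    refine ⟨p', hp', ?_⟩
    have h0 : constantCoeff (T.qS L n * p' - p' * T.qS L n) = 0 := by rw [hp']; simp
    obtain ⟨h1, h2⟩ := H.bracket_orders p' h0
    refine ⟨h1, fun c hc => ?_⟩
    rw [← h2 c hc, hp', PowerSeries.coeff_succ_X_mul, coeff_zero_eq_constantCoeff_apply]
  intro k
  induction k with
  | zero => intro p hp; exact ⟨p, by rw [hp, pow_one]⟩
  | succ k ih =>
    intro p hp
    obtain ⟨hp0, hlead⟩ := H.bracket_orders p (by rw [hp]; simp)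
    have h1 : PowerSeries.coeff 1 (T.qS L n * p - p * T.qS L n) = 0 := by
      rw [hp, pow_succ', mul_assoc, PowerSeries.coeff_succ_X_mul, coeff_zero_eq_constantCoeff_apply]
      simp
    have hbr : μ.lead * constantCoeff p - constantCoeff p * μ.lead = 0 :=
      FreezeComm.eq_zero_of_tr μ.C1 (sub_mem (mul_mem μ.lead_mem hp0) (mul_mem hp0 μ.lead_mem))
        fun c hc => by rw [← hlead c hc, h1, mul_zero, map_zero]
    obtain ⟨χ, hχ0, hχ⟩ := H.exists_lift_commute hK₁ hp0 (sub_eq_zero.1 hbr)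
    obtain ⟨w, hw⟩ : PowerSeries.X ∣ p - χ := PowerSeries.X_dvd_iff.2 (by rw [map_sub, hχ0, sub_self])
    refine ih w (mul_left_cancel₀ (PowerSeries.X_ne_zero (R := P₁.D)) ?_)
    rw [mul_sub, ← mul_assoc, ← mul_assoc, ← (PowerSeries.commute_X (T.qS L n)).eq, mul_assoc, ← hw,
      ← mul_assoc, ← pow_succ', ← hp, mul_sub, sub_mul, hχ]
    abel

/-- Every admissible leading term of the pole is attained. -/
theorem Lifted.exists_pole_at
    (hK₁ : ∀ d : P₁.D, (∀ t, d * t = t * d) → ∃ a : P₁.K, algebraMap P₁.K P₁.D a = d)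
    (a : PowerSeries P₁.D)
    (ha : ∀ c : T.pt.D, T.pt.q L n * c = c * T.pt.q L n → TrProj.tr (K := T.pt.K) (c * T.em a) = 0)
    {p₀ : P₁.D} (hp₀ : p₀ ∈ μ.C1) (hp₀' : ∀ c ∈ μ.C1,
      TrProj.tr (K := P₁.K) (c * (μ.lead * p₀ - p₀ * μ.lead)) = TrProj.tr (c * constantCoeff a)) :
    ∃ p : PowerSeries P₁.D, T.qS L n * p - p * T.qS L n = PowerSeries.X * a ∧ constantCoeff p = p₀ := by
  have : CharZero P₁.K := P₁.charZero
  obtain ⟨p, hp, hpC, hlead⟩ := H.exists_pole hK₁ a ha
  have hbr : μ.lead * (p₀ - constantCoeff p) - (p₀ - constantCoeff p) * μ.lead = 0 :=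
    FreezeComm.eq_zero_of_tr μ.C1
      (sub_mem (mul_mem μ.lead_mem (sub_mem hp₀ hpC)) (mul_mem (sub_mem hp₀ hpC) μ.lead_mem))
      fun c hc => by
        rw [show μ.lead * (p₀ - constantCoeff p) - (p₀ - constantCoeff p) * μ.lead =
          (μ.lead * p₀ - p₀ * μ.lead) - (μ.lead * constantCoeff p - constantCoeff p * μ.lead) by noncomm_ring,
          mul_sub, map_sub, hp₀' c hc, hlead c hc, sub_self]
  obtain ⟨χ, hχ0, hχ⟩ := H.exists_lift_commute hK₁ (sub_mem hp₀ hpC) (sub_eq_zero.1 hbr)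
  refine ⟨p + χ, ?_, by rw [map_add, hχ0, add_sub_cancel]⟩
  rw [mul_add, add_mul, hχ, ← hp]
  abel

end

end Vale.Agent.P199.Motion
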