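import Vale.Agent.P199.Freeze.Series
import Vale.Agent.P199.Freeze.Pole
import Vale.Agent.P199.Lift.LiftForms

/-!
P199, freeze: the motions of the new element over the old tangents of the lifted point. They fill, up to `g ^ 2` and the
identities, a line over the field of the classes, whose dimension is `g l`; the leading terms of the classes are that
field.
-/

namespace Vale.Agent.P199

open Module LiftSeries Vale.P199

noncomputable section

/-- The hypotheses on the lifted point of a freeze and the rows on it. -/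
structure Motion.Setup {P P₁ : Pt} {E : Ext P P₁} {M : Mono E} {L : Listing} {n : ℕ} {r : Rows L n P}
    (μ : Motion M r) (T : LaurData P₁) (rE : Rows L n T.pt) (s₁ : Rows.Amb T.pt) : Prop where
  lifted : μ.Lifted T
  data : LiftData E r μ.a μ.b (M.U : P₁.D) (M.V : P₁.D)
  central₁ : ∀ d : P₁.D, (∀ t, d * t = t * d) → ∃ a : P₁.K, algebraMap P₁.K P₁.D a = d
  proj : ∀ (j : Fin n) (p : PowerSeries P₁.D), ∃ p', rE.proj j (T.em p) = T.em p' ∧
    PowerSeries.constantCoeff p' = PJ E r j (PowerSeries.constantCoeff p)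
  dimW : ∀ j, finrank T.pt.K (rE.W j) ≤ finrank P₁.K ((baseRows E r).W j)
  corank_le : rE.corank ≤ r.corank
  hyp : NewRow.Hyp rE s₁
  classes_le : finrank T.pt.K (NewRow.classes rE s₁) ≤ finrank P.K μ.FS * M.l
  large : 2 * (finrank P.K μ.FS * finrank P.K μ.FS + r.corank) < finrank P.K μ.FS * M.l

namespace Motion

open LaurData

variable {P P₁ : Pt} {E : Ext P P₁} {M : Mono E} {L : Listing} {n : ℕ} {r : Rows L n P}
  {μ : Motion M r} {T : LaurData P₁} {rE : Rows L n T.pt} {s₁ : Rows.Amb T.pt}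
  (H : μ.Setup T rE s₁)

include H

theorem Setup.cf_one_lt {j : Fin n} {i : ℕ} (hi : i < L.b ((j : ℕ) + 1)) : i < L.b n :=
  hi.trans_le (NewRow.b_mono L j.2)

/-- The first two orders of the differential of an old row along an integral direction. -/
theorem Setup.d1_orders (p : Bool → PowerSeries P₁.D) (j : Fin n) :
    PowerSeries.coeff 0 (Poly.d1 T.ser (pdir p) (L.eqn j)) =
        P₁.dEq L (L.b n) j (fun c => PowerSeries.constantCoeff (p c), 0) ∧
      PowerSeries.coeff 1 (Poly.d1 T.ser (pdir p) (L.eqn j)) =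
        P₁.dEq L (L.b n) j (fun c => PowerSeries.coeff 1 (p c), 0) +
          Lin (L := L) (n := n) E μ.a μ.b (M.U : P₁.D) (M.V : P₁.D) j
            (fun c => PowerSeries.constantCoeff (p c), 0) := by
  refine ⟨?_, ?_⟩
  · rw [Poly.coeff_zero_d1, T.cf_zero_ser, cf_zero_pdir (L.b n)]
    rfl
  · have h1 : ∀ a, Poly.cf 1 T.ser (Sum.inl a) =
        P₁.dirVal (N := L.b n) (X1 E μ.a μ.b (M.U : P₁.D) (M.V : P₁.D), 0) (Sum.inl a) :=
      fun a => H.lifted.cf_one _ fun i h => nomatch h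
    have h2 : ∀ i < L.b ((j : ℕ) + 1), Poly.cf 1 T.ser (Sum.inr i) =
        P₁.dirVal (N := L.b n) (X1 E μ.a μ.b (M.U : P₁.D) (M.V : P₁.D), 0) (Sum.inr i) :=
      fun i hi => H.lifted.cf_one _ fun k h => by cases h; exact H.cf_one_lt hi
    rw [Poly.coeff_one_d1, T.cf_zero_ser, cf_zero_pdir (L.b n), cf_one_pdir (L.b n),
      Poly.d2_eqn_congr L (H.lifted.guarded j j.2.le) P₁.val h1 (fun _ => rfl) h2 (fun _ _ => rfl),
      Poly.d2_eqn_congr L (H.lifted.guarded j j.2.le) P₁.val (fun _ => rfl) h1 (fun _ _ => rfl) h2]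
    rfl

/-- Old tangents at the lifted point lead to tangents staying in the range at order one. -/
theorem Setup.lead_le : T.leadAmb rE.T ≤ Tp E r μ.a μ.b (M.U : P₁.D) (M.V : P₁.D) := by
  intro x hx
  obtain ⟨p, hp, rfl⟩ := T.mem_leadAmb.1 hx
  have hz : ∀ j : Fin n, Poly.d1 T.ser (pdir p) (L.eqn j) = 0 := fun j => T.em_injective (by
    rw [← T.em_d1 (L.b n), map_zero]
    exact H.hyp.tight.fixed _ hp j)
  have h0 : ∀ j : Fin n, P₁.dEq L (L.b n) j (fun c => PowerSeries.constantCoeff (p c), 0) = 0 :=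
    fun j => by rw [← (H.d1_orders p j).1, hz j, map_zero]
  refine ⟨LinearMap.mem_ker.2 (funext fun j => Subtype.ext ?_), ?_⟩
  · exact (congrArg (PJ E r j) (h0 j)).trans (map_zero _)
  · refine ⟨-fun c => PowerSeries.coeff 1 (p c), ?_⟩
    rw [map_neg]
    funext j
    refine Subtype.ext ?_
    show -PJ E r j (P₁.dEq L (L.b n) j (_, 0)) = PJ E r j (Lin (L := L) (n := n) E μ.a μ.b _ _ j (_, 0))
    have h1 := (H.d1_orders p j).2
    rw [hz j, map_zero] at h1
    exact (map_neg (PJ E r j) _).symm.trans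
      (congrArg (PJ E r j) (eq_neg_of_add_eq_zero_right h1.symm).symm)

theorem Setup.finrank_Tp_le :
    finrank P₁.K (Tp E r μ.a μ.b (M.U : P₁.D) (M.V : P₁.D)) ≤
      finrank P₁.K (T.leadAmb rE.T) + r.corank := by
  rw [T.finrank_leadAmb]
  have h1 := finrank_Tp_add E r μ.a μ.b (M.U : P₁.D) (M.V : P₁.D)
  have h2 := finrank_le_reach E r H.data
  have h3 : finrank T.pt.K ((j : Fin n) → rE.W j) ≤
      finrank P₁.K ((j : Fin n) → (baseRows E r).W j) := by
    rw [Module.finrank_pi_fintype, Module.finrank_pi_fintype]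
    exact Finset.sum_le_sum fun j _ => H.dimW j
  have h4 := rE.J.finrank_range_add_finrank_ker
  have h5 := Submodule.finrank_le (LinearMap.range rE.J)
  have h6 : finrank T.pt.K (Rows.Amb T.pt) = finrank P₁.K (Rows.Amb P₁) := by
    show finrank T.pt.K (Bool → T.pt.D) = finrank P₁.K (Bool → P₁.D)
    rw [Module.finrank_pi_fintype, Module.finrank_pi_fintype, T.finrank_pt]
  have h7 : finrank T.pt.K rE.T = finrank T.pt.K (LinearMap.ker rE.J) := rfl
  omega

omit H in
/-- The reference motion times the monomial span. -/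
def multS (μ : Motion M r) : monSpan E →ₗ[P₁.K] Rows.Amb P₁ where
  toFun ν := fun c => E.iD (μ.s₀ c) * (ν : P₁.D)
  map_add' ν ν' := funext fun c => by simp [mul_add]
  map_smul' t ν := funext fun c => by simp

omit H in
theorem multS_injective : Function.Injective μ.multS := by
  refine (injective_iff_map_eq_zero _).2 fun ν hν => Subtype.ext ?_
  obtain ⟨c, hc⟩ : ∃ c, μ.s₀ c ≠ 0 := Function.ne_iff.1 fun h => μ.ne₀ (by rw [h]; exact map_zero _)
  exact (mul_eq_zero.1 (congrFun hν c)).resolve_left fun h => hc (E.iD.injective (by rw [map_zero]; exact h))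

/-- Most monomial multiples of the reference motion are leading tangents. -/
theorem Setup.finrank_comap :
    finrank P₁.K (monSpan E) ≤ finrank P₁.K ((T.leadAmb rE.T).comap μ.multS) + r.corank := by
  have hr : LinearMap.range μ.multS ≤ Tp E r μ.a μ.b (M.U : P₁.D) (M.V : P₁.D) := by
    rintro _ ⟨ν, rfl⟩
    exact multiples_mem E r H.data μ.mem₀ μ.orth ν.2
  have h1 := Submodule.finrank_sup_add_finrank_inf_eq (LinearMap.range μ.multS) (T.leadAmb rE.T)
  have h2 := Submodule.finrank_mono (sup_le hr H.lead_le)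
  have h3 := H.finrank_Tp_le
  have h4 : finrank P₁.K ((T.leadAmb rE.T).comap μ.multS) =
      finrank P₁.K ↥(LinearMap.range μ.multS ⊓ T.leadAmb rE.T) := by
    rw [← Submodule.map_comap_eq]
    exact (Submodule.equivMapOfInjective _ multS_injective _).finrank_eq
  rw [LinearMap.finrank_range_of_inj multS_injective] at h1
  omega

/-- On old tangents the differential of the new equation is the derivative times the projected motion. -/
theorem Setup.psi_eq {u : Rows.Amb T.pt} (hu : u ∈ rE.T) :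
    NewRow.psi (L := L) (n := n) u = Polynomial.aeval (T.pt.q L n) (Polynomial.derivative
      (Polynomial.X ^ L.e n + ∑ i ∈ Finset.range (L.e n),
        Polynomial.C (T.pt.c (L.b n + i)) * Polynomial.X ^ i)) * Freeze.phi L n u := by
  have : CharZero T.pt.K := T.pt.charZero
  set f := Polynomial.aeval (T.pt.q L n) (Polynomial.derivative
      (Polynomial.X ^ L.e n + ∑ i ∈ Finset.range (L.e n),
        Polynomial.C (T.pt.c (L.b n + i)) * Polynomial.X ^ i))
  have hf : f ∈ T.pt.qAlg L n := Polynomial.aeval_mem_adjoin_singleton _ _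
  show _ = f * TrProj.projOn _ (Freeze.dp L n u)
  rw [← TrProj.projOn_mul _ hf]
  refine (TrProj.eq_projOn _ (NewRow.psi_mem H.hyp hu) fun s hs => ?_).symm
  rw [← mul_assoc]
  exact FreezeComm.tr_d1_eqn _ _ (L.p n) (L.e n) (fun i => Sum.inr (L.b n + i))
    (fun i => T.pt.c (L.b n + i)) (fun i _ => rfl) (fun i _ => by simp [Pt.dirVal]) s
    (T.pt.qAlg_comm L hs (Algebra.self_mem_adjoin_singleton _ _))

theorem Setup.phi_ne : Freeze.phi (P := T.pt) L n s₁ ≠ 0 := fun h => H.hyp.ne (by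
  rw [H.psi_eq H.hyp.mem, h, mul_zero])

/-- Projected motions lie on the line of the classes. -/
theorem Setup.phi_mem_line {u : Rows.Amb T.pt} (hu : u ∈ rE.T) :
    (Freeze.phi (P := T.pt) L n s₁)⁻¹ * Freeze.phi L n u ∈ NewRow.classes rE s₁ := by
  have h : (NewRow.psi (L := L) (n := n) s₁)⁻¹ * NewRow.psi (L := L) (n := n) u ∈
      NewRow.classes rE s₁ := Algebra.subset_adjoin (Set.mem_image_of_mem _ hu)
  rwa [H.psi_eq H.hyp.mem, H.psi_eq hu, mul_inv_rev, mul_assoc, ← mul_assoc _⁻¹ _ (Freeze.phi L n u),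
    inv_mul_cancel₀ H.lifted.deriv_ne_zero, one_mul] at h

/-- **The leading terms of the classes are the field of the classes; the image is almost the whole line.** -/
theorem Setup.classes_eq :
    T.leadAlgebra (NewRow.classes rE s₁) = μ.cls.field ∧
      finrank T.pt.K (NewRow.classes rE s₁) = finrank P.K μ.FS * M.l ∧
      finrank P.K μ.FS * M.l ≤ finrank T.pt.K (rE.T.map (NewRow.psi (L := L) (n := n))) +
        (finrank P.K μ.FS * finrank P.K μ.FS + r.corank) ∧
      ∃ (t : T.pt.K) (w : PowerSeries P₁.D), t ≠ 0 ∧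
        t • Freeze.phi (P := T.pt) L n s₁ = T.em w ∧
        ∃ h ∈ μ.cls.field, h ≠ 0 ∧
          PowerSeries.constantCoeff w = E.iD (Freeze.phi L n μ.s₀) * h := by
  have : CharZero T.pt.K := T.pt.charZero
  have : CharZero P₁.K := P₁.charZero
  obtain ⟨hgl, hrel, -⟩ := μ.cls.model
  change finrank P₁.K μ.cls.field = finrank P.K μ.FS * M.l at hgl
  change ∀ N : Submodule P₁.K P₁.D, N ≤ Subalgebra.toSubmodule μ.cls.field →
    (∀ z ∈ N, ∀ k, TrProj.tr (K := P₁.K) (z * E.mon k) = 0) →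
      finrank P₁.K N ≤ finrank P.K μ.FS * finrank P.K μ.FS at hrel
  obtain ⟨hlead, -, -⟩ := H.lifted.leadAlgebra_eq
  set g := finrank P.K μ.FS
  set φ₀ := Freeze.phi L n μ.s₀
  have hφ₀ : E.iD φ₀ ≠ 0 := fun h => μ.ne₀ (E.iD.injective (by rw [map_zero]; exact h))
  set V₀ := (T.leadAmb rE.T).comap μ.multS
  let π : monSpan E →ₗ[P₁.K] P₁.D := (TrProj.projOn μ.cls.field).comp (monSpan E).subtype
  -- the projection of the monomials on the field
  have hπ : g * M.l ≤ finrank P₁.K (LinearMap.range π) + g * g := by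
    let Ψ : μ.cls.field →ₗ[P₁.K] Dual P₁.K (LinearMap.range π) :=
      LinearMap.mk₂ P₁.K (fun (z : μ.cls.field) (x : LinearMap.range π) =>
        TrProj.tr (K := P₁.K) ((z : P₁.D) * (x : P₁.D)))
        (fun a a' b => by simp [add_mul]) (fun c a b => by simp)
        (fun a b b' => by simp [mul_add]) (fun c a b => by simp)
    have h1 := Ψ.finrank_range_add_finrank_ker
    have h2 := Submodule.finrank_le (LinearMap.range Ψ)
    rw [Subspace.dual_finrank_eq] at h2
    have h3 : finrank P₁.K (LinearMap.ker Ψ) ≤ g * g := by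
      rw [← LinearEquiv.finrank_eq (Submodule.equivMapOfInjective μ.cls.field.val.toLinearMap
        Subtype.val_injective (LinearMap.ker Ψ)).symm]
      refine hrel _ ?_ ?_
      · rintro _ ⟨z, -, rfl⟩
        exact z.2
      · rintro _ ⟨z, hz, rfl⟩ k
        have h := LinearMap.congr_fun (LinearMap.mem_ker.1 hz)
          ⟨π ⟨E.mon k, mon_mem E k⟩, LinearMap.mem_range_self _ _⟩
        exact (TrProj.tr_mul_projOn μ.cls.field z.2 (E.mon k)).symm.trans h
    omega
  let I₀ : Submodule P₁.K P₁.D := V₀.map π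
  have hI₀ : g * M.l ≤ finrank P₁.K I₀ + (g * g + r.corank) := by
    have h1 : finrank P₁.K (monSpan E) ≤ finrank P₁.K V₀ + r.corank := H.finrank_comap
    have h2 := π.finrank_range_add_finrank_ker
    have : FiniteDimensional P₁.K V₀ := FiniteDimensional.finiteDimensional_submodule V₀
    have h3 := LinearMap.finrank_range_add_finrank_ker (K := P₁.K) (V := V₀) (V₂ := P₁.D) (π.domRestrict V₀)
    rw [LinearMap.range_domRestrict] at h3
    have h4 : finrank P₁.K (LinearMap.ker (π.domRestrict V₀)) ≤ finrank P₁.K (LinearMap.ker π) := by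
      rw [← Submodule.finrank_map_subtype_eq V₀ (LinearMap.ker (π.domRestrict V₀))]
      refine Submodule.finrank_mono ?_
      rintro _ ⟨v, hv, rfl⟩
      exact hv
    have h5 : finrank P₁.K I₀ = finrank P₁.K (V₀.map π) := rfl
    omega
  -- leading terms of the motions
  let ΦI := rE.T.map (Freeze.phi (P := T.pt) L n)
  have hmem : ∀ x ∈ I₀, E.iD φ₀ * x ∈ T.leadSub ΦI := by
    rintro _ ⟨ν, hν, rfl⟩
    obtain ⟨p, hp, hp0⟩ := T.mem_leadAmb.1 (show μ.multS ν ∈ T.leadAmb rE.T from hν)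
    obtain ⟨w, hw, hw0⟩ := T.projOn_em (T.pt.qAlg L n) (Poly.d1 T.ser (pdir p) (L.p n))
    refine T.mem_leadSub.2 ⟨w, ⟨T.emDir p, hp, ?_⟩, ?_⟩
    · rw [← hw, ← T.em_d1 (L.b n)]
      rfl
    · rw [hw0, hlead, ← PowerSeries.coeff_zero_eq_constantCoeff_apply, Poly.coeff_zero_d1,
        T.cf_zero_ser, cf_zero_pdir (L.b n), hp0]
      show TrProj.projOn μ.big (Poly.d1 P₁.val (P₁.dirVal (N := L.b n)
        (fun c => E.iD (μ.s₀ c) * (ν : P₁.D), 0)) (L.p n)) = _
      rw [dirVal_mul, val_eq E, ← Poly.map_d1 _ _ E.iD (ν : P₁.D) (comm_mem E ν.2)]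
      refine TrProj.eq_projOn _ (mul_mem (μ.iD_mem_big (Freeze.phi_mem L n _))
        (μ.field_le_big (TrProj.projOn_mem _ _))) fun c hc => ?_
      rw [← Freeze.dp_apply, μ.tr_dp_mon (μ.big_le hc) μ.mem₀ ν.2, ← mul_assoc, ← mul_assoc]
      obtain ⟨c', hc', hred⟩ := μ.exists_reduce
        (mul_mem hc (μ.iD_mem_big (Freeze.phi_mem L n μ.s₀)))
      rw [hred (π ν) (μ.cls.field_le_alg (TrProj.projOn_mem _ _)), hred _ (μ.monSpan_le_alg ν.2)]
      exact TrProj.tr_mul_projOn μ.cls.field hc' _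
  -- the line
  set C := NewRow.classes rE s₁
  set φ₁ := Freeze.phi (P := T.pt) L n s₁
  let S : Submodule T.pt.K T.pt.D := (Subalgebra.toSubmodule C).map (LinearMap.mulLeft T.pt.K φ₁)
  have hΦS : ΦI ≤ S := by
    rintro _ ⟨u, hu, rfl⟩
    exact ⟨φ₁⁻¹ * Freeze.phi L n u, H.phi_mem_line hu, by
      rw [LinearMap.mulLeft_apply, ← mul_assoc, mul_inv_cancel₀ H.phi_ne, one_mul]⟩
  obtain ⟨t, w, ht, hw, ⟨⟩, hw0⟩ := T.exists_scale (fun _ : Unit => φ₁) fun e => H.phi_ne (congrFun e ())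
  set w₀ := PowerSeries.constantCoeff (w ())
  have hS : T.leadSub S = (Subalgebra.toSubmodule (T.leadAlgebra C)).map (LinearMap.mulLeft P₁.K w₀) := by
    refine (Submodule.eq_of_le_of_finrank_le ?_ ?_).symm
    · rintro _ ⟨_, ⟨q, hq, rfl⟩, rfl⟩
      refine T.mem_leadSub.2 ⟨w () * q, ⟨t • T.em q, Submodule.smul_mem _ _ hq, ?_⟩, by
        rw [map_mul]; rfl⟩
      rw [LinearMap.mulLeft_apply, map_mul, ← hw (), smul_mul_assoc, mul_smul_comm]
    · rw [T.finrank_leadSub, ← (Submodule.equivMapOfInjective (LinearMap.mulLeft P₁.K w₀)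
          (mul_right_injective₀ hw0) (Subalgebra.toSubmodule (T.leadAlgebra C))).finrank_eq,
        Subalgebra.finrank_toSubmodule, T.finrank_leadAlgebra, ← Subalgebra.finrank_toSubmodule]
      exact Submodule.finrank_map_le _ _
  have hIS : ∀ x ∈ I₀, ∃ f ∈ T.leadAlgebra C, E.iD φ₀ * x = w₀ * f := by
    intro x hx
    have h := T.leadSub_mono hΦS (hmem x hx)
    rw [hS] at h
    obtain ⟨f, hf, he⟩ := h
    exact ⟨f, hf, he.symm⟩
  have hlarge : 2 * (g * g + r.corank) < g * M.l := H.large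
  obtain ⟨x₁, hx₁, hx₁0⟩ : ∃ x ∈ I₀, x ≠ 0 := by
    refine Submodule.exists_mem_ne_zero_of_ne_bot fun h => ?_
    rw [h, finrank_bot] at hI₀
    omega
  obtain ⟨f₁, hf₁, he₁⟩ := hIS x₁ hx₁
  have hf₁0 : f₁ ≠ 0 := fun h => by
    rw [h, mul_zero] at he₁
    exact mul_ne_zero hφ₀ hx₁0 he₁
  have hxfield : ∀ x ∈ I₀, x ∈ μ.cls.field := by
    rintro _ ⟨ν, -, rfl⟩
    exact TrProj.projOn_mem _ _
  let F' : Subalgebra P₁.K P₁.D := T.leadAlgebra C ⊓ μ.cls.field
  have hsub : I₀.map (LinearMap.mulLeft P₁.K x₁⁻¹) ≤ Subalgebra.toSubmodule F' := by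
    rintro _ ⟨x, hx, rfl⟩
    obtain ⟨f, hf, he⟩ := hIS x hx
    refine ⟨?_, mul_mem (TrProj.inv_mem _ (hxfield _ hx₁)) (hxfield _ hx)⟩
    have e : x₁⁻¹ * x = f₁⁻¹ * f := by
      have h1 : (E.iD φ₀ * x₁)⁻¹ * (E.iD φ₀ * x) = (w₀ * f₁)⁻¹ * (w₀ * f) := by rw [he₁, he]
      rwa [mul_inv_rev, mul_inv_rev, mul_assoc, mul_assoc, inv_mul_cancel_left₀ hφ₀,
        inv_mul_cancel_left₀ hw0] at h1
    show x₁⁻¹ * x ∈ T.leadAlgebra C
    rw [e]
    exact mul_mem (TrProj.inv_mem _ hf₁) hf
  have hdimF : finrank P₁.K I₀ ≤ finrank P₁.K F' := by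
    have h := Submodule.finrank_mono hsub
    rwa [Subalgebra.finrank_toSubmodule,
      ← (Submodule.equivMapOfInjective _ (mul_right_injective₀ (inv_ne_zero hx₁0)) _).finrank_eq] at h
  have hF : F' = μ.cls.field := FreezeComm.eq_of_half inf_le_right (by rw [hgl]; omega)
  have hfle : μ.cls.field ≤ T.leadAlgebra C := hF ▸ inf_le_left
  have heq : T.leadAlgebra C = μ.cls.field := by
    refine (Subalgebra.toSubmodule_injective (Submodule.eq_of_le_of_finrank_le
      (Subalgebra.toSubmodule.monotone hfle) ?_)).symm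
    rw [Subalgebra.finrank_toSubmodule, Subalgebra.finrank_toSubmodule, T.finrank_leadAlgebra, hgl]
    exact H.classes_le
  refine ⟨heq, by rw [← T.finrank_leadAlgebra, heq, hgl], ?_, t, w (), ht, hw (), x₁ * f₁⁻¹,
    mul_mem (hxfield _ hx₁) (TrProj.inv_mem _ (heq ▸ hf₁)), mul_ne_zero hx₁0 (inv_ne_zero hf₁0), ?_⟩
  · refine hI₀.trans (Nat.add_le_add_right ?_ _)
    have h1 : finrank P₁.K I₀ ≤ finrank P₁.K (T.leadSub ΦI) := by
      rw [(Submodule.equivMapOfInjective (LinearMap.mulLeft P₁.K (E.iD φ₀))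
        (mul_right_injective₀ hφ₀) I₀).finrank_eq]
      refine Submodule.finrank_mono ?_
      rintro _ ⟨x, hx, rfl⟩
      exact hmem x hx
    rw [T.finrank_leadSub,
      (Submodule.equivMapOfInjective (LinearMap.mulLeft T.pt.K (Polynomial.aeval (T.pt.q L n)
        (Polynomial.derivative (Polynomial.X ^ L.e n + ∑ i ∈ Finset.range (L.e n),
          Polynomial.C (T.pt.c (L.b n + i)) * Polynomial.X ^ i))))
        (mul_right_injective₀ H.lifted.deriv_ne_zero) ΦI).finrank_eq] at h1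
    refine h1.trans (Submodule.finrank_mono ?_)
    rintro _ ⟨_, ⟨u, hu, rfl⟩, rfl⟩
    exact ⟨u, hu, H.psi_eq hu⟩
  · rw [← mul_assoc, he₁, mul_assoc, mul_inv_cancel₀ hf₁0, mul_one]

/-- **The identities after the freeze.** -/
theorem Setup.corank_le_freeze :
    (NewRow.rows H.hyp).corank ≤ 2 * r.corank + finrank P.K μ.FS * finrank P.K μ.FS := by
  have h1 := NewRow.corank_add H.hyp
  obtain ⟨-, h2, h3, -⟩ := H.classes_eq
  have h4 := H.corank_le
  omega

end Motion

end

end Vale.Agent.P199
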