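import Vale.Agent.P199.Minimise.Degree
import Vale.Agent.P199.Stage.TrProj

/-!
P199, freeze: leading terms at a Laurent point. Every subspace has the dimension of its space of leading terms, leading
terms of products are products, and the trace of left multiplication of an integral element is the series of the traces.
-/

namespace Vale.Agent.P199

open Module Vale.P199

noncomputable section

namespace LaurData

variable {P₁ : Pt} (T : LaurData P₁)

/-- The integral elements. -/
abbrev em : PowerSeries P₁.D →+* T.pt.D := T.laur.emb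

theorem em_injective : Function.Injective T.em := fun _ _ h =>
  LaurentAlg.psE_injective (T.laur.eD.injective h)

/-- A scalar series. -/
def scal (z : LaurentSeries P₁.K) : T.pt.K := T.laur.eK z

theorem em_map (z : PowerSeries P₁.K) :
    T.em (PowerSeries.map (algebraMap P₁.K P₁.D) z) =
      algebraMap T.pt.K T.pt.D (T.scal (HahnSeries.ofPowerSeries ℤ P₁.K z)) := T.laur.eD_scalar z

variable {ι : Type} [Fintype ι] (b : Basis ι P₁.K P₁.D)

/-- The constants of a basis. -/
def bas : Basis ι T.pt.K T.pt.D :=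
  haveI : Nonempty ι := b.index_nonempty
  basisOfLinearIndependentOfCardEqFinrank
    (T.laur.linearIndependent_emb (fun i => PowerSeries.C (b i))
      (by simpa using b.linearIndependent))
    (by rw [T.finrank_pt, finrank_eq_card_basis b])

theorem bas_apply (i : ι) : T.bas b i = T.em (PowerSeries.C (b i)) := by simp [bas]

theorem em_mk (p : ι → PowerSeries P₁.K) :
    T.em (PowerSeries.mk fun k => ∑ i, PowerSeries.coeff k (p i) • b i) =
      ∑ i, T.scal (HahnSeries.ofPowerSeries ℤ P₁.K (p i)) • T.bas b i := by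
  have e : (PowerSeries.mk fun k => ∑ i, PowerSeries.coeff k (p i) • b i) =
      ∑ i, PowerSeries.map (algebraMap P₁.K P₁.D) (p i) * PowerSeries.C (b i) := by
    ext k
    simp only [PowerSeries.coeff_mk, map_sum, PowerSeries.coeff_mul_C, PowerSeries.coeff_map,
      Algebra.smul_def]
  rw [e, map_sum]
  refine Finset.sum_congr rfl fun i _ => ?_
  rw [map_mul, em_map, bas_apply, Algebra.smul_def]

/-- The space of leading terms. -/
def leadSub (S : Submodule T.pt.K T.pt.D) : Submodule P₁.K P₁.D where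
  carrier := {a | ∃ p : PowerSeries P₁.D, T.em p ∈ S ∧ PowerSeries.constantCoeff p = a}
  zero_mem' := ⟨0, by simp, by simp⟩
  add_mem' := by
    rintro _ _ ⟨p, hp, rfl⟩ ⟨q, hq, rfl⟩
    exact ⟨p + q, by rw [map_add]; exact S.add_mem hp hq, map_add _ _ _⟩
  smul_mem' := by
    rintro c _ ⟨p, hp, rfl⟩
    refine ⟨PowerSeries.map (algebraMap P₁.K P₁.D) (PowerSeries.C c) * p, ?_, ?_⟩
    · rw [map_mul, em_map, ← Algebra.smul_def]
      exact S.smul_mem _ hp
    · rw [PowerSeries.map_C, map_mul, PowerSeries.constantCoeff_C, ← Algebra.smul_def]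

theorem mem_leadSub {S : Submodule T.pt.K T.pt.D} {a : P₁.D} :
    a ∈ T.leadSub S ↔ ∃ p : PowerSeries P₁.D, T.em p ∈ S ∧ PowerSeries.constantCoeff p = a := Iff.rfl

theorem leadSub_mono {S S' : Submodule T.pt.K T.pt.D} (h : S ≤ S') : T.leadSub S ≤ T.leadSub S' :=
  fun _ ⟨p, hp, ha⟩ => ⟨p, h hp, ha⟩

/-- **The leading terms keep the dimension.** -/
theorem finrank_leadSub (S : Submodule T.pt.K T.pt.D) :
    finrank P₁.K (T.leadSub S) = finrank T.pt.K S := by
  let b := finBasis P₁.K P₁.D
  let f : T.pt.D ≃ₗ[T.pt.K] (Fin (finrank P₁.K P₁.D) → T.pt.K) := (T.bas b).equivFun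
  let S₀ := S.map f.toLinearMap
  let S' : Submodule (LaurentSeries P₁.K) (Fin (finrank P₁.K P₁.D) → LaurentSeries P₁.K) := S₀
  have h1 : finrank (LaurentSeries P₁.K) S' = finrank T.pt.K S := f.finrank_map_eq S
  have key : ∀ p : Fin (finrank P₁.K P₁.D) → PowerSeries P₁.K,
      T.em (PowerSeries.mk fun k => ∑ i, PowerSeries.coeff k (p i) • b i) ∈ S ↔
        Valued.up p ∈ S' := by
    intro p
    have e : f (T.em (PowerSeries.mk fun k => ∑ i, PowerSeries.coeff k (p i) • b i)) = Valued.up p := by
      rw [T.em_mk b, ← (T.bas b).equivFun_symm_apply]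
      exact f.apply_symm_apply _
    rw [← e]
    show _ ↔ f (T.em _) ∈ S₀
    exact (Submodule.mem_map_of_mem (f := f.toLinearMap) |> fun h => ⟨h, fun hx => by
      obtain ⟨x, hx', hxe⟩ := Submodule.mem_map.1 hx
      exact f.injective hxe ▸ hx'⟩)
  rw [← h1, ← Valued.finrank_lead S']
  refine (LinearEquiv.finrank_eq ?_)
  refine (b.equivFun.submoduleMap (T.leadSub S)).trans (LinearEquiv.ofEq _ _ ?_)
  ext c
  simp only [Submodule.mem_map, mem_leadSub, Valued.mem_lead]
  constructor
  · rintro ⟨a, ⟨p, hp, rfl⟩, rfl⟩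
    refine ⟨fun i => PowerSeries.mk fun k => b.repr (PowerSeries.coeff k p) i, (key _).1 ?_, fun i => ?_⟩
    · convert hp using 2
      ext k
      simp [b.sum_repr]
    · rw [← PowerSeries.coeff_zero_eq_constantCoeff_apply, PowerSeries.coeff_mk,
        PowerSeries.coeff_zero_eq_constantCoeff_apply]
      rfl
  · rintro ⟨p, hp, hc⟩
    refine ⟨∑ i, PowerSeries.constantCoeff (p i) • b i, ⟨_, (key p).2 hp, ?_⟩, ?_⟩
    · simp only [← PowerSeries.coeff_zero_eq_constantCoeff_apply, PowerSeries.coeff_mk]
    · show b.equivFun _ = c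
      simp only [hc]
      rw [← b.equivFun_symm_apply, LinearEquiv.apply_symm_apply]

/-- Leading terms of a subalgebra are closed under products. -/
def leadAlgebra (A : Subalgebra T.pt.K T.pt.D) : Subalgebra P₁.K P₁.D :=
  (T.leadSub (Subalgebra.toSubmodule A)).toSubalgebra
    ⟨1, by simp [A.one_mem], map_one _⟩ fun _ _ ⟨p, hp, hpa⟩ ⟨q, hq, hqa⟩ =>
      ⟨p * q, by rw [map_mul]; exact A.mul_mem hp hq, by rw [map_mul, hpa, hqa]⟩

theorem mem_leadAlgebra {A : Subalgebra T.pt.K T.pt.D} {a : P₁.D} :
    a ∈ T.leadAlgebra A ↔ ∃ p : PowerSeries P₁.D, T.em p ∈ A ∧ PowerSeries.constantCoeff p = a :=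
  Iff.rfl

theorem finrank_leadAlgebra (A : Subalgebra T.pt.K T.pt.D) :
    finrank P₁.K (T.leadAlgebra A) = finrank T.pt.K A := T.finrank_leadSub _

/-- The trace of an integral element is the series of the traces. -/
theorem tr_em (p : PowerSeries P₁.D) :
    TrProj.tr (K := T.pt.K) (T.em p) = T.scal (HahnSeries.ofPowerSeries ℤ P₁.K
      (PowerSeries.mk fun k => TrProj.tr (K := P₁.K) (PowerSeries.coeff k p))) := by
  classical
  let b := finBasis P₁.K P₁.D
  have hrep : ∀ i j, (T.bas b).repr (T.em p * T.bas b i) j = T.scal (HahnSeries.ofPowerSeries ℤ P₁.K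
      (PowerSeries.mk fun k => b.repr (PowerSeries.coeff k p * b i) j)) := by
    intro i j
    have e : T.em p * T.bas b i = ∑ j, T.scal (HahnSeries.ofPowerSeries ℤ P₁.K
        (PowerSeries.mk fun k => b.repr (PowerSeries.coeff k p * b i) j)) • T.bas b j := by
      rw [← T.em_mk b, T.bas_apply, ← map_mul]
      congr 1
      ext k
      simp [b.sum_repr]
    rw [e, Basis.repr_sum_self]
  simp only [TrProj.tr, LinearMap.comp_apply, AlgHom.toLinearMap_apply]
  rw [LinearMap.trace_eq_matrix_trace T.pt.K (T.bas b)]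
  simp only [LinearMap.trace_eq_matrix_trace P₁.K b, Matrix.trace, Matrix.diag_apply,
    LinearMap.toMatrix_apply, Algebra.coe_lmul_eq_mul, LinearMap.mul_apply', hrep]
  rw [show (PowerSeries.mk fun k => ∑ i, b.repr (PowerSeries.coeff k p * b i) i) =
    ∑ i, PowerSeries.mk fun k => b.repr (PowerSeries.coeff k p * b i) i by ext k; simp]
  simp only [scal, map_sum]

/-- Vanishing of the trace passes to the leading term. -/
theorem tr_coeff_eq_zero {p : PowerSeries P₁.D} (h : TrProj.tr (K := T.pt.K) (T.em p) = 0) (k : ℕ) :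
    TrProj.tr (K := P₁.K) (PowerSeries.coeff k p) = 0 := by
  rw [T.tr_em] at h
  have h1 : (PowerSeries.mk fun k => TrProj.tr (K := P₁.K) (PowerSeries.coeff k p)) = 0 :=
    HahnSeries.ofPowerSeries_injective (T.laur.eK.injective (by rw [map_zero, map_zero]; exact h))
  simpa using congrArg (PowerSeries.coeff k) h1

/-- The scalar `ε`. -/
def eps : T.pt.K := T.scal (HahnSeries.ofPowerSeries ℤ P₁.K PowerSeries.X)

theorem eps_ne_zero : T.eps ≠ 0 := fun h => PowerSeries.X_ne_zero (R := P₁.K)
  (HahnSeries.ofPowerSeries_injective (T.laur.eK.injective (by rw [map_zero, map_zero]; exact h)))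

theorem em_X_mul (p : PowerSeries P₁.D) : T.em (PowerSeries.X * p) = T.eps • T.em p := by
  rw [Algebra.smul_def, eps, ← em_map, ← map_mul, PowerSeries.map_X]

/-- A nonzero family has a scaling with integral values, not all leading terms zero. -/
theorem exists_scale {κ : Type} [Fintype κ] (x : κ → T.pt.D) (hx : x ≠ 0) :
    ∃ (t : T.pt.K) (p : κ → PowerSeries P₁.D), t ≠ 0 ∧ (∀ a, t • x a = T.em (p a)) ∧
      ∃ a, PowerSeries.constantCoeff (p a) ≠ 0 := by
  let b := finBasis P₁.K P₁.D
  let v : κ × Fin (finrank P₁.K P₁.D) → LaurentSeries P₁.K := fun z => (T.bas b).equivFun (x z.1) z.2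
  have hv : v ≠ 0 := fun e => hx (funext fun a => (T.bas b).equivFun.injective (by
    rw [Pi.zero_apply, map_zero]
    exact funext fun i => congrFun e (a, i)))
  obtain ⟨q, hq, z, hz⟩ := Valued.exists_normalised
    (S := Submodule.span (LaurentSeries P₁.K) ({v} : Set (κ × Fin (finrank P₁.K P₁.D) → LaurentSeries P₁.K)))
    (by simpa using hv)
  obtain ⟨t, ht⟩ := Submodule.mem_span_singleton.1 hq
  have he : ∀ a, T.scal t • x a =
      T.em (PowerSeries.mk fun k => ∑ i, PowerSeries.coeff k (q (a, i)) • b i) := by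
    intro a
    rw [T.em_mk b, ← (T.bas b).equivFun_symm_apply,
      ← (T.bas b).equivFun.symm_apply_apply (T.scal t • x a), map_smul]
    exact congrArg _ (funext fun i => congrFun ht (a, i))
  refine ⟨T.scal t, fun a => PowerSeries.mk fun k => ∑ i, PowerSeries.coeff k (q (a, i)) • b i, ?_, he,
    z.1, fun h0 => hz ?_⟩
  · intro h0
    have ht0 : t = 0 := T.laur.eK.injective (by rw [map_zero]; exact h0)
    rw [ht0, zero_smul] at ht
    exact hz (by rw [show q z = 0 from Valued.up_injective (a₂ := 0) (by rw [← ht, Valued.up_zero]) ▸ rfl, map_zero])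
  · rw [← PowerSeries.coeff_zero_eq_constantCoeff_apply, PowerSeries.coeff_mk] at h0
    have := Fintype.linearIndependent_iff.1 b.linearIndependent _ h0 z.2
    simpa using this

end LaurData

end

end Vale.Agent.P199
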