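import Vale.Agent.P199.Freeze.RankNew

/-!
P199, freeze: the lifted rows with the new one. Their identities are at most `2 c + g ^ 2`, and for a large degree of
the monomials the ranks of all their forms exceed twelve times that.
-/

namespace Vale.Agent.P199.Motion

open Module LiftSeries Vale.P199

noncomputable section

variable {P P₁ : Pt} {E : Ext P P₁} {M : Mono E} {L : Listing} {n : ℕ} {r : Rows L n P}
  {μ : Motion M r} {T : LaurData P₁} {rE : Rows L n T.pt} {s₁ : Rows.Amb T.pt}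
  (H : μ.Setup T rE s₁)

include H

/-- **The ranks after the freeze.** -/
theorem Setup.rankGE_freeze {R RE : ℕ} (hR : r.RankGE R) (hRE : rE.RankGE RE) (hnd : NonDeg E)
    (hspec : RankSpec E.iK)
    (hpencil : ∀ y ∈ r.Y, ∀ z ∈ r.Y, (∀ s ∈ r.T, Freeze.phi L n s = 0 →
      r.form y μ.a s + r.form z μ.b s = 0) → y = 0 ∧ z = 0)
    (hl5 : 5 * finrank P.K μ.FS ≤ M.l) :
    (NewRow.rows H.hyp).RankGE (min (RE - 2 * (finrank P.K μ.FS * M.l))
      (min (R * E.m - (2 * (r.corank * E.m) + 2 * (finrank P.K μ.FS * M.l) + finrank P.K μ.FS * E.m))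
        ((M.l - 3 * finrank P.K μ.FS) * (M.l - 2 * finrank P.K μ.FS) -
          (3 * (finrank P.K μ.FS * M.l) + 2 * r.corank)))) := by
  have h := NewRow.rankGE H.hyp hRE fun y hy h0 S hS hrad =>
    H.rank_new hR hnd hspec hpencil hl5 hy h0 S hS hrad
  intro y hy hy0 S hS hrad
  have h1 := h y hy hy0 S hS hrad
  have h2 := H.classes_le
  omega

omit H in
/-- The bounds exceed twelve times the new number of identities at a large degree. -/
theorem freeze_arith {c g l R : ℕ} (hg : 0 < g) (hR : 12 * c + 50 * g ≤ R)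
    (hl : 30 * (c + g * g + 1) ≤ l) :
    12 * (2 * c + g * g) < min (l * l * (R - 4 * c) - 2 * c - 2 * (g * l))
      (min (R * (l * l) - (2 * (c * (l * l)) + 2 * (g * l) + g * (l * l)))
        ((l - 3 * g) * (l - 2 * g) - (3 * (g * l) + 2 * c))) := by
  obtain ⟨k, rfl⟩ : ∃ k, l = 30 * (c + g * g + 1) + k := ⟨_, (Nat.add_sub_cancel' hl).symm⟩
  set l := 30 * (c + g * g + 1) + k with hl'
  have hgg : g ≤ g * g := Nat.le_mul_self g
  obtain ⟨a, ha⟩ : ∃ a, R = 12 * c + 50 * g + a := ⟨_, (Nat.add_sub_cancel' hR).symm⟩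
  obtain ⟨u, hu⟩ : ∃ u, l = 3 * g + u := ⟨l - 3 * g, by omega⟩
  have hl1 : l ≤ l * l := Nat.le_mul_self l
  have hgl : g * l ≤ g * (l * l) := Nat.mul_le_mul_left g hl1
  have hl2 : l * l ≤ g * (l * l) := Nat.le_mul_of_pos_left _ hg
  refine lt_min ?_ (lt_min ?_ ?_) <;> rw [Nat.lt_sub_iff_add_lt]
  · rw [show R - 4 * c = 8 * c + 50 * g + a by omega, Nat.lt_sub_iff_add_lt]
    nlinarith
  · rw [ha]
    nlinarith
  · rw [show l - 3 * g = u by omega, show l - 2 * g = g + u by omega]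
    nlinarith

/-- **The freeze keeps forms of large rank.** -/
theorem Setup.exists_rankGE_freeze {R : ℕ} (hR : r.RankGE R)
    (hroom : 12 * r.corank + 50 * finrank P.K μ.FS ≤ R)
    (hRE : rE.RankGE (E.m * (R - 4 * r.corank) - 2 * r.corank)) (hnd : NonDeg E)
    (hspec : RankSpec E.iK)
    (hpencil : ∀ y ∈ r.Y, ∀ z ∈ r.Y, (∀ s ∈ r.T, Freeze.phi L n s = 0 →
      r.form y μ.a s + r.form z μ.b s = 0) → y = 0 ∧ z = 0)
    (hbig : 30 * (r.corank + finrank P.K μ.FS * finrank P.K μ.FS + 1) ≤ M.l) :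
    ∃ R', 12 * (NewRow.rows H.hyp).corank < R' ∧ (NewRow.rows H.hyp).RankGE R' := by
  have hg : 0 < finrank P.K μ.FS := Module.finrank_pos
  have hgg := Nat.le_mul_self (finrank P.K μ.FS)
  refine ⟨_, lt_of_le_of_lt (Nat.mul_le_mul_left 12 H.corank_le_freeze) ?_,
    H.rankGE_freeze hR hRE hnd hspec hpencil (by omega)⟩
  rw [M.m_eq]
  exact freeze_arith hg hroom hbig

end

end Vale.Agent.P199.Motion
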