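import Vale.Agent.P199.Freeze.Base
import Vale.Agent.P199.Minimise.Degree
import Vale.Agent.P199.FreezeField

/-!
P199, freeze: the field of the leading motions. With `F` the classes inside the field of the old element, `θ = α U + β V`
and `F = K (β / α)`, the algebra generated by `F` and `θ` has dimension `g l`, at most `g ^ 2` of it kills every
monomial under the trace, and each nonzero such element has a pole form of rank about `l ^ 2`.
-/

namespace Vale.Agent.P199

open Module LiftSeries Vale.P199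

noncomputable section

/-- The data of the leading motion. -/
structure ClassData {P P₁ : Pt} {E : Ext P P₁} (M : Mono E) where
  /-- The classes. -/
  FS : Subalgebra P.K P.D
  comm : ∀ x ∈ FS, ∀ y ∈ FS, x * y = y * x
  /-- The motion along `U`. -/
  α : P.D
  /-- The motion along `V`. -/
  β : P.D
  hα : α ∈ FS
  hβ : β ∈ FS
  α_ne : α ≠ 0
  span_pow : Submodule.span P.K
    (Set.range fun t : Fin (finrank P.K FS) => (β * α⁻¹) ^ (t : ℕ)) = Subalgebra.toSubmodule FS

namespace ClassData

variable {P P₁ : Pt} {E : Ext P P₁} {M : Mono E} (d : ClassData M)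

/-- The leading motion. -/
def theta : P₁.D := E.iD d.α * M.U + E.iD d.β * M.V

/-- The algebra of the leading motion over the classes. -/
def field : Subalgebra P₁.K P₁.D :=
  Algebra.adjoin P₁.K (insert d.theta (E.iD '' (d.FS : Set P.D)))

theorem theta_mem : d.theta ∈ d.field := Algebra.subset_adjoin (Set.mem_insert _ _)

theorem iD_mem {a : P.D} (ha : a ∈ d.FS) : E.iD a ∈ d.field :=
  Algebra.subset_adjoin (Set.mem_insert_of_mem _ ⟨a, ha, rfl⟩)

/-- The scalars of the model. -/
def base : Subalgebra P₁.K P₁.D := Algebra.adjoin P₁.K (E.iD '' (d.FS : Set P.D))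

/-- The symbol algebra over them. -/
def alg : Subalgebra P₁.K P₁.D :=
  Algebra.adjoin P₁.K (E.iD '' (d.FS : Set P.D) ∪ {(M.U : P₁.D), (M.V : P₁.D)})

theorem base_comm {x y : P₁.D} (hx : x ∈ d.base) (hy : y ∈ d.base) : x * y = y * x := by
  refine (Algebra.commute_of_mem_adjoin_of_forall_mem_commute hy fun a ha => ?_).eq
  refine (Algebra.commute_of_mem_adjoin_of_forall_mem_commute hx fun b hb => ?_).symm
  obtain ⟨a, ha, rfl⟩ := ha
  obtain ⟨b, hb, rfl⟩ := hb
  show E.iD a * E.iD b = E.iD b * E.iD a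
  rw [← map_mul, ← map_mul, d.comm a ha b hb]

theorem base_central {f x : P₁.D} (hf : f ∈ d.base) (hx : x ∈ d.alg) : f * x = x * f := by
  refine (Algebra.commute_of_mem_adjoin_of_forall_mem_commute hx fun a ha => ?_).eq
  refine (Algebra.commute_of_mem_adjoin_of_forall_mem_commute hf fun b hb => ?_).symm
  obtain ⟨b, hb, rfl⟩ := hb
  rcases ha with ⟨a, ha, rfl⟩ | rfl | rfl
  · show E.iD a * E.iD b = E.iD b * E.iD a
    rw [← map_mul, ← map_mul, d.comm a ha b hb]
  · exact (M.commU b).symm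
  · exact (M.commV b).symm

theorem base_le_alg : d.base ≤ d.alg := Algebra.adjoin_mono Set.subset_union_left

theorem U_mem : (M.U : P₁.D) ∈ d.alg :=
  Algebra.subset_adjoin (Set.mem_union_right (E.iD '' (d.FS : Set P.D)) (Set.mem_insert _ _))

theorem V_mem : (M.V : P₁.D) ∈ d.alg :=
  Algebra.subset_adjoin (Set.mem_union_right (E.iD '' (d.FS : Set P.D))
    (Set.mem_insert_of_mem _ (Set.mem_singleton _)))

theorem field_le_alg : d.field ≤ d.alg := by
  refine Algebra.adjoin_le (Set.insert_subset ?_ ?_)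
  · exact Subalgebra.add_mem _
      (Subalgebra.mul_mem _ (Algebra.subset_adjoin (Or.inl ⟨_, d.hα, rfl⟩))
        d.U_mem)
      (Subalgebra.mul_mem _ (Algebra.subset_adjoin (Or.inl ⟨_, d.hβ, rfl⟩))
        d.V_mem)
  · exact Set.subset_union_left.trans Algebra.subset_adjoin

theorem span_base : Subalgebra.toSubmodule d.base =
    Submodule.span P₁.K (E.iD '' (d.FS : Set P.D)) := by
  refine le_antisymm ?_ (Submodule.span_le.2 fun x hx => Algebra.subset_adjoin hx)
  rw [base, Algebra.adjoin_eq_span]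
  refine Submodule.span_mono fun x hx => ?_
  induction hx using Submonoid.closure_induction with
  | mem x hx => exact hx
  | one => exact ⟨1, d.FS.one_mem, map_one _⟩
  | mul x y _ _ hx hy =>
    obtain ⟨a, ha, rfl⟩ := hx
    obtain ⟨b, hb, rfl⟩ := hy
    exact ⟨a * b, d.FS.mul_mem ha hb, map_mul _ _ _⟩

theorem finrank_base : finrank P₁.K d.base = finrank P.K d.FS := by
  let b := finBasis P.K d.FS
  have hv : LinearIndependent P.K fun i => (b i : P.D) :=
    b.linearIndependent.map' d.FS.val.toLinearMap (LinearMap.ker_eq_bot.2 Subtype.val_injective)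
  have h := E.linearIndependent_iD hv
  have e : Subalgebra.toSubmodule d.base = Submodule.span P₁.K (Set.range fun i => E.iD (b i : P.D)) := by
    rw [span_base]
    refine le_antisymm (Submodule.span_le.2 ?_)
      (Submodule.span_mono (Set.range_subset_iff.2 fun i => ⟨_, (b i).2, rfl⟩))
    rintro _ ⟨a, ha, rfl⟩
    have ha' : a = ∑ i, b.repr ⟨a, ha⟩ i • (b i : P.D) := by
      conv_lhs => rw [show a = d.FS.val.toLinearMap ⟨a, ha⟩ from rfl, ← b.sum_repr ⟨a, ha⟩, map_sum]
      exact Finset.sum_congr rfl fun i _ => map_smul d.FS.val.toLinearMap _ _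
    rw [ha', map_sum]
    exact sum_mem fun i _ => by
      rw [iD_smul]; exact Submodule.smul_mem _ _ (Submodule.subset_span ⟨i, rfl⟩)
  rw [← Subalgebra.finrank_toSubmodule, e, finrank_span_eq_card h, Fintype.card_fin]

/-- The monomials in the model. -/
def monA (p : Fin M.l × Fin M.l) : d.alg :=
  ⟨(M.U : P₁.D) ^ (p.1 : ℕ) * (M.V : P₁.D) ^ (p.2 : ℕ),
    Subalgebra.mul_mem _ (Subalgebra.pow_mem _ d.U_mem _) (Subalgebra.pow_mem _ d.V_mem _)⟩

theorem indep_monA {c : Fin M.l × Fin M.l → P₁.D} (hc : ∀ p, c p ∈ d.base)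
    (h : ∑ p, c p * pmon M.U M.V p = 0) (p : Fin M.l × Fin M.l) : c p = 0 := by
  have : NeZero M.l := ⟨by have := M.one_lt; omega⟩
  have : CharZero P₁.K := P₁.charZero
  refine pmon_coeff_eq_zero M.prim M.hVU (Nat.cast_ne_zero.2 (NeZero.ne _)) (fun q => ?_) h p
  exact ⟨(d.base_central (hc q) d.U_mem).symm,
    (d.base_central (hc q) d.V_mem).symm⟩

theorem alg_le_span : Subalgebra.toSubmodule d.alg ≤
    Submodule.span P₁.K (Set.range fun z : d.FS × (Fin M.l × Fin M.l) =>
      E.iD (z.1 : P.D) * pmon M.U M.V z.2) := by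
  have : NeZero M.l := ⟨by have := M.one_lt; omega⟩
  set S := Submodule.span P₁.K (Set.range fun z : d.FS × (Fin M.l × Fin M.l) =>
    E.iD (z.1 : P.D) * pmon M.U M.V z.2)
  have hcomm : ∀ (a : P.D) (p : Fin M.l × Fin M.l),
      E.iD a * pmon M.U M.V p = pmon M.U M.V p * E.iD a := fun a p => by
    rw [← M.idx.apply_symm_apply p, ← M.hmon, E.comm]
  have h1 : (1 : P₁.D) ∈ S := Submodule.subset_span ⟨(1, (0, 0)), by simp [pmon]⟩
  have hmul : ∀ x ∈ S, ∀ y ∈ S, x * y ∈ S := by
    intro x hx y hy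
    induction hx using Submodule.span_induction with
    | mem x h =>
      obtain ⟨⟨a, p⟩, rfl⟩ := h
      induction hy using Submodule.span_induction with
      | mem y h =>
        obtain ⟨⟨b, q⟩, rfl⟩ := h
        show E.iD (a : P.D) * pmon M.U M.V p * (E.iD (b : P.D) * pmon M.U M.V q) ∈ S
        rw [mul_assoc, ← mul_assoc (pmon M.U M.V p), ← hcomm, mul_assoc, ← mul_assoc, ← map_mul,
          pmon_mul M.hVU M.hU M.hV, mul_smul_comm]
        exact Submodule.smul_mem _ _ (Submodule.subset_span ⟨(⟨_, d.FS.mul_mem a.2 b.2⟩, _), rfl⟩)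
      | zero => simp
      | add a b _ _ ha hb => rw [mul_add]; exact add_mem ha hb
      | smul c a _ ha => rw [mul_smul_comm]; exact Submodule.smul_mem _ _ ha
    | zero => simp
    | add a b _ _ ha hb => rw [add_mul]; exact add_mem ha hb
    | smul c a _ ha => rw [smul_mul_assoc]; exact Submodule.smul_mem _ _ ha
  show Subalgebra.toSubmodule d.alg ≤
    Subalgebra.toSubmodule (S.toSubalgebra h1 fun x y hx hy => hmul x hx y hy)
  refine Subalgebra.toSubmodule.monotone (Algebra.adjoin_le ?_)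
  rintro x (⟨a, ha, rfl⟩ | rfl | rfl)
  · exact Submodule.subset_span ⟨(⟨a, ha⟩, (0, 0)), by simp [pmon]⟩
  · exact Submodule.subset_span ⟨(1, (1, 0)), by simp [pmon, Nat.mod_eq_of_lt M.one_lt]⟩
  · exact Submodule.subset_span ⟨(1, (0, 1)), by simp [pmon, Nat.mod_eq_of_lt M.one_lt]⟩

/-- **The model over the field of the classes.** -/
theorem model :
    finrank P₁.K d.field = finrank P.K d.FS * M.l ∧
      (∀ N : Submodule P₁.K P₁.D, N ≤ Subalgebra.toSubmodule d.field →
        (∀ z ∈ N, ∀ k, TrProj.tr (K := P₁.K) (z * E.mon k) = 0) →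
          finrank P₁.K N ≤ finrank P.K d.FS * finrank P.K d.FS) ∧
      (5 * finrank P.K d.FS ≤ M.l → ∀ z ∈ d.field, z ≠ 0 →
        (∀ k, TrProj.tr (K := P₁.K) (z * E.mon k) = 0) →
        ∃ (W : Submodule P₁.K P₁.D) (ξ : W →ₗ[P₁.K] P₁.D), W ≤ monSpan E ∧
          (M.l - 3 * finrank P.K d.FS) * (M.l - 2 * finrank P.K d.FS) ≤
            finrank P₁.K W + finrank P.K d.FS * M.l ∧
          (∀ x : W, ξ x ∈ d.alg ∧ d.theta * ξ x - ξ x * d.theta = x) ∧
          ∀ x : W, (∀ k, TrProj.tr (K := P₁.K) (z * ξ x * E.mon k) = 0) → x = 0) := by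
  classical
  have : NeZero M.l := ⟨by have := M.one_lt; omega⟩
  have hl : M.l ≠ 0 := NeZero.ne _
  have : CharZero P₁.K := P₁.charZero
  have : CharZero P.K := P.charZero
  let F := ↥d.base
  let _ : CommRing F :=
    { (inferInstance : Ring F) with mul_comm := fun a b => Subtype.ext (d.base_comm a.2 b.2) }
  let _ : Field F := fieldOfFiniteDimensional P₁.K F
  let ι : F →+* d.alg := (Subalgebra.inclusion d.base_le_alg).toRingHom
  let _ : Algebra F d.alg := ι.toAlgebra' fun f x => Subtype.ext (d.base_central f.2 x.2)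
  have : IsScalarTower P₁.K F d.alg := IsScalarTower.of_algebraMap_eq fun k => rfl
  have hsmul : ∀ (f : F) (x : d.alg), ((f • x : d.alg) : P₁.D) = (f : P₁.D) * (x : P₁.D) := fun f x => rfl
  have hUl : ∀ j : ℕ, (M.U : P₁.D) ^ j ∈ d.alg := fun j =>
    Subalgebra.pow_mem _ d.U_mem j
  let Ua : (↥d.alg)ˣ :=
    { val := ⟨M.U, d.U_mem⟩
      inv := ⟨M.u⁻¹ • (M.U : P₁.D) ^ (M.l - 1), Subalgebra.smul_mem _ (hUl _) _⟩
      val_inv := Subtype.ext (by
        show (M.U : P₁.D) * (M.u⁻¹ • (M.U : P₁.D) ^ (M.l - 1)) = 1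
        rw [mul_smul_comm, ← pow_succ', Nat.sub_add_cancel (by omega), M.hU, Algebra.algebraMap_eq_smul_one,
          smul_smul, inv_mul_cancel₀ (u_ne_zero M.hU), one_smul])
      inv_val := Subtype.ext (by
        show (M.u⁻¹ • (M.U : P₁.D) ^ (M.l - 1)) * (M.U : P₁.D) = 1
        rw [smul_mul_assoc, ← pow_succ, Nat.sub_add_cancel (by omega), M.hU, Algebra.algebraMap_eq_smul_one,
          smul_smul, inv_mul_cancel₀ (u_ne_zero M.hU), one_smul]) }
  let Va : d.alg := ⟨M.V, d.V_mem⟩
  have hVU : Va * (Ua : d.alg) = algebraMap P₁.K F M.ζ • ((Ua : d.alg) * Va) := Subtype.ext (by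
    show (M.V : P₁.D) * M.U = (algebraMap P₁.K P₁.D M.ζ) * ((M.U : P₁.D) * M.V)
    rw [M.hVU, Algebra.smul_def])
  have hUl' : (Ua : d.alg) ^ M.l = algebraMap P₁.K d.alg M.u := Subtype.ext M.hU
  have hVl' : Va ^ M.l = algebraMap P₁.K d.alg M.v := Subtype.ext M.hV
  have hli : LinearIndependent F d.monA := by
    refine Fintype.linearIndependent_iff.2 fun c hc p => Subtype.ext ?_
    refine d.indep_monA (c := fun q => (c q : P₁.D)) (fun q => (c q).2) ?_ p
    have := congrArg Subtype.val hc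
    simpa [monA, pmon, hsmul] using this
  have hsp : ⊤ ≤ Submodule.span F (Set.range d.monA) := by
    rintro x -
    suffices ∀ y ∈ Submodule.span P₁.K (Set.range fun z : d.FS × (Fin M.l × Fin M.l) =>
        E.iD (z.1 : P.D) * pmon M.U M.V z.2), ∃ x' : d.alg, (x' : P₁.D) = y ∧
          x' ∈ Submodule.span F (Set.range d.monA) by
      obtain ⟨x', h1, h2⟩ := this _ (d.alg_le_span x.2)
      exact (Subtype.ext h1 : x' = x) ▸ h2
    intro y hy
    induction hy using Submodule.span_induction with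
    | mem y h =>
      obtain ⟨⟨a, p⟩, rfl⟩ := h
      exact ⟨(⟨E.iD (a : P.D), Algebra.subset_adjoin ⟨_, a.2, rfl⟩⟩ : F) • d.monA p, rfl,
        Submodule.smul_mem _ _ (Submodule.subset_span ⟨p, rfl⟩)⟩
    | zero => exact ⟨0, rfl, Submodule.zero_mem _⟩
    | add a b _ _ ha hb =>
      obtain ⟨x, rfl, hx⟩ := ha
      obtain ⟨y, rfl, hy⟩ := hb
      exact ⟨x + y, rfl, add_mem hx hy⟩
    | smul c a _ ha =>
      obtain ⟨x, rfl, hx⟩ := ha
      refine ⟨algebraMap P₁.K F c • x, ?_, Submodule.smul_mem _ _ hx⟩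
      rw [hsmul, Algebra.smul_def]
      rfl
  let bas : Basis (Fin M.l × Fin M.l) F d.alg := Basis.mk hli hsp
  have hbas : ∀ p, bas p = (Ua : d.alg) ^ (p.1 : ℕ) * Va ^ (p.2 : ℕ) := fun p => by
    rw [Basis.mk_apply]
    rfl
  let αF : F := ⟨E.iD d.α, Algebra.subset_adjoin ⟨_, d.hα, rfl⟩⟩
  let βF : F := ⟨E.iD d.β, Algebra.subset_adjoin ⟨_, d.hβ, rfl⟩⟩
  have hαF : αF ≠ 0 := fun h => d.α_ne (E.iD.injective (by
    rw [map_zero]; exact congrArg Subtype.val h))
  let θ : d.alg := αF • (Ua : d.alg) + βF • Va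
  have hθ : (θ : P₁.D) = d.theta := rfl
  let g := finrank P.K d.FS
  have hg : finrank P₁.K F ≤ g := le_of_eq d.finrank_base
  have hρ : Submodule.span P₁.K (Set.range fun t : Fin g => (βF / αF) ^ (t : ℕ)) = ⊤ := by
    let jF : F →ₗ[P₁.K] P₁.D := d.base.val.toLinearMap
    refine Submodule.map_injective_of_injective (f := jF) Subtype.val_injective ?_
    rw [Submodule.map_span, Submodule.map_top, ← Set.range_comp]
    have e1 : (βF / αF : F) =
        ⟨E.iD (d.β * d.α⁻¹), Algebra.subset_adjoin ⟨_, d.FS.mul_mem d.hβ (TrProj.inv_mem _ d.hα), rfl⟩⟩ := by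
      rw [div_eq_iff hαF]
      refine Subtype.ext ?_
      show E.iD d.β = E.iD (d.β * d.α⁻¹) * E.iD d.α
      rw [← map_mul, mul_assoc, inv_mul_cancel₀ d.α_ne, mul_one]
    have e2 : (jF ∘ fun t : Fin g => (βF / αF) ^ (t : ℕ)) = fun t : Fin g =>
        E.iD ((d.β * d.α⁻¹) ^ (t : ℕ)) := funext fun t => by
      rw [e1, Function.comp_apply]
      exact (map_pow d.base.val _ (t : ℕ)).trans (map_pow E.iD _ (t : ℕ)).symm
    rw [e2]
    refine le_antisymm (Submodule.span_le.2 ?_) ?_
    · rintro _ ⟨t, rfl⟩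
      exact ⟨⟨_, Algebra.subset_adjoin ⟨_, d.FS.pow_mem
        (d.FS.mul_mem d.hβ (TrProj.inv_mem _ d.hα)) _, rfl⟩⟩, rfl⟩
    · rintro _ ⟨x, rfl⟩
      have hx : (x : P₁.D) ∈ Subalgebra.toSubmodule d.base := x.2
      rw [d.span_base] at hx
      refine Submodule.span_le.2 ?_ hx
      rintro _ ⟨a, ha, rfl⟩
      have ha' : a ∈ Submodule.span P.K (Set.range fun t : Fin g => (d.β * d.α⁻¹) ^ (t : ℕ)) := by
        rw [d.span_pow]; exact ha
      clear ha
      induction ha' using Submodule.span_induction with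
      | mem a h => obtain ⟨t, rfl⟩ := h; exact Submodule.subset_span ⟨t, rfl⟩
      | zero => simp
      | add a b _ _ iha ihb =>
        rw [SetLike.mem_coe, map_add]
        exact add_mem iha ihb
      | smul c a _ iha =>
        rw [SetLike.mem_coe, iD_smul]
        exact Submodule.smul_mem _ _ iha
  let φ : F →ₗ[P₁.K] P₁.K := (TrProj.tr (K := P₁.K)).comp d.base.val.toLinearMap
  have hφ : φ ≠ 0 := fun h => by
    have h1 := LinearMap.congr_fun h 1
    change TrProj.tr (K := P₁.K) (1 : P₁.D) = 0 at h1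
    rw [TrProj.tr_one, Nat.cast_eq_zero] at h1
    exact finrank_pos.ne' h1
  have hone : ∀ f : F, ∀ p : Fin M.l × Fin M.l, TrProj.tr (K := P₁.K) ((f : P₁.D) * pmon M.U M.V p) =
      if p = (0, 0) then φ f else 0 := by
    intro f p
    by_cases hp : p = (0, 0)
    · subst hp
      simp [pmon, φ]
      rfl
    rw [if_neg hp]
    have hf : (f : P₁.D) ∈ Subalgebra.toSubmodule d.base := f.2
    rw [d.span_base] at hf
    refine Submodule.span_induction (p := fun y _ => TrProj.tr (K := P₁.K) (y * pmon M.U M.V p) = 0)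
      ?_ (by simp) (fun a b _ _ ha hb => by rw [add_mul, map_add, ha, hb, add_zero])
      (fun c a _ ha => by rw [smul_mul_assoc, map_smul, ha, smul_zero]) hf
    rintro _ ⟨a, ha, rfl⟩
    rw [← M.idx.apply_symm_apply p, ← M.hmon, M.tr_iD_mul_mon, if_neg fun h => hp ?_]
    rw [← M.idx.apply_symm_apply p, h, M.idx_one]
    rfl
  have htr : ∀ x : d.alg, TrProj.tr (K := P₁.K) (x : P₁.D) = φ (bas.repr x (0, 0)) := by
    intro x
    conv_lhs => rw [← bas.sum_repr x]
    simp only [AddSubmonoidClass.coe_finsetSum, hsmul, map_sum, Basis.mk_apply, bas]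
    simp only [show ∀ p, (d.monA p : P₁.D) = pmon M.U M.V p from fun p => rfl, hone]
    rw [Finset.sum_ite_eq' Finset.univ (0, 0), if_pos (Finset.mem_univ _)]
  have hbridge : ∀ x : d.alg, (∀ k, TrProj.tr (K := P₁.K) ((x : P₁.D) * E.mon k) = 0) →
      FreezeField.psi bas φ x = 0 := by
    intro x hx
    funext q
    obtain ⟨p, k, hk, hpk⟩ := FreezeField.repr_mul_bas_eq bas M.prim hVU hbas hl (u_ne_zero M.hU)
      (u_ne_zero M.hV) hUl' hVl' q
    have h1 := hx (M.idx.symm p)
    rw [M.hmon, Equiv.apply_symm_apply] at h1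
    have h2 : TrProj.tr (K := P₁.K) ((x * bas p : d.alg) : P₁.D) = 0 := by
      rw [Subalgebra.coe_mul, Basis.mk_apply]
      exact h1
    rw [htr, show bas.repr (x * bas p) (0, 0) = _ from hpk x, ← Algebra.smul_def, map_smul,
      smul_eq_mul] at h2
    exact (mul_eq_zero.1 h2).resolve_left hk
  -- the powers of `θ`
  let Tm : (Fin M.l → F) →ₗ[P₁.K] P₁.D := d.alg.val.toLinearMap.comp
    ((Fintype.linearCombination F fun n : Fin M.l => θ ^ (n : ℕ)).restrictScalars P₁.K)
  have hTm : ∀ z : Fin M.l → F, Tm z = ((∑ n, z n • θ ^ (n : ℕ) : d.alg) : P₁.D) := fun z => rfl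
  have hTinj : Function.Injective Tm := by
    refine (injective_iff_map_eq_zero _).2 fun z hz => funext fun n => ?_
    have hz' : (∑ m, z m • θ ^ (m : ℕ) : d.alg) = 0 := Subtype.ext (by rw [← hTm, hz]; rfl)
    have key : bas.repr (∑ m, z m • θ ^ (m : ℕ)) (n, 0) = z n * αF ^ (n : ℕ) := by
      simp only [θ, QBinom.add_pow_qb hVU, Finset.smul_sum, smul_smul, map_sum,
        Finsupp.finsetSum_apply, map_smul, Finsupp.smul_apply, smul_eq_mul]
      have hterm : ∀ (m : Fin M.l), ∀ k ∈ Finset.range ((m : ℕ) + 1),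
          bas.repr ((Ua : d.alg) ^ k * Va ^ ((m : ℕ) - k)) (n, 0) = if k = n ∧ m = n then 1 else 0 := by
        intro m k hk
        have hk := Finset.mem_range.1 hk
        rw [← hbas (⟨k, by omega⟩, ⟨(m : ℕ) - k, by omega⟩), bas.repr_self, Finsupp.single_apply]
        refine if_congr ?_ rfl rfl
        simp only [Prod.mk.injEq, Fin.ext_iff, Fin.val_zero]
        omega
      rw [Finset.sum_eq_single n, Finset.sum_eq_single (n : ℕ)]
      · rw [hterm n n (Finset.mem_range.2 (by omega)), if_pos ⟨rfl, rfl⟩, mul_one, Nat.sub_self,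
          pow_zero, mul_one]
        have hq : ∀ m, QBinom.qb (algebraMap P₁.K F M.ζ) m m = 1 := fun m => by
          induction m with
          | zero => rfl
          | succ m ih => rw [QBinom.qb, ih, QBinom.qb_of_lt _ m.lt_succ_self]; simp
        rw [hq, one_mul]
      · intro k hk hne
        rw [hterm n k hk, if_neg fun h => hne h.1, mul_zero]
      · exact fun h => absurd (Finset.mem_range.2 (by omega)) h
      · intro m _ hne
        refine Finset.sum_eq_zero fun k hk => ?_
        rw [hterm m k hk, if_neg fun h => hne h.2, mul_zero]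
      · exact fun h => absurd (Finset.mem_univ _) h
    rw [hz', map_zero, Finsupp.zero_apply] at key
    exact (mul_eq_zero.1 key.symm).resolve_right (pow_ne_zero _ hαF)
  have hrange : LinearMap.range Tm = Subalgebra.toSubmodule d.field := by
    refine le_antisymm ?_ ?_
    · rintro _ ⟨z, rfl⟩
      rw [hTm, AddSubmonoidClass.coe_finsetSum]
      refine Subalgebra.sum_mem _ fun n _ => ?_
      rw [hsmul, SubmonoidClass.coe_pow, hθ]
      refine Subalgebra.mul_mem _ ?_ (Subalgebra.pow_mem _ d.theta_mem _)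
      exact Algebra.adjoin_mono (Set.subset_insert _ _) (z n).2
    · have hmem : ∀ (f : F) (m : ℕ), ((f • θ ^ m : d.alg) : P₁.D) ∈ LinearMap.range Tm := by
        intro f m
        have hl' : θ ^ M.l = algebraMap F d.alg
            (αF ^ M.l * algebraMap P₁.K F M.u + βF ^ M.l * algebraMap P₁.K F M.v) :=
          theta_pow_l (R := d.alg) (U := Ua) (V :=
            { val := Va
              inv := ⟨M.v⁻¹ • (M.V : P₁.D) ^ (M.l - 1), Subalgebra.smul_mem _
                (Subalgebra.pow_mem _ d.V_mem _) _⟩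
              val_inv := Subtype.ext (by
                show (M.V : P₁.D) * (M.v⁻¹ • (M.V : P₁.D) ^ (M.l - 1)) = 1
                rw [mul_smul_comm, ← pow_succ', Nat.sub_add_cancel (by omega), M.hV,
                  Algebra.algebraMap_eq_smul_one, smul_smul, inv_mul_cancel₀ (u_ne_zero M.hV), one_smul])
              inv_val := Subtype.ext (by
                show (M.v⁻¹ • (M.V : P₁.D) ^ (M.l - 1)) * (M.V : P₁.D) = 1
                rw [smul_mul_assoc, ← pow_succ, Nat.sub_add_cancel (by omega), M.hV,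
                  Algebra.algebraMap_eq_smul_one, smul_smul, inv_mul_cancel₀ (u_ne_zero M.hV), one_smul]) })
            (M.prim.map_of_injective (algebraMap P₁.K F).injective) hVU
            (hUl'.trans (IsScalarTower.algebraMap_apply P₁.K F d.alg _))
            (hVl'.trans (IsScalarTower.algebraMap_apply P₁.K F d.alg _)) αF βF
        refine ⟨Pi.single ⟨m % M.l, Nat.mod_lt _ (Nat.pos_of_ne_zero hl)⟩
          (f * (αF ^ M.l * algebraMap P₁.K F M.u + βF ^ M.l * algebraMap P₁.K F M.v) ^ (m / M.l)), ?_⟩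
        rw [hTm]
        congr 1
        rw [show (∑ n, (Pi.single (⟨m % M.l, Nat.mod_lt _ (Nat.pos_of_ne_zero hl)⟩ : Fin M.l)
            (f * (αF ^ M.l * algebraMap P₁.K F M.u + βF ^ M.l * algebraMap P₁.K F M.v) ^ (m / M.l)) :
            Fin M.l → F) n • θ ^ (n : ℕ)) = _ from Fintype.linearCombination_apply_single F
          (v := fun n : Fin M.l => θ ^ (n : ℕ)) _ _]
        conv_rhs => rw [← Nat.div_add_mod m M.l, pow_add, pow_mul, hl', ← map_pow, ← Algebra.smul_def,
          smul_smul]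
      rw [field, Algebra.adjoin_eq_span]
      refine Submodule.span_le.2 fun x hx => ?_
      suffices ∃ (f : F) (m : ℕ), ((f • θ ^ m : d.alg) : P₁.D) = x by
        obtain ⟨f, m, rfl⟩ := this
        exact hmem f m
      induction hx using Submonoid.closure_induction with
      | mem x hx =>
        rcases hx with rfl | ⟨a, ha, rfl⟩
        · exact ⟨1, 1, by rw [one_smul, pow_one, hθ]⟩
        · exact ⟨⟨E.iD a, Algebra.subset_adjoin ⟨a, ha, rfl⟩⟩, 0, by
            rw [hsmul, pow_zero, OneMemClass.coe_one, mul_one]⟩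
      | one => exact ⟨1, 0, by rw [one_smul, pow_zero]; rfl⟩
      | mul x y _ _ hx hy =>
        obtain ⟨f, m, rfl⟩ := hx
        obtain ⟨f', m', rfl⟩ := hy
        refine ⟨f * f', m + m', ?_⟩
        rw [← Subalgebra.coe_mul, smul_mul_smul_comm, pow_add]
  refine ⟨?_, fun N hN htrN => ?_, fun hl5 z hz hz0 htrz => ?_⟩
  · rw [← Subalgebra.finrank_toSubmodule, ← hrange, LinearMap.finrank_range_of_inj hTinj,
      finrank_pi_fintype, Finset.sum_const, Finset.card_univ, Fintype.card_fin, smul_eq_mul,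
      show finrank P₁.K F = _ from d.finrank_base, mul_comm]
  · have hNr : N ≤ LinearMap.range Tm := hrange ▸ hN
    have hrel : ∀ w ∈ N.comap Tm,
        FreezeField.psi bas φ ((1 : F) • ∑ n : Fin M.l, w n • (αF • (Ua : d.alg) + βF • Va) ^ (n : ℕ)) = 0 := by
      intro w hw
      rw [one_smul]
      exact hbridge _ fun k => by rw [show ((∑ n, w n • θ ^ (n : ℕ) : d.alg) : P₁.D) = Tm w from rfl]; exact htrN _ hw k
    have h := FreezeField.finrank_relations_le bas φ M.prim hVU hbas hαF hρ hg hφ one_ne_zero _ hrel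
    have e : finrank P₁.K (N.comap Tm) = finrank P₁.K N := by
      rw [(Submodule.equivMapOfInjective Tm hTinj (N.comap Tm)).finrank_eq,
        Submodule.map_comap_eq, inf_eq_right.2 hNr]
    rwa [e] at h
  · obtain ⟨w, rfl⟩ : z ∈ LinearMap.range Tm := hrange ▸ hz
    have hlow : ∀ n : Fin M.l, g ≤ (n : ℕ) + 1 → w n = 0 := fun n hn =>
      FreezeField.coeff_eq_zero bas φ M.prim hVU hbas hαF hρ hφ (one_ne_zero (α := F)) w (by
        rw [one_smul]; exact hbridge _ htrz) n hn
    obtain ⟨n₁, hn₁⟩ : ∃ n, w n ≠ 0 := by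
      by_contra h
      push Not at h
      exact hz0 (by rw [show w = 0 from funext h, map_zero])
    let wg : Fin g → F := fun m => w ⟨m, by omega⟩
    have hg1 : (n₁ : ℕ) < g := by
      by_contra h
      exact hn₁ (hlow n₁ (by omega))
    obtain ⟨W, ξ, hW, hdim, hξ, hinj⟩ := FreezeField.exists_injective bas φ M.prim hVU hbas hαF hρ hg
      hUl' hVl' hl5 hφ wg ⟨⟨n₁, hg1⟩, hn₁⟩
    have hzsum : (∑ n, w n • θ ^ (n : ℕ)) = ∑ m : Fin g, wg m • θ ^ (m : ℕ) := by
      refine (Finset.sum_bij_ne_zero (fun (m : Fin g) _ _ => (⟨m, by omega⟩ : Fin M.l))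
        (fun _ _ _ => Finset.mem_univ _) (fun a _ _ b _ _ h => Fin.ext (congrArg Fin.val h :))
        (fun n _ hne => ?_) fun _ _ _ => rfl).symm
      have hn : (n : ℕ) < g := by
        by_contra h
        exact hne (by rw [hlow n (by omega), zero_smul])
      exact ⟨⟨n, hn⟩, Finset.mem_univ _, hne, rfl⟩
    let j := d.alg.val.toLinearMap
    let e := Submodule.equivMapOfInjective j Subtype.val_injective W
    refine ⟨W.map j, j.comp (ξ.comp e.symm.toLinearMap), ?_, ?_, fun x => ⟨(ξ (e.symm x)).2, ?_⟩,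
      fun x hx => ?_⟩
    · rintro _ ⟨x, hx, rfl⟩
      refine Submodule.span_induction (p := fun y _ => j y ∈ monSpan E) ?_ (by simp)
        (fun a b _ _ ha hb => by rw [map_add]; exact add_mem ha hb)
        (fun c a _ ha => by rw [map_smul]; exact Submodule.smul_mem _ _ ha) (hW hx)
      rintro _ ⟨p, rfl⟩
      rw [Basis.mk_apply]
      show pmon M.U M.V p ∈ monSpan E
      rw [← M.idx.apply_symm_apply p, ← M.hmon]
      exact mon_mem E _
    · rw [← e.finrank_eq]
      exact hdim
    · have h := congrArg Subtype.val (hξ (e.symm x))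
      have h2 : j (e.symm x : d.alg) = (x : P₁.D) :=
        Submodule.map_equivMapOfInjective_symm_apply _ _ _ x
      rw [← h2]
      exact h
    · have h0 : (e.symm x) = 0 := hinj (by
        simp only [map_zero, mul_zero, smul_zero, Finset.sum_const_zero]
        refine hbridge _ fun k => ?_
        have e1 : ((∑ m : Fin g, wg m • (θ ^ (m : ℕ) * ξ (e.symm x)) : d.alg) : P₁.D) =
            Tm w * j (ξ (e.symm x)) := by
          rw [show Tm w = ((∑ n, w n • θ ^ (n : ℕ) : d.alg) : P₁.D) from hTm w, hzsum]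
          show _ = ((∑ m : Fin g, wg m • θ ^ (m : ℕ) : d.alg) * ξ (e.symm x) : d.alg).1
          rw [Finset.sum_mul]
          simp only [smul_mul_assoc]
        rw [e1]
        exact hx k)
      exact e.symm.injective (by rw [h0, map_zero])

end ClassData

end

end Vale.Agent.P199
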