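import Vale.Agent.P199.Freeze.Model
import Vale.Agent.P199.Freeze.Comm
import Vale.Agent.P199.Stage.PencilPair

/-!
P199, freeze: the motion of the element of the new row at the residue of a lift. What commutes with the old element
sees the motion only through its projection on the old field; the algebra generated by that field and the leading
motion has dimension at least degree times `l`, and under the trace against monomials it reduces to the field of the
classes.
-/

namespace Vale.Agent.P199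

open Module LiftSeries Vale.P199

noncomputable section

namespace Freeze

variable {P : Pt} (L : Listing) (n : ℕ)

/-- The motion of the element of row `n`, symbols fixed. -/
def dp : Rows.Amb P →ₗ[P.K] P.D where
  toFun s := Poly.d1 P.val (P.dirVal (N := L.b n) (s, 0)) (L.p n)
  map_add' s s' := by
    rw [Rows.dirVal_amb_add]
    exact (P.d1_linear _ _ _ 1 _).1
  map_smul' c s := by
    rw [Rows.dirVal_amb_smul]
    exact (P.d1_linear _ _ 0 c _).2

theorem dp_apply (s : Rows.Amb P) :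
    dp L n s = Poly.d1 P.val (P.dirVal (N := L.b n) (s, 0)) (L.p n) := rfl

/-- Its projection on the field of the element. -/
def phi : Rows.Amb P →ₗ[P.K] P.D :=
  haveI := P.charZero
  (TrProj.projOn (P.qAlg L n)).comp (dp L n)

theorem phi_mem (s : Rows.Amb P) : phi L n s ∈ P.qAlg L n :=
  haveI := P.charZero
  TrProj.projOn_mem _ _

end Freeze

open Freeze

/-- The data of a freeze at the residue of a lift. -/
structure Motion {P P₁ : Pt} {E : Ext P P₁} (M : Mono E) {L : Listing} {n : ℕ} (r : Rows L n P) where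
  /-- The motion along `U`. -/
  a : Rows.Amb P
  /-- The motion along `V`. -/
  b : Rows.Amb P
  /-- A reference motion. -/
  s₀ : Rows.Amb P
  memA : a ∈ r.T
  memB : b ∈ r.T
  mem₀ : s₀ ∈ r.T
  orth : ∀ y ∈ r.Y, r.form y a s₀ = 0 ∧ r.form y b s₀ = 0
  /-- The classes. -/
  FS : Subalgebra P.K P.D
  le : FS ≤ P.qAlg L n
  ratio : ∀ s ∈ r.T, (phi L n s₀)⁻¹ * phi L n s ∈ FS
  ne₀ : phi L n s₀ ≠ 0
  neA : phi L n a ≠ 0
  span_pow : Submodule.span P.K (Set.range fun t : Fin (finrank P.K FS) =>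
    (phi L n b * (phi L n a)⁻¹) ^ (t : ℕ)) = Subalgebra.toSubmodule FS
  stab : ∀ s ∈ r.T, ∀ c : P.D, c * P.q L n = P.q L n * c →
    TrProj.tr (K := P.K) (c * dp L n s) = TrProj.tr (c * phi L n s)

namespace Motion

variable {P P₁ : Pt} {E : Ext P P₁} {M : Mono E} {L : Listing} {n : ℕ} {r : Rows L n P}
  (μ : Motion M r)

/-- The data of the model. -/
def cls : ClassData M where
  FS := μ.FS
  comm _ hx _ hy := P.qAlg_comm L (μ.le hx) (μ.le hy)
  α := (phi L n μ.s₀)⁻¹ * phi L n μ.a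
  β := (phi L n μ.s₀)⁻¹ * phi L n μ.b
  hα := μ.ratio _ μ.memA
  hβ := μ.ratio _ μ.memB
  α_ne := mul_ne_zero (inv_ne_zero μ.ne₀) μ.neA
  span_pow := by
    have h := P.qAlg_comm L (TrProj.inv_mem (P.qAlg L n) (phi_mem L n μ.s₀)) (phi_mem L n μ.b)
    have e : (phi L n μ.s₀)⁻¹ * phi L n μ.b * ((phi L n μ.s₀)⁻¹ * phi L n μ.a)⁻¹ =
        phi L n μ.b * (phi L n μ.a)⁻¹ := by
      rw [mul_inv_rev, inv_inv, h]
      simp only [mul_assoc]
      rw [P.qAlg_comm L (TrProj.inv_mem (P.qAlg L n) (phi_mem L n μ.a)) (phi_mem L n μ.s₀),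
        ← mul_assoc (phi L n μ.s₀)⁻¹, inv_mul_cancel₀ μ.ne₀, one_mul]
    simp only [e]
    exact μ.span_pow

/-- The leading motion of the element, projected. -/
def lead : P₁.D := E.iD (phi L n μ.a) * M.U + E.iD (phi L n μ.b) * M.V

/-- The motion of the element to first order. -/
def motion : P₁.D := E.iD (dp L n μ.a) * M.U + E.iD (dp L n μ.b) * M.V

theorem lead_eq : μ.lead = E.iD (phi L n μ.s₀) * μ.cls.theta := by
  show _ = _ * (E.iD ((phi L n μ.s₀)⁻¹ * phi L n μ.a) * M.U + E.iD ((phi L n μ.s₀)⁻¹ * phi L n μ.b) * M.V)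
  rw [mul_add, ← mul_assoc, ← map_mul, ← mul_assoc (E.iD (phi L n μ.s₀)), ← map_mul, ← mul_assoc,
    ← mul_assoc, mul_inv_cancel₀ μ.ne₀, one_mul, one_mul]
  rfl

/-- What commutes with the old element. -/
def C1 (_μ : Motion M r) : Subalgebra P₁.K P₁.D := Subalgebra.centralizer P₁.K ({E.iD (P.q L n)} : Set P₁.D)

theorem mem_C1 {x : P₁.D} : x ∈ μ.C1 ↔ E.iD (P.q L n) * x = x * E.iD (P.q L n) := by
  simp [C1, Subalgebra.mem_centralizer_iff]

theorem monSpan_le {x : P₁.D} (hx : x ∈ monSpan E) : x ∈ μ.C1 := μ.mem_C1.2 (comm_mem E hx _)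

theorem iD_mem {y : P.D} (hy : y ∈ P.qAlg L n) : E.iD y ∈ μ.C1 :=
  μ.mem_C1.2 (by
    rw [← map_mul, ← map_mul, P.qAlg_comm L (Algebra.self_mem_adjoin_singleton P.K _) hy])

theorem U_mem : (M.U : P₁.D) ∈ μ.C1 := μ.mem_C1.2 (M.commU _)

theorem V_mem : (M.V : P₁.D) ∈ μ.C1 := μ.mem_C1.2 (M.commV _)

theorem lead_mem : μ.lead ∈ μ.C1 :=
  add_mem (mul_mem (μ.iD_mem (phi_mem L n _)) μ.U_mem) (mul_mem (μ.iD_mem (phi_mem L n _)) μ.V_mem)

/-- **A commutant sees a tangent motion through its projection.** -/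
theorem tr_dp {c : P₁.D} (hc : c ∈ μ.C1) {s : Rows.Amb P} (hs : s ∈ r.T) :
    TrProj.tr (K := P₁.K) (c * E.iD (dp L n s)) = TrProj.tr (c * E.iD (phi L n s)) := by
  have h := mem_upSpan_of_commute E (P.q L n) (μ.mem_C1.1 hc)
  induction h using Submodule.span_induction with
  | mem x h =>
    obtain ⟨⟨⟨c₀, hc₀⟩, k⟩, rfl⟩ := h
    have hc₀' : c₀ * P.q L n = P.q L n * c₀ := by
      rw [LinearMap.mem_ker, LinearMap.sub_apply, LinearMap.mulLeft_apply, LinearMap.mulRight_apply,
        sub_eq_zero] at hc₀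
      exact hc₀.symm
    simp only [mul_assoc _ (E.mon k), ← E.comm, ← mul_assoc, ← map_mul, M.tr_iD_mul_mon,
      μ.stab s hs c₀ hc₀']
  | zero => simp
  | add x y hx hy ihx ihy =>
    have hm : ∀ z ∈ upSpan E (LinearMap.ker (LinearMap.mulLeft P.K (P.q L n) -
        LinearMap.mulRight P.K (P.q L n))), z ∈ μ.C1 := fun z hz => by
      induction hz using Submodule.span_induction with
      | mem x h =>
        obtain ⟨⟨⟨c₀, hc₀⟩, k⟩, rfl⟩ := h
        rw [LinearMap.mem_ker, LinearMap.sub_apply, LinearMap.mulLeft_apply, LinearMap.mulRight_apply,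
          sub_eq_zero] at hc₀
        exact mul_mem (μ.mem_C1.2 (by rw [← map_mul, ← map_mul, hc₀])) (μ.monSpan_le (mon_mem E k))
      | zero => exact zero_mem _
      | add x y _ _ hx hy => exact add_mem hx hy
      | smul t x _ hx => exact Subalgebra.smul_mem _ hx t
    rw [add_mul, add_mul, map_add, map_add, ihx (hm x hx), ihy (hm y hy)]
  | smul t x hx ih =>
    by_cases ht : t = 0
    · simp [ht]
    have hx' : x ∈ μ.C1 := by
      have := Subalgebra.smul_mem _ hc t⁻¹
      rwa [smul_smul, inv_mul_cancel₀ ht, one_smul] at this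
    rw [smul_mul_assoc, smul_mul_assoc, map_smul, map_smul, ih hx']

/-- The same with a monomial factor. -/
theorem tr_dp_mon {c : P₁.D} (hc : c ∈ μ.C1) {s : Rows.Amb P} (hs : s ∈ r.T) {x : P₁.D}
    (hx : x ∈ monSpan E) :
    TrProj.tr (K := P₁.K) (c * (E.iD (dp L n s) * x)) =
      TrProj.tr (c * (E.iD (phi L n s) * x)) := by
  rw [← mul_assoc, ← mul_assoc, TrProj.tr_comm _ x, TrProj.tr_comm _ x, ← mul_assoc, ← mul_assoc]
  exact μ.tr_dp (mul_mem (μ.monSpan_le hx) hc) hs

theorem tr_motion {c : P₁.D} (hc : c ∈ μ.C1) :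
    TrProj.tr (K := P₁.K) (c * μ.motion) = TrProj.tr (c * μ.lead) := by
  have h : ∀ (s : Rows.Amb P), s ∈ r.T → ∀ x ∈ μ.C1, (∀ y, E.iD y * x = x * E.iD y) →
      TrProj.tr (K := P₁.K) (c * (E.iD (dp L n s) * x)) = TrProj.tr (c * (E.iD (phi L n s) * x)) :=
    fun s hs x hx hcomm => by
      rw [← mul_assoc, ← mul_assoc, TrProj.tr_comm _ x, TrProj.tr_comm _ x, ← mul_assoc, ← mul_assoc]
      exact μ.tr_dp (mul_mem hx hc) hs
  simp only [motion, lead, mul_add, map_add, h _ μ.memA _ μ.U_mem M.commU,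
    h _ μ.memB _ μ.V_mem M.commV]

/-- The algebra of the leading motion over the old field. -/
def big : Subalgebra P₁.K P₁.D :=
  Algebra.adjoin P₁.K (insert μ.lead (E.iD '' (P.qAlg L n : Set P.D)))

theorem lead_mem_big : μ.lead ∈ μ.big := Algebra.subset_adjoin (Set.mem_insert _ _)

theorem iD_mem_big {y : P.D} (hy : y ∈ P.qAlg L n) : E.iD y ∈ μ.big :=
  Algebra.subset_adjoin (Set.mem_insert_of_mem _ ⟨y, hy, rfl⟩)

theorem big_le : μ.big ≤ μ.C1 := by
  refine Algebra.adjoin_le (Set.insert_subset μ.lead_mem ?_)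
  rintro _ ⟨y, hy, rfl⟩
  exact μ.iD_mem hy

theorem theta_mem_big : μ.cls.theta ∈ μ.big := by
  have e : μ.cls.theta = E.iD (phi L n μ.s₀)⁻¹ * μ.lead := by
    rw [μ.lead_eq, ← mul_assoc, ← map_mul, inv_mul_cancel₀ μ.ne₀, map_one, one_mul]
  rw [e]
  exact mul_mem (μ.iD_mem_big (TrProj.inv_mem _ (phi_mem L n _))) μ.lead_mem_big

theorem field_le_big : μ.cls.field ≤ μ.big := by
  refine Algebra.adjoin_le (Set.insert_subset μ.theta_mem_big ?_)
  rintro _ ⟨y, hy, rfl⟩
  exact μ.iD_mem_big (μ.le hy)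

theorem iD_comm_alg {y : P.D} (hy : y ∈ P.qAlg L n) {x : P₁.D} (hx : x ∈ μ.cls.alg) :
    E.iD y * x = x * E.iD y := by
  refine (Algebra.commute_of_mem_adjoin_of_forall_mem_commute hx fun c hc => ?_).eq
  rcases hc with ⟨f, hf, rfl⟩ | rfl | rfl
  · show E.iD y * E.iD f = E.iD f * E.iD y
    rw [← map_mul, ← map_mul, P.qAlg_comm L hy (μ.le hf)]
  · exact M.commU y
  · exact M.commV y

theorem big_le_span : Subalgebra.toSubmodule μ.big ≤ Submodule.span P₁.K
    (Set.range fun z : P.qAlg L n × μ.cls.field => E.iD (z.1 : P.D) * (z.2 : P₁.D)) := by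
  set S := Submodule.span P₁.K
    (Set.range fun z : P.qAlg L n × μ.cls.field => E.iD (z.1 : P.D) * (z.2 : P₁.D))
  have h1 : (1 : P₁.D) ∈ S := Submodule.subset_span ⟨(1, 1), by simp⟩
  have hmul : ∀ x ∈ S, ∀ y ∈ S, x * y ∈ S := by
    intro x hx y hy
    induction hx using Submodule.span_induction with
    | mem x h =>
      obtain ⟨⟨a, f⟩, rfl⟩ := h
      induction hy using Submodule.span_induction with
      | mem y h =>
        obtain ⟨⟨b, f'⟩, rfl⟩ := h
        refine Submodule.subset_span ⟨(⟨_, (P.qAlg L n).mul_mem a.2 b.2⟩, ⟨_, μ.cls.field.mul_mem f.2 f'.2⟩), ?_⟩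
        show E.iD ((a : P.D) * b) * ((f : P₁.D) * f') = E.iD (a : P.D) * f * (E.iD (b : P.D) * f')
        rw [map_mul, mul_assoc, mul_assoc, ← mul_assoc (f : P₁.D),
          ← μ.iD_comm_alg b.2 (μ.cls.field_le_alg f.2), mul_assoc]
      | zero => simp
      | add a b _ _ ha hb => rw [mul_add]; exact add_mem ha hb
      | smul c a _ ha => rw [mul_smul_comm]; exact Submodule.smul_mem _ _ ha
    | zero => simp
    | add a b _ _ ha hb => rw [add_mul]; exact add_mem ha hb
    | smul c a _ ha => rw [smul_mul_assoc]; exact Submodule.smul_mem _ _ ha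
  show Subalgebra.toSubmodule μ.big ≤
    Subalgebra.toSubmodule (S.toSubalgebra h1 fun x y hx hy => hmul x hx y hy)
  refine Subalgebra.toSubmodule.monotone (Algebra.adjoin_le (Set.insert_subset ?_ ?_))
  · exact Submodule.subset_span ⟨(⟨_, phi_mem L n μ.s₀⟩, ⟨_, μ.cls.theta_mem⟩), μ.lead_eq.symm⟩
  · rintro _ ⟨y, hy, rfl⟩
    exact Submodule.subset_span ⟨(⟨y, hy⟩, 1), by simp⟩

theorem monSpan_le_alg {ν : P₁.D} (hν : ν ∈ monSpan E) : ν ∈ μ.cls.alg := by
  induction hν using Submodule.span_induction with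
  | mem x h =>
    obtain ⟨k, rfl⟩ := h
    rw [M.hmon k]
    exact mul_mem (pow_mem μ.cls.U_mem _) (pow_mem μ.cls.V_mem _)
  | zero => exact zero_mem _
  | add x y _ _ hx hy => exact add_mem hx hy
  | smul t x _ hx => exact Subalgebra.smul_mem _ hx t

/-- **Against the symbol algebra of the classes the big algebra reduces to the field of the classes.** -/
theorem exists_reduce {z : P₁.D} (hz : z ∈ μ.big) :
    ∃ z' ∈ μ.cls.field, ∀ x ∈ μ.cls.alg,
      TrProj.tr (K := P₁.K) (z * x) = TrProj.tr (z' * x) := by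
  have : CharZero P.K := P.charZero
  have : NeZero M.l := ⟨by have := M.one_lt; omega⟩
  have key : ∀ (y : P.D), ∀ w ∈ μ.cls.alg, TrProj.tr (K := P₁.K) (E.iD y * w) =
      TrProj.tr (E.iD (TrProj.projOn μ.FS y) * w) := by
    intro y w hw
    have hw' := μ.cls.alg_le_span hw
    clear hw
    induction hw' using Submodule.span_induction with
    | mem x h =>
      obtain ⟨⟨f₀, p⟩, rfl⟩ := h
      show TrProj.tr (K := P₁.K) (E.iD y * (E.iD (f₀ : P.D) * pmon M.U M.V p)) =
        TrProj.tr (E.iD (TrProj.projOn μ.FS y) * (E.iD (f₀ : P.D) * pmon M.U M.V p))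
      rw [← M.idx.apply_symm_apply p, ← M.hmon, ← mul_assoc, ← mul_assoc, ← map_mul, ← map_mul,
        M.tr_iD_mul_mon, M.tr_iD_mul_mon, TrProj.tr_comm y, TrProj.tr_comm (TrProj.projOn μ.FS y),
        TrProj.tr_mul_projOn μ.FS f₀.2]
    | zero => simp
    | add a b _ _ ha hb => simp only [mul_add, map_add, ha, hb]
    | smul c a _ ha => simp only [mul_smul_comm, map_smul, ha]
  have h := μ.big_le_span hz
  induction h using Submodule.span_induction with
  | mem x h =>
    obtain ⟨⟨y, f⟩, rfl⟩ := h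
    refine ⟨E.iD (TrProj.projOn μ.FS (y : P.D)) * f,
      mul_mem (μ.cls.iD_mem (TrProj.projOn_mem μ.FS _)) f.2, fun x hx => ?_⟩
    rw [mul_assoc, mul_assoc]
    exact key _ _ (mul_mem (μ.cls.field_le_alg f.2) hx)
  | zero => exact ⟨0, zero_mem _, fun _ _ => rfl⟩
  | add x y hx hy ihx ihy =>
    have hb : ∀ w ∈ Submodule.span P₁.K (Set.range fun z : P.qAlg L n × μ.cls.field =>
        E.iD (z.1 : P.D) * (z.2 : P₁.D)), w ∈ μ.big := fun w hw => by
      have : Submodule.span P₁.K (Set.range fun z : P.qAlg L n × μ.cls.field =>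
          E.iD (z.1 : P.D) * (z.2 : P₁.D)) ≤ Subalgebra.toSubmodule μ.big := Submodule.span_le.2 (by
        rintro _ ⟨z, rfl⟩
        exact μ.big.mul_mem (μ.iD_mem_big z.1.2) (μ.field_le_big z.2.2))
      exact this hw
    obtain ⟨x', hx', ex⟩ := ihx (hb x hx)
    obtain ⟨y', hy', ey⟩ := ihy (hb y hy)
    exact ⟨x' + y', add_mem hx' hy', fun ν hν => by
      rw [add_mul, add_mul, map_add, map_add, ex ν hν, ey ν hν]⟩
  | smul t x hx ih =>
    by_cases ht : t = 0
    · exact ⟨0, zero_mem _, fun _ _ => by simp [ht]⟩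
    obtain ⟨x', hx', ex⟩ := ih (by
      have := Subalgebra.smul_mem _ hz t⁻¹
      rwa [smul_smul, inv_mul_cancel₀ ht, one_smul] at this)
    exact ⟨t • x', Subalgebra.smul_mem _ hx' t, fun ν hν => by
      rw [smul_mul_assoc, smul_mul_assoc, map_smul, map_smul, ex ν hν]⟩

/-- **Independent old elements stay independent times the powers of the leading motion.** -/
theorem linearIndependent_lead {κ : Type} [Fintype κ] {b : κ → P.D} (hb : LinearIndependent P.K b) :
    LinearIndependent P₁.K fun z : Fin M.l × κ => E.iD (b z.2) * μ.lead ^ (z.1 : ℕ) := by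
  classical
  have : NeZero M.l := ⟨by have := M.one_lt; omega⟩
  have : CharZero P₁.K := P₁.charZero
  let X : P₁.D := E.iD μ.cls.α * M.U
  let Y : P₁.D := E.iD μ.cls.β * M.V
  have hUc : ∀ y : P.D, Commute (E.iD y) (M.U : P₁.D) := M.commU
  have hVc : ∀ y : P.D, Commute (E.iD y) (M.V : P₁.D) := M.commV
  have hab : E.iD μ.cls.α * E.iD μ.cls.β = E.iD μ.cls.β * E.iD μ.cls.α := by
    rw [← map_mul, ← map_mul, μ.cls.comm _ μ.cls.hα _ μ.cls.hβ]
  have hYX : Y * X = M.ζ • (X * Y) := by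
    show E.iD μ.cls.β * (M.V : P₁.D) * (E.iD μ.cls.α * M.U) =
      M.ζ • (E.iD μ.cls.α * (M.U : P₁.D) * (E.iD μ.cls.β * M.V))
    rw [mul_assoc, ← mul_assoc (M.V : P₁.D), ← (hVc _).eq, mul_assoc, M.hVU, mul_smul_comm,
      mul_smul_comm, mul_assoc (E.iD μ.cls.α), ← mul_assoc (M.U : P₁.D), ← (hUc _).eq,
      mul_assoc (E.iD μ.cls.β), ← mul_assoc, ← mul_assoc (E.iD μ.cls.α), hab, mul_assoc]
  let w : Fin M.l → κ → P.D := fun m i =>
    b i * (phi L n μ.s₀) ^ (m : ℕ)
  have hpow : ∀ (m : Fin M.l) i, E.iD (b i) * μ.lead ^ (m : ℕ) =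
      ∑ j ∈ Finset.range ((m : ℕ) + 1), QBinom.qb M.ζ m j •
        (E.iD (w m i * (μ.cls.α ^ j * μ.cls.β ^ ((m : ℕ) - j))) *
          ((M.U : P₁.D) ^ j * (M.V : P₁.D) ^ ((m : ℕ) - j))) := by
    intro m i
    have h1 := QBinom.add_pow_qb hYX (1 : P₁.K) 1 (m : ℕ)
    simp only [one_smul, one_pow, mul_one] at h1
    have hc : Commute (E.iD (phi L n μ.s₀)) (X + Y) :=
      μ.iD_comm_alg (phi_mem L n μ.s₀) (μ.cls.field_le_alg μ.cls.theta_mem)
    rw [μ.lead_eq, show μ.cls.theta = X + Y from rfl, hc.mul_pow, ← mul_assoc, ← map_pow E.iD, ← map_mul, h1,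
      Finset.mul_sum]
    refine Finset.sum_congr rfl fun j _ => ?_
    rw [mul_smul_comm, (hUc μ.cls.α).mul_pow, (hVc μ.cls.β).mul_pow, ← map_pow E.iD, ← map_pow E.iD,
      mul_assoc (E.iD (μ.cls.α ^ j)), ← mul_assoc ((M.U : P₁.D) ^ j),
      ← ((hUc (μ.cls.β ^ ((m : ℕ) - j))).pow_right j).eq, map_mul E.iD _ (_ * _), map_mul]
    simp only [map_mul, mul_assoc]
  refine Fintype.linearIndependent_iff.2 fun c hc => ?_
  let coef : Fin M.l → ℕ → P₁.D := fun m j => ∑ i, (c (m, i) * QBinom.qb M.ζ m j) •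
    E.iD (w m i * (μ.cls.α ^ j * μ.cls.β ^ ((m : ℕ) - j)))
  let C : Fin M.l × Fin M.l → P₁.D := fun p =>
    ∑ m : Fin M.l, ∑ j ∈ Finset.range ((m : ℕ) + 1),
      if (p.1 : ℕ) = j ∧ (p.2 : ℕ) = (m : ℕ) - j then coef m j else 0
  have hC : ∑ p, C p * pmon M.U M.V p = 0 := by
    rw [← hc, Fintype.sum_prod_type (f := fun z : Fin M.l × κ =>
      c z • (E.iD (b z.2) * μ.lead ^ (z.1 : ℕ)))]
    simp only [C, Finset.sum_mul, ite_mul, zero_mul, hpow, Finset.smul_sum, smul_smul]
    rw [Finset.sum_comm]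
    refine Finset.sum_congr rfl fun m _ => ?_
    rw [Finset.sum_comm, Finset.sum_comm (s := Finset.univ) (t := Finset.range ((m : ℕ) + 1))]
    refine Finset.sum_congr rfl fun j hj => ?_
    have hj := Finset.mem_range.1 hj
    rw [Finset.sum_eq_single (⟨j, by omega⟩, ⟨(m : ℕ) - j, by omega⟩)]
    · rw [if_pos ⟨rfl, rfl⟩]
      simp only [coef, pmon, Finset.sum_mul, smul_mul_assoc]
    · intro p _ hp
      rw [if_neg fun h => hp (Prod.ext (Fin.ext h.1) (Fin.ext h.2))]
    · exact fun h => absurd (Finset.mem_univ _) h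
  intro z
  obtain ⟨m, i⟩ := z
  have hp := pmon_coeff_eq_zero M.prim M.hVU (Nat.cast_ne_zero.2 (NeZero.ne _)) (fun p => ?_) hC
    (m, ⟨0, Nat.pos_of_ne_zero (NeZero.ne _)⟩)
  · simp only [C] at hp
    rw [Finset.sum_eq_single m, Finset.sum_eq_single (m : ℕ), if_pos ⟨rfl, by simp⟩] at hp
    · have hq : ∀ k, QBinom.qb M.ζ k k = 1 := fun k => by
        induction k with
        | zero => rfl
        | succ k ih => rw [QBinom.qb, ih, QBinom.qb_of_lt _ k.lt_succ_self]; simp
      simp only [coef, hq, mul_one, Nat.sub_self, pow_zero, w] at hp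
      have hne : phi L n μ.s₀ ^ (m : ℕ) * μ.cls.α ^ (m : ℕ) ≠ 0 :=
        mul_ne_zero (pow_ne_zero _ μ.ne₀) (pow_ne_zero _ μ.cls.α_ne)
      have hv : LinearIndependent P.K fun i =>
          b i * (phi L n μ.s₀ ^ (m : ℕ) * μ.cls.α ^ (m : ℕ)) :=
        hb.map'
            (LinearMap.mulRight P.K (phi L n μ.s₀ ^ (m : ℕ) * μ.cls.α ^ (m : ℕ)))
            (LinearMap.ker_eq_bot.2 (mul_left_injective₀ hne))
      refine Fintype.linearIndependent_iff.1 (E.linearIndependent_iD hv) (fun i => c (m, i))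
        ?_ i
      simpa only [mul_assoc] using hp
    · intro j _ hj
      rw [if_neg fun h => hj h.1.symm]
    · exact fun h => absurd (Finset.mem_range.2 (by omega)) h
    · intro m' _ hm'
      refine Finset.sum_eq_zero fun j hj => ?_
      rw [if_neg fun h => hm' (Fin.ext ?_)]
      have hj := Finset.mem_range.1 hj
      have h1 : (m : ℕ) = j := h.1
      have h2 : (0 : ℕ) = (m' : ℕ) - j := h.2
      omega
    · exact fun h => absurd (Finset.mem_univ _) h
  · have hcomm : ∀ x : P₁.D, (∀ y, Commute (E.iD y) x) → Commute (C p) x := fun x hx => by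
      refine Commute.sum_left _ _ _ fun m _ => Commute.sum_left _ _ _ fun j _ => ?_
      split
      · exact Commute.sum_left _ _ _ fun i _ => (hx _).smul_left _
      · exact Commute.zero_left _
    exact ⟨(hcomm _ hUc).symm.eq, (hcomm _ hVc).symm.eq⟩

/-- **The big algebra has dimension at least degree times `l`.** -/
theorem le_finrank_big : finrank P.K (P.qAlg L n) * M.l ≤ finrank P₁.K μ.big := by
  let b := finBasis P.K (P.qAlg L n)
  have hli : LinearIndependent P₁.K fun z : Fin M.l × Fin (finrank P.K (P.qAlg L n)) =>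
      E.iD (b z.2 : P.D) * μ.lead ^ (z.1 : ℕ) := by
    have hv : LinearIndependent P.K fun i => (b i : P.D) :=
      b.linearIndependent.map' (P.qAlg L n).val.toLinearMap (LinearMap.ker_eq_bot.2 Subtype.val_injective)
    exact μ.linearIndependent_lead (κ := Fin (finrank P.K (P.qAlg L n))) (b := fun i => (b i : P.D)) hv
  have hle : Submodule.span P₁.K (Set.range
      fun z : Fin M.l × Fin (finrank P.K (P.qAlg L n)) => E.iD (b z.2 : P.D) * μ.lead ^ (z.1 : ℕ)) ≤
      Subalgebra.toSubmodule μ.big := Submodule.span_le.2 (by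
    rintro _ ⟨z, rfl⟩
    exact μ.big.mul_mem (μ.iD_mem_big (b z.2).2) (pow_mem μ.lead_mem_big _))
  have h := Submodule.finrank_mono hle
  rw [finrank_span_eq_card hli, Fintype.card_prod, Fintype.card_fin, Fintype.card_fin,
    Subalgebra.finrank_toSubmodule] at h
  rwa [mul_comm]

end Motion

end

end Vale.Agent.P199
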