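import Vale.Agent.P199.Freeze.Motion
import Vale.Agent.P199.Freeze.Lead
import Vale.Agent.P199.Lift.DeformRows

/-!
P199, freeze: the element of the new row at the lifted point. The leading terms of its field are the big algebra, so it
has degree `e l` and the equation is its minimal one; the leading terms of its centraliser are the centraliser of the
big algebra; and a motion orthogonal to that centraliser is `[q, ξ]` with a simple pole.
-/

namespace Vale.Agent.P199

open Module LiftSeries Vale.P199

noncomputable section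

namespace Mono

variable {P P₁ : Pt} {E : Ext P P₁} (M : Mono E)

theorem U_mem_monSpan : (M.U : P₁.D) ∈ monSpan E := by
  have h := mon_mem E (M.idx.symm (⟨1, M.one_lt⟩, ⟨0, by have := M.one_lt; omega⟩))
  simpa [M.hmon, pmon] using h

theorem V_mem_monSpan : (M.V : P₁.D) ∈ monSpan E := by
  have h := mon_mem E (M.idx.symm (⟨0, by have := M.one_lt; omega⟩, ⟨1, M.one_lt⟩))
  simpa [M.hmon, pmon] using h

end Mono

namespace LaurData

variable {P₁ : Pt} (T : LaurData P₁) (L : Listing) (n : ℕ)

theorem em_qS : T.em (T.qS L n) = T.pt.q L n := (T.ev_pt (L.p n)).symm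

theorem em_C_algebraMap (r : P₁.K) :
    T.em (algebraMap P₁.K (PowerSeries P₁.D) r) =
      algebraMap T.pt.K T.pt.D (T.scal (HahnSeries.ofPowerSeries ℤ P₁.K (PowerSeries.C r))) := by
  rw [← T.em_map, PowerSeries.map_C, PowerSeries.algebraMap_apply]

theorem em_aeval_mem (f : Polynomial P₁.K) :
    T.em (Polynomial.aeval (T.qS L n) f) ∈ T.pt.qAlg L n := by
  induction f using Polynomial.induction_on' with
  | add p q hp hq => rw [map_add, map_add]; exact add_mem hp hq
  | monomial m r =>
    rw [Polynomial.aeval_monomial, map_mul, map_pow, em_qS, em_C_algebraMap]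
    exact mul_mem (Subalgebra.algebraMap_mem _ _)
      (pow_mem (Algebra.self_mem_adjoin_singleton _ _) _)

theorem eps_smul_cancel {x y : T.pt.D} (h : T.eps • x = T.eps • y) : x = y :=
  smul_right_injective T.pt.D T.eps_ne_zero h

/-- Every element becomes integral after enough multiplications by `ε`. -/
theorem exists_eps_pow (x : T.pt.D) : ∃ (k : ℕ) (p : PowerSeries P₁.D), T.eps ^ k • x = T.em p := by
  by_cases hx : x = 0
  · exact ⟨0, 0, by rw [hx, smul_zero, map_zero]⟩
  obtain ⟨t, p, ht, hp, -⟩ := T.exists_scale (fun _ : Unit => x) (fun e => hx (congrFun e ()))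
  set g : LaurentSeries P₁.K := T.laur.eK.symm t⁻¹
  obtain ⟨k, z, hz⟩ : ∃ (k : ℕ) (z : PowerSeries P₁.K),
      HahnSeries.ofPowerSeries ℤ P₁.K (PowerSeries.X ^ k) * g = HahnSeries.ofPowerSeries ℤ P₁.K z := by
    have hg := LaurentSeries.single_order_mul_powerSeriesPart g
    rcases le_total 0 g.order with h | h
    · obtain ⟨m, hm⟩ := Int.eq_ofNat_of_zero_le h
      refine ⟨0, PowerSeries.X ^ m * g.powerSeriesPart, ?_⟩
      rw [pow_zero, map_one, one_mul, map_mul, HahnSeries.ofPowerSeries_X_pow, ← hm, hg]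
    · obtain ⟨m, hm⟩ := Int.exists_eq_neg_ofNat h
      refine ⟨m, g.powerSeriesPart, ?_⟩
      conv_lhs => rw [← hg]
      rw [HahnSeries.ofPowerSeries_X_pow, ← mul_assoc, HahnSeries.single_mul_single, hm,
        add_neg_cancel, one_mul, HahnSeries.single_zero_one, one_mul]
  refine ⟨k, PowerSeries.map (algebraMap P₁.K P₁.D) z * p (), ?_⟩
  have h1 : T.eps ^ k = T.scal (HahnSeries.ofPowerSeries ℤ P₁.K z) * t := by
    have h2 := congrArg T.laur.eK hz
    rw [map_mul, map_pow, map_pow, RingEquiv.apply_symm_apply] at h2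
    show T.scal _ ^ k = _
    rw [show T.scal (HahnSeries.ofPowerSeries ℤ P₁.K z) = T.eps ^ k * t⁻¹ from h2.symm,
      mul_assoc, inv_mul_cancel₀ ht, mul_one]
    rfl
  rw [h1, mul_smul, hp (), map_mul, T.em_map, Algebra.smul_def]

end LaurData

/-- The lifted point of a freeze. -/
structure Motion.Near {P P₁ : Pt} {E : Ext P P₁} {M : Mono E} {L : Listing} {n : ℕ} {r : Rows L n P}
    (μ : Motion M r) (T : LaurData P₁) : Prop where
  x_one : ∀ c, SkewLaurent.cf (T.x c) 1 = X1 E μ.a μ.b (M.U : P₁.D) (M.V : P₁.D) c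
  c_one : ∀ i < L.b n, (T.c i).coeff 1 = 0
  guarded : ∀ j ≤ n, L.Guarded j

/-- A lifted point whose new row is solved at the full degree. -/
structure Motion.Lifted {P P₁ : Pt} {E : Ext P P₁} {M : Mono E} {L : Listing} {n : ℕ} {r : Rows L n P}
    (μ : Motion M r) (T : LaurData P₁) : Prop extends μ.Near T where
  solved : Poly.ev T.pt.val (L.eqn n) = 0
  degree : L.e n = finrank P.K (P.qAlg L n) * M.l

namespace Motion

open LaurData PowerSeries

variable {P P₁ : Pt} {E : Ext P P₁} {M : Mono E} {L : Listing} {n : ℕ} {r : Rows L n P}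
  {μ : Motion M r} {T : LaurData P₁}

section Near

variable (H : μ.Near T)

include H

theorem Near.cf_one (z : Var) (hz : ∀ i, z = Sum.inr i → i < L.b n) :
    Poly.cf 1 T.ser z = P₁.dirVal (N := L.b n) (X1 E μ.a μ.b (M.U : P₁.D) (M.V : P₁.D), 0) z := by
  rw [Poly.cf, LaurData.ser, PowerSeries.coeff_mk]
  cases z with
  | inl c => exact H.x_one c
  | inr i =>
    show SkewLaurent.cf (laurentScalarHom (T.c i)) 1 = _
    rw [cf_laurentScalarHom, H.c_one i (hz i rfl), map_zero]
    simp [Pt.dirVal, hz i rfl]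

theorem Near.qS_zero : constantCoeff (T.qS L n) = E.iD (P.q L n) := by
  rw [T.constantCoeff_qS, Pt.q, Pt.q, E.ev_val]

theorem Near.qS_one : PowerSeries.coeff 1 (T.qS L n) = μ.motion := by
  rw [LaurData.qS, Poly.coeff_one_ev, T.cf_zero_ser,
    Poly.d1_congr_guarded P₁.val L (H.guarded n le_rfl) (u' := P₁.dirVal (N := L.b n) (X1 E μ.a μ.b M.U M.V, 0))
      (fun a => H.cf_one (Sum.inl a) (fun i h => nomatch h))
      (fun i hi => H.cf_one (Sum.inr i) (fun j h => by cases h; exact hi)),
    dirVal_X1, Poly.d1_add_dir, val_eq E,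
    ← Poly.map_d1 _ _ E.iD (M.U : P₁.D) (comm_mem E M.U_mem_monSpan),
    ← Poly.map_d1 _ _ E.iD (M.V : P₁.D) (comm_mem E M.V_mem_monSpan)]
  rfl

theorem Near.iD_mem_lead {y : P.D} (hy : y ∈ P.qAlg L n) :
    E.iD y ∈ T.leadAlgebra (T.pt.qAlg L n) := by
  refine Algebra.adjoin_induction (p := fun y _ => E.iD y ∈ T.leadAlgebra (T.pt.qAlg L n))
    ?_ ?_ ?_ ?_ hy
  · intro x hx
    rw [Set.mem_singleton_iff.1 hx]
    exact T.mem_leadAlgebra.2
      ⟨T.qS L n, by rw [em_qS]; exact Algebra.self_mem_adjoin_singleton _ _, H.qS_zero⟩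
  · intro k
    rw [E.map_algebraMap]
    exact Subalgebra.algebraMap_mem _ _
  · intro x y _ _ hx hy
    rw [map_add]; exact add_mem hx hy
  · intro x y _ _ hx hy
    rw [map_mul]; exact mul_mem hx hy

/-- The leading motion is a leading term of the field of the element. -/
theorem Near.lead_mem_lead : μ.lead ∈ T.leadAlgebra (T.pt.qAlg L n) := by
  have : CharZero P₁.K := P₁.charZero
  have : CharZero P.K := P.charZero
  let f₀ := minpoly P.K (P.q L n)
  let f := f₀.map E.iK
  have haeval : ∀ g : Polynomial P.K,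
      Polynomial.aeval (E.iD (P.q L n)) (g.map E.iK) = E.iD (Polynomial.aeval (P.q L n) g) := fun g => by
    rw [Polynomial.aeval_def, Polynomial.aeval_def, Polynomial.eval₂_map, Polynomial.hom_eval₂]
    congr 1
    exact RingHom.ext fun k => (E.map_algebraMap k).symm
  have hf : Polynomial.aeval (constantCoeff (T.qS L n)) f = 0 := by
    rw [H.qS_zero, haeval, minpoly.aeval, map_zero]
  have hint : IsIntegral P.K (P.q L n) := Algebra.IsIntegral.isIntegral _
  have hd : Polynomial.aeval (P.q L n) f₀.derivative ≠ 0 := by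
    intro h0
    have hpos := minpoly.natDegree_pos hint
    have h1 : f₀.derivative ≠ 0 := fun h => by
      have := Polynomial.natDegree_eq_zero_of_derivative_eq_zero h
      simp only [f₀] at this
      omega
    have h2 := Polynomial.natDegree_le_natDegree (minpoly.degree_le_of_ne_zero P.K (P.q L n) h1 h0)
    have h3 := Polynomial.natDegree_derivative_lt hpos.ne'
    simp only [f₀] at h2 h3
    omega
  set d := E.iD (Polynomial.aeval (P.q L n) f₀.derivative)
  have hdC : d ∈ μ.C1 := μ.iD_mem (Polynomial.aeval_mem_adjoin_singleton _ _)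
  set F := Polynomial.aeval (T.qS L n) f
  have hF0 : constantCoeff F = 0 := by rw [FreezeComm.constantCoeff_aeval, hf]
  have hcomm := FreezeComm.coeff_one_aeval_commute (T.qS L n) hf
  rw [H.qS_zero] at hcomm
  have hkey : PowerSeries.coeff 1 F = d * μ.lead := by
    refine FreezeComm.eq_of_tr μ.C1 (μ.mem_C1.2 hcomm) (mul_mem hdC μ.lead_mem) fun c hc => ?_
    rw [FreezeComm.tr_coeff_one_aeval (T.qS L n) f
      (by rw [H.qS_zero]; exact (μ.mem_C1.1 hc).symm), H.qS_zero, H.qS_one,
      Polynomial.derivative_map, haeval, μ.tr_motion (mul_mem hc hdC), mul_assoc]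
  obtain ⟨F', hF'⟩ : PowerSeries.X ∣ F := PowerSeries.X_dvd_iff.2 hF0
  have h1 : d * μ.lead ∈ T.leadAlgebra (T.pt.qAlg L n) := by
    refine T.mem_leadAlgebra.2 ⟨F', ?_, ?_⟩
    · have h := T.em_aeval_mem L n f
      rw [show Polynomial.aeval (T.qS L n) f = PowerSeries.X * F' from hF', em_X_mul] at h
      have := Subalgebra.smul_mem _ h T.eps⁻¹
      rwa [smul_smul, inv_mul_cancel₀ T.eps_ne_zero, one_smul] at this
    · rw [← hkey, hF', ← PowerSeries.coeff_zero_eq_constantCoeff_apply, ← PowerSeries.coeff_succ_X_mul]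
  have hd0 : d ≠ 0 := fun h => hd (E.iD.injective (by rw [map_zero]; exact h))
  have h2 := mul_mem (H.iD_mem_lead (TrProj.inv_mem _ (Polynomial.aeval_mem_adjoin_singleton (p := f₀.derivative) P.K (P.q L n)))) h1
  rwa [← mul_assoc, map_inv₀, inv_mul_cancel₀ hd0, one_mul] at h2

theorem Near.big_le : μ.big ≤ T.leadAlgebra (T.pt.qAlg L n) := by
  refine Algebra.adjoin_le (Set.insert_subset H.lead_mem_lead ?_)
  rintro _ ⟨y, hy, rfl⟩
  exact H.iD_mem_lead hy

end Near

variable (H : μ.Lifted T)

include H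

theorem Lifted.finrank_qAlg_le : finrank T.pt.K (T.pt.qAlg L n) ≤ L.e n := by
  have h : Subalgebra.toSubmodule (T.pt.qAlg L n) ≤
      Submodule.span T.pt.K (Set.range fun i : Fin (L.e n) => T.pt.q L n ^ (i : ℕ)) :=
    fun x hx => T.pt.scalars_le_span L n H.solved ((T.pt.mem_scalars_iff L).2 hx)
  have h' := Submodule.finrank_mono h
  rw [Subalgebra.finrank_toSubmodule] at h'
  exact h'.trans ((finrank_range_le_card _).trans (le_of_eq (Fintype.card_fin _)))

/-- **The element has degree `e l` and its field leads to the big algebra.** -/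
theorem Lifted.leadAlgebra_eq :
    T.leadAlgebra (T.pt.qAlg L n) = μ.big ∧ finrank P₁.K μ.big = L.e n ∧
      finrank T.pt.K (T.pt.qAlg L n) = L.e n := by
  have h1 := μ.le_finrank_big
  rw [← H.degree] at h1
  have h2 := H.finrank_qAlg_le
  have h3 := Submodule.finrank_mono (Subalgebra.toSubmodule.monotone H.big_le)
  rw [Subalgebra.finrank_toSubmodule, Subalgebra.finrank_toSubmodule, T.finrank_leadAlgebra] at h3
  refine ⟨?_, by omega, by omega⟩
  refine (Subalgebra.toSubmodule_injective (Submodule.eq_of_le_of_finrank_le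
    (Subalgebra.toSubmodule.monotone H.big_le) ?_)).symm
  rw [Subalgebra.finrank_toSubmodule, Subalgebra.finrank_toSubmodule, T.finrank_leadAlgebra]
  omega

theorem Lifted.linearIndependent_pow :
    LinearIndependent T.pt.K fun i : Fin (L.e n) => T.pt.q L n ^ (i : ℕ) := by
  rw [linearIndependent_iff_card_le_finrank_span, Fintype.card_fin]
  refine le_trans (le_of_eq H.leadAlgebra_eq.2.2.symm) ?_
  rw [← Subalgebra.finrank_toSubmodule]
  exact Submodule.finrank_mono fun x hx =>
    T.pt.scalars_le_span L n H.solved ((T.pt.mem_scalars_iff L).2 hx)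

/-- The derivative of the equation at the element. -/
theorem Lifted.deriv_ne_zero : Polynomial.aeval (T.pt.q L n) (Polynomial.derivative
    (Polynomial.X ^ L.e n + ∑ i ∈ Finset.range (L.e n),
      Polynomial.C (T.pt.c (L.b n + i)) * Polynomial.X ^ i)) ≠ 0 := by
  have : CharZero T.pt.K := T.pt.charZero
  set e := L.e n
  set g := Polynomial.derivative (Polynomial.X ^ e + ∑ i ∈ Finset.range e,
      Polynomial.C (T.pt.c (L.b n + i)) * Polynomial.X ^ i)
  intro h0
  have he : 0 < e := by
    have := H.degree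
    have h1 : 0 < finrank P.K (P.qAlg L n) := Module.finrank_pos
    have := Nat.mul_pos h1 (show 0 < M.l by have := M.one_lt; omega)
    omega
  have hdeg : (Polynomial.X ^ e + ∑ i ∈ Finset.range e,
      Polynomial.C (T.pt.c (L.b n + i)) * Polynomial.X ^ i).natDegree ≤ e := by
    refine (Polynomial.natDegree_add_le _ _).trans (max_le (Polynomial.natDegree_X_pow_le _) ?_)
    refine Polynomial.natDegree_sum_le_of_forall_le _ _ fun i hi => ?_
    exact (Polynomial.natDegree_C_mul_X_pow_le _ _).trans (Finset.mem_range.1 hi).le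
  have hg : g.natDegree < e := lt_of_le_of_lt (Polynomial.natDegree_derivative_le _) (by omega)
  rw [Polynomial.aeval_eq_sum_range' hg, ← Fin.sum_univ_eq_sum_range
    (fun i => g.coeff i • T.pt.q L n ^ i)] at h0
  have h1 := Fintype.linearIndependent_iff.1 H.linearIndependent_pow _ h0 ⟨e - 1, by omega⟩
  rw [Polynomial.coeff_derivative, show e - 1 + 1 = e by omega, Polynomial.coeff_add,
    Polynomial.coeff_X_pow_self, Polynomial.finsetSum_coeff, Finset.sum_eq_zero (fun i hi => ?_),
    add_zero, one_mul] at h1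
  · rw [← Nat.cast_add_one, show e - 1 + 1 = e by omega] at h1
    exact he.ne' (Nat.cast_eq_zero.1 h1)
  · rw [Polynomial.coeff_C_mul_X_pow, if_neg]
    have := Finset.mem_range.1 hi
    omega

end Motion

end

end Vale.Agent.P199
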