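import Vale.Agent.P199.Freeze.RankNew
import Vale.Agent.P199.Admissible

/-!
P199, freeze: the pair of tangents of the lift. Off the kernel of the projected motion their pencil is injective, the
ratio of their motions generates the classes, and a reference motion is orthogonal to both.
-/

namespace Vale.Agent.P199.Freeze

open Module LiftSeries Vale.P199

noncomputable section

variable {P : Pt} {L : Listing} {n : ℕ} (r : Rows L n P)

/-- The functionals on tangents killing those without projected motion. -/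
def killPhi : Submodule P.K (Dual P.K r.T) :=
  ((LinearMap.ker (phi (P := P) L n)).comap r.T.subtype).dualAnnihilator

theorem finrank_killPhi : finrank P.K (killPhi r) = finrank P.K (r.T.map (phi (P := P) L n)) := by
  have h1 := ((phi (P := P) L n).domRestrict r.T).finrank_range_add_finrank_ker
  have h2 := Subspace.finrank_add_finrank_dualAnnihilator_eq
    ((LinearMap.ker (phi (P := P) L n)).comap r.T.subtype)
  rw [LinearMap.range_domRestrict] at h1
  have h3 : LinearMap.ker ((phi (P := P) L n).domRestrict r.T) =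
      (LinearMap.ker (phi (P := P) L n)).comap r.T.subtype := by
    ext u
    simp
  rw [h3] at h1
  show finrank P.K ((LinearMap.ker (phi (P := P) L n)).comap r.T.subtype).dualAnnihilator = _
  omega

/-- **A pair for the freeze.** -/
theorem exists_motion (hT : r.Tight) (hs : P.Solves L n) {R : ℕ} (hR : r.RankGE R)
    (hbud : ∑ j, finrank P.K (r.W j) < finrank P.K P.D) (FS : Subalgebra P.K P.D)
    (hle : FS ≤ P.qAlg L n) {s₁ : Rows.Amb P} (hs₁ : s₁ ∈ r.T) (h1 : phi L n s₁ ≠ 0)
    (ratio : ∀ u ∈ r.T, (phi L n s₁)⁻¹ * phi L n u ∈ FS)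
    (hgen : FS ≤ Algebra.adjoin P.K ((fun u => (phi L n s₁)⁻¹ * phi L n u) '' (r.T : Set (Rows.Amb P))))
    (hc : 3 * r.corank + finrank P.K FS ≤ R) :
    ∃ a b s₀ : Rows.Amb P, a ∈ r.T ∧ b ∈ r.T ∧ s₀ ∈ r.T ∧ (∀ y ∈ r.Y, r.form y a b = 0) ∧
      (∀ y ∈ r.Y, r.form y a s₀ = 0 ∧ r.form y b s₀ = 0) ∧ phi L n s₀ = phi L n s₁ ∧
      phi L n a ≠ 0 ∧
      Submodule.span P.K (Set.range fun t : Fin (finrank P.K FS) =>
        (phi L n b * (phi L n a)⁻¹) ^ (t : ℕ)) = Subalgebra.toSubmodule FS ∧
      (∀ y ∈ r.Y, ∀ z ∈ r.Y, (∀ s ∈ r.T, phi L n s = 0 → r.form y a s + r.form z b s = 0) →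
        y = 0 ∧ z = 0) ∧ P.IndepInner a b := by
  classical
  have : CharZero P.K := P.charZero
  let _ : CommRing FS :=
    { (inferInstance : Ring FS) with
      mul_comm := fun x y => Subtype.ext (P.qAlg_comm L (hle x.2) (hle y.2)) }
  let _ : Field FS := fieldOfFiniteDimensional P.K FS
  let lam : r.T →ₗ[P.K] FS := ((LinearMap.mulLeft P.K (phi L n s₁)⁻¹).comp
    ((phi (P := P) L n).comp r.T.subtype)).codRestrict (Subalgebra.toSubmodule FS)
      fun u => ratio _ u.2
  have hlam : ∀ u : r.T, (lam u : P.D) = (phi L n s₁)⁻¹ * phi L n (u : Rows.Amb P) := fun u => rfl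
  have hker : ∀ u : r.T, lam u = 0 ↔ phi L n (u : Rows.Amb P) = 0 := fun u => by
    refine ⟨fun h => (mul_eq_zero.1 ((hlam u).symm.trans (congrArg Subtype.val h))).resolve_left
      (inv_ne_zero h1), fun h => Subtype.ext ?_⟩
    rw [hlam, h, mul_zero]
    rfl
  have hG : finrank P.K (killPhi r) ≤ finrank P.K FS := by
    rw [finrank_killPhi]
    have e : finrank P.K (r.T.map (phi (P := P) L n)) =
        finrank P.K ((r.T.map (phi (P := P) L n)).map (LinearMap.mulLeft P.K (phi L n s₁)⁻¹)) :=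
      (Submodule.equivMapOfInjective _ (mul_right_injective₀ (inv_ne_zero h1)) _).finrank_eq
    rw [e, ← Subalgebra.finrank_toSubmodule]
    refine Submodule.finrank_mono ?_
    rintro _ ⟨_, ⟨u, hu, rfl⟩, rfl⟩
    exact ratio u hu
  -- the first tangent moves
  let l₀ : Dual P.K r.T := (TrProj.tr (K := P.K)).comp (FS.val.toLinearMap.comp lam)
  have hl₀ : l₀ ≠ 0 := fun h => by
    have h' := LinearMap.congr_fun h ⟨s₁, hs₁⟩
    change TrProj.tr (K := P.K) ((phi L n s₁)⁻¹ * phi L n s₁) = 0 at h'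
    rw [inv_mul_cancel₀ h1, TrProj.tr_one, Nat.cast_eq_zero] at h'
    exact finrank_pos.ne' h'
  obtain ⟨a, haG, hal, ha'⟩ := r.exists_fst_indep hs hR (killPhi r) (by omega) hbud {l₀}
    (by simpa using hl₀)
  have hlama : lam a ≠ 0 := fun h => hal l₀ (Finset.mem_singleton_self _) (by
    show TrProj.tr (K := P.K) ((lam a : FS) : P.D) = 0
    rw [h, ZeroMemClass.coe_zero, map_zero])
  -- values at the first tangent are attained without motion
  let Φ : r.Y →ₗ[P.K] Dual P.K (LinearMap.ker lam) :=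
    (LinearMap.ker lam).subtype.dualMap.comp
      { toFun := fun y => r.B y a
        map_add' := fun y z => by rw [map_add]; rfl
        map_smul' := fun c y => by rw [map_smul, LinearMap.smul_apply, RingHom.id_apply] }
  have hΦ : Function.Injective Φ := (injective_iff_map_eq_zero _).2 fun y hy => haG y
    ((Submodule.mem_dualAnnihilator _).2 fun v hv => LinearMap.congr_fun hy ⟨v, (hker v).2 hv⟩)
  let T' : Submodule P.K r.T :=
    { carrier := {v | ∀ y, r.B y a v = 0}
      zero_mem' := fun y => map_zero _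
      add_mem' := fun hu hv y => by rw [map_add, hu y, hv y, add_zero]
      smul_mem' := fun c v hv y => by rw [map_smul, hv y, smul_zero] }
  have hT' : T'.map lam = LinearMap.range lam := by
    refine le_antisymm (by rintro _ ⟨v, -, rfl⟩; exact ⟨v, rfl⟩) ?_
    rintro _ ⟨v, rfl⟩
    obtain ⟨k, hk⟩ := exists_eval (F := P.K) (A := r.Y) (B := LinearMap.ker lam) Φ hΦ
      { toFun := fun y => -r.B y a v
        map_add' := fun y z => by rw [map_add, LinearMap.add_apply, LinearMap.add_apply, neg_add]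
        map_smul' := fun c y => by
          rw [map_smul, LinearMap.smul_apply, LinearMap.smul_apply, RingHom.id_apply, smul_neg] }
    refine ⟨v + k, fun y => ?_, ?_⟩
    · rw [map_add, show r.B y a (k : r.T) = -r.B y a v from hk y, add_neg_cancel]
    · rw [map_add, LinearMap.mem_ker.1 k.2, add_zero]
  have hone : (1 : FS) ∈ T'.map lam := by
    rw [hT']
    exact ⟨⟨s₁, hs₁⟩, Subtype.ext (inv_mul_cancel₀ h1)⟩
  have hadj : IntermediateField.adjoin P.K (T'.map lam : Set FS) = ⊤ := by
    refine top_le_iff.1 fun x _ => ?_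
    have h' : Algebra.adjoin P.K ((fun u => (phi L n s₁)⁻¹ * phi L n u) '' (r.T : Set (Rows.Amb P))) ≤
        (IntermediateField.adjoin P.K (T'.map lam : Set FS)).toSubalgebra.map FS.val := by
      refine Algebra.adjoin_le ?_
      rintro _ ⟨u, hu, rfl⟩
      exact ⟨lam ⟨u, hu⟩, IntermediateField.subset_adjoin P.K _
        (by rw [hT']; exact ⟨_, rfl⟩), rfl⟩
    obtain ⟨y, hy, e⟩ := h' (hgen x.2)
    exact (Subtype.ext e : y = x) ▸ hy
  obtain ⟨fs, hfs, hfs'⟩ := Admissible.exists_functionals lam T' hone hadj a hlama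
  obtain ⟨b, hab, hinj, hbl, hind⟩ := r.exists_snd_indep hT hs hR (killPhi r) (by omega) hbud haG ha'
    fs fun l hl => let ⟨b, hb, hne⟩ := hfs l hl; ⟨b, hb, hne⟩
  have hpencil : ∀ y ∈ r.Y, ∀ z ∈ r.Y, (∀ s ∈ r.T, phi L n s = 0 →
      r.form y (a : Rows.Amb P) s + r.form z (b : Rows.Amb P) s = 0) → y = 0 ∧ z = 0 :=
    fun y hy z hz h => by
      obtain ⟨e1, e2⟩ := hinj ⟨y, hy⟩ ⟨z, hz⟩ ((Submodule.mem_dualAnnihilator _).2 fun v hv =>
        h (v : Rows.Amb P) v.2 hv)
      exact ⟨congrArg Subtype.val e1, congrArg Subtype.val e2⟩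
  -- the reference motion
  let f : Rows.Amb P → Dual P.K r.Y := fun c =>
    { toFun := fun y => -r.form y c s₁
      map_add' := fun y z => by simp [Rows.form, neg_add, add_comm]
      map_smul' := fun t y => by simp [Rows.form] }
  obtain ⟨k, hk, hkab⟩ := exists_tangent_on r (S := r.T ⊓ LinearMap.ker (phi (P := P) L n))
    (a := (a : Rows.Amb P)) (b := (b : Rows.Amb P)) inf_le_left
    (fun y hy z hz h => hpencil y hy z hz fun s hs h0 => h s ⟨hs, h0⟩) (f a) (f b)
  have hs₀ : s₁ + k ∈ r.T := add_mem hs₁ hk.1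
  have hadd : ∀ (y : r.Y) (c : r.T), r.form y (c : Rows.Amb P) (s₁ + k) =
      r.form y (c : Rows.Amb P) s₁ + r.form y (c : Rows.Amb P) k := fun y c => by
    have e := map_add (r.B y c) ⟨s₁, hs₁⟩ ⟨k, hk.1⟩
    exact e
  refine ⟨a, b, s₁ + k, a.2, b.2, hs₀, fun y hy => hab ⟨y, hy⟩, fun y hy => ⟨?_, ?_⟩, ?_, ?_, ?_,
    hpencil, hind⟩
  · rw [hadd ⟨y, hy⟩, (hkab ⟨y, hy⟩).1]
    exact add_neg_cancel _
  · rw [hadd ⟨y, hy⟩, (hkab ⟨y, hy⟩).2]
    exact add_neg_cancel _
  · rw [map_add, LinearMap.mem_ker.1 hk.2, add_zero]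
  · exact fun h => hlama ((hker a).2 h)
  · have hsp := Admissible.span_pow_eq_top (hfs' b hbl) (g := finrank P.K FS) le_rfl
    have e : ((lam b / lam a : FS) : P.D) = phi L n (b : Rows.Amb P) * (phi L n (a : Rows.Amb P))⁻¹ := by
      have e1 : ((lam b / lam a : FS) : P.D) * (lam a : P.D) = (lam b : P.D) :=
        congrArg Subtype.val (div_mul_cancel₀ (lam b) hlama)
      rw [hlam, hlam] at e1
      have ha0 : phi L n (a : Rows.Amb P) ≠ 0 := fun h => hlama ((hker a).2 h)
      have hq : ((lam b / lam a : FS) : P.D) ∈ P.qAlg L n := hle (lam b / lam a).2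
      have hi : (phi L n s₁)⁻¹ ∈ P.qAlg L n := TrProj.inv_mem _ (phi_mem L n _)
      rw [← mul_assoc, P.qAlg_comm L hq hi, mul_assoc] at e1
      rw [← mul_left_cancel₀ (inv_ne_zero h1) e1, mul_assoc, mul_inv_cancel₀ ha0, mul_one]
    have h := congrArg (Submodule.map FS.val.toLinearMap) hsp
    rw [Submodule.map_span, Submodule.map_top, ← Set.range_comp] at h
    rw [show Subalgebra.toSubmodule FS = LinearMap.range FS.val.toLinearMap from
      (Submodule.range_subtype _).symm, ← h]
    congr 1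
    exact congrArg Set.range (funext fun t => by
      simp only [Function.comp_apply, AlgHom.toLinearMap_apply, map_pow]
      rw [← e]
      rfl)

end

end Vale.Agent.P199.Freeze
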