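import Vale.Agent.P199.Freeze.Image

/-!
P199, freeze: the tangents of a base change are spanned by old tangents times monomials, so their number is bounded, and
the motions of the element reach at most the classes times the monomials.
-/

namespace Vale.Agent.P199

open Module Vale.P199

noncomputable section

namespace LiftSeries

variable {P P₁ : Pt} (E : Ext P P₁) {L : Listing} {n : ℕ} (r : Rows L n P)

/-- Independent tuples stay independent times monomials. -/
theorem indep_tuple {q : ℕ} (w : Fin q → Fin n → P.D) (hw : LinearIndependent P.K w) :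
    LinearIndependent P₁.K fun z : Fin q × Fin E.m => fun j => E.iD (w z.1 j) * E.mon z.2 := by
  classical
  refine Fintype.linearIndependent_iff.2 fun c hc => ?_
  let A : (Fin q → P.K) →ₗ[P.K] (Fin n → P.D) := Fintype.linearCombination P.K w
  have hA : Function.Injective A := linearIndependent_iff_injective_fintypeLinearCombination.1 hw
  obtain ⟨A', hA'⟩ := LinearMap.exists_leftInverse_of_injective A (LinearMap.ker_eq_bot.2 hA)
  rintro ⟨i₀, k⟩
  let lam : Fin n → Fin (finrank P.K P.D) → P.K := fun j t => A' (Pi.single j (oldBasis P t)) i₀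
  have hexp : ∀ i, ∑ j, ∑ t, (oldBasis P).repr (w i j) t * lam j t = if i = i₀ then 1 else 0 := by
    intro i
    have h : A' (w i) i₀ = if i = i₀ then 1 else 0 := by
      have h1 := congrFun (LinearMap.congr_fun hA' (Pi.single i 1)) i₀
      simpa [A, Fintype.linearCombination_apply, Pi.single_apply, eq_comm] using h1
    rw [← h]
    conv_rhs => rw [← Finset.univ_sum_single (w i)]
    rw [map_sum, Finset.sum_apply]
    refine Finset.sum_congr rfl fun j _ => ?_
    have e : (Pi.single j (w i j) : Fin n → P.D) =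
        ∑ t, (oldBasis P).repr (w i j) t • (Pi.single j (oldBasis P t) : Fin n → P.D) := by
      simp only [← Pi.single_smul]
      rw [← single_sum, (oldBasis P).sum_repr]
    rw [e, map_sum, Finset.sum_apply]
    exact Finset.sum_congr rfl fun t _ => by rw [map_smul]; rfl
  have hcoef : ∀ j t, ∑ i, c (i, k) * E.iK ((oldBasis P).repr (w i j) t) = 0 := by
    intro j t
    have h := congrArg (fun x => (basis E).repr x (t, k)) (congrFun hc j)
    simp only [Finset.sum_apply, Pi.smul_apply, Pi.zero_apply, map_sum, map_smul, map_zero,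
      Finsupp.coe_finsetSum, Finsupp.coe_smul, Finsupp.coe_zero, smul_eq_mul, iD_mul_mon,
      Basis.repr_self] at h
    rw [← h, Fintype.sum_prod_type]
    refine Finset.sum_congr rfl fun i _ => ?_
    simp [Finsupp.single_apply, ite_and, Finset.sum_ite_eq']
  calc c (i₀, k) = ∑ i, c (i, k) * E.iK (∑ j, ∑ t, (oldBasis P).repr (w i j) t * lam j t) := by
        simp [hexp]
    _ = ∑ j, ∑ t, (∑ i, c (i, k) * E.iK ((oldBasis P).repr (w i j) t)) * E.iK (lam j t) := by
        simp only [map_sum, map_mul, Finset.mul_sum, Finset.sum_mul, mul_assoc]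
        rw [Finset.sum_comm]
        exact Finset.sum_congr rfl fun j _ => Finset.sum_comm
    _ = 0 := by simp [hcoef]

/-- Old tangents times the monomials. -/
def multT : Submodule P₁.K (Rows.Amb P₁) :=
  Submodule.span P₁.K (Set.range fun z : r.T × Fin E.m =>
    fun c => E.iD ((z.1 : Rows.Amb P) c) * E.mon z.2)

/-- **The tangents of a base change are spanned by the old ones.** -/
theorem baseRows_T_le : (baseRows E r).T ≤ multT E r := by
  classical
  obtain ⟨N, hN⟩ := exists_isCompl r.T
  let b := finBasis P.K N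
  let w : Fin (finrank P.K N) → Fin n → P.D := fun i j => (r.J (b i : Rows.Amb P) j : P.D)
  have hw : LinearIndependent P.K w := by
    let ι : ((j : Fin n) → r.W j) →ₗ[P.K] (Fin n → P.D) :=
      LinearMap.pi fun j => (r.W j).subtype.comp (LinearMap.proj j)
    have h := (b.linearIndependent.map' N.subtype (Submodule.ker_subtype _)).map (f := r.J) (by
      refine Disjoint.mono_left (Submodule.span_le.2 ?_) (show Disjoint N (LinearMap.ker r.J) from hN.disjoint.symm)
      rintro _ ⟨i, rfl⟩
      exact (b i).2)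
    exact h.map' ι (LinearMap.ker_eq_bot.2 fun x y e => funext fun j => Subtype.ext (congrFun e j))
  have hind := indep_tuple E w hw
  let vN : Fin (finrank P.K N) × Fin E.m → Rows.Amb P₁ := fun z c =>
    E.iD ((b z.1 : Rows.Amb P) c) * E.mon z.2
  intro u hu
  obtain ⟨y, hy, c, huy⟩ : ∃ y ∈ multT E r, ∃ c : Fin (finrank P.K N) × Fin E.m → P₁.K,
      u = y + ∑ z, c z • vN z := by
    have hmem : u ∈ multT E r ⊔ Submodule.span P₁.K (Set.range vN) := by
      rw [amb_eq_sum E u]
      refine sum_mem fun c _ => sum_mem fun z _ => Submodule.smul_mem _ _ ?_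
      obtain ⟨p, hp, q, hq, hpq⟩ := Submodule.mem_sup.1
        (show (Pi.single c (oldBasis P z.1) : Rows.Amb P) ∈ r.T ⊔ N by rw [hN.sup_eq_top]; trivial)
      have e : ambVec E (Pi.single c (oldBasis P z.1)) z.2 =
          (fun c' => E.iD (p c') * E.mon z.2) + fun c' => E.iD (q c') * E.mon z.2 := funext fun c' => by
        rw [ambVec, ← hpq, Pi.add_apply, Pi.add_apply, map_add, add_mul]
      rw [e]
      refine Submodule.add_mem_sup (Submodule.subset_span ⟨(⟨p, hp⟩, z.2), rfl⟩) ?_
      have hq' : q = ∑ i, b.repr ⟨q, hq⟩ i • (b i : Rows.Amb P) := by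
        conv_lhs => rw [show q = N.subtype ⟨q, hq⟩ from rfl, ← b.sum_repr ⟨q, hq⟩, map_sum]
        exact Finset.sum_congr rfl fun i _ => map_smul N.subtype _ _
      have e' : (fun c' => E.iD (q c') * E.mon z.2) =
          ∑ i, E.iK (b.repr ⟨q, hq⟩ i) • vN (i, z.2) := funext fun c' => by
        conv_lhs => rw [hq']
        simp [vN, map_sum, Finset.sum_mul, iD_smul]
      rw [e']
      exact sum_mem fun i _ => Submodule.smul_mem _ _ (Submodule.subset_span ⟨(i, z.2), rfl⟩)
    obtain ⟨y, hy, v, hv, hyv⟩ := Submodule.mem_sup.1 hmem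
    obtain ⟨c, hc⟩ := (Submodule.mem_span_range_iff_exists_fun P₁.K).1 hv
    exact ⟨y, hy, c, by rw [hc, hyv]⟩
  have hJ : ∀ (s : Rows.Amb P) (k : Fin E.m) (j : Fin n),
      ((baseRows E r).J (fun c' => E.iD (s c') * E.mon k) j : P₁.D) =
        E.iD (r.J s j : P.D) * E.mon k := fun s k j => by
    show PJ E r j (P₁.dEq L (L.b n) j (fun c' => _ * E.mon k, 0)) = _
    rw [dEq_mul E _ (mon_mem E k), PJ_iD_mon]
    rfl
  have hy0 : (baseRows E r).J y = 0 := by
    refine Submodule.span_induction (p := fun y _ => (baseRows E r).J y = 0) ?_ (map_zero _)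
      (fun a b _ _ ha hb => by rw [map_add, ha, hb, add_zero])
      (fun t a _ ha => by rw [map_smul, ha, smul_zero]) hy
    rintro _ ⟨z, rfl⟩
    funext j
    refine Subtype.ext ?_
    rw [hJ, LinearMap.mem_ker.1 z.1.2]
    simp
  rw [Rows.T, LinearMap.mem_ker, huy, map_add, hy0, zero_add, map_sum] at hu
  have hc : ∑ z, c z • (fun j => E.iD (w z.1 j) * E.mon z.2) = 0 := by
    funext j
    have h := congrArg Subtype.val (congrFun hu j)
    simp only [map_smul, Finset.sum_apply, Pi.smul_apply, Submodule.coe_sum, Submodule.coe_smul,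
      vN, hJ, Pi.zero_apply, ZeroMemClass.coe_zero] at h
    simp only [Finset.sum_apply, Pi.smul_apply, Pi.zero_apply]
    exact h
  have hc0 := Fintype.linearIndependent_iff.1 hind c hc
  rw [huy]
  simpa [hc0] using hy

theorem finrank_baseRows_T_le : finrank P₁.K (baseRows E r).T ≤ finrank P.K r.T * E.m := by
  have : Module.Free P.K r.T := Module.Free.of_divisionRing P.K r.T
  let b := finBasis P.K r.T
  have h : multT E r ≤ Submodule.span P₁.K (Set.range fun z : Fin (finrank P.K r.T) × Fin E.m =>
      fun c => E.iD ((b z.1 : Rows.Amb P) c) * E.mon z.2) := by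
    refine Submodule.span_le.2 ?_
    rintro _ ⟨⟨s, k⟩, rfl⟩
    have hs : (s : Rows.Amb P) = ∑ i, b.repr s i • (b i : Rows.Amb P) := by
      conv_lhs => rw [← b.sum_repr s]
      simp only [Submodule.coe_sum, Submodule.coe_smul]
    have e : (fun c => E.iD ((s : Rows.Amb P) c) * E.mon k) =
        ∑ i, E.iK (b.repr s i) • fun c => E.iD ((b i : Rows.Amb P) c) * E.mon k := funext fun c => by
      conv_lhs => rw [hs]
      simp [map_sum, Finset.sum_mul, iD_smul]
    rw [SetLike.mem_coe]
    show (fun c => E.iD ((s : Rows.Amb P) c) * E.mon k) ∈ _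
    rw [e]
    exact sum_mem fun i _ => Submodule.smul_mem _ _ (Submodule.subset_span ⟨(i, k), rfl⟩)
  refine (Submodule.finrank_mono ((baseRows_T_le E r).trans h)).trans
    ((finrank_range_le_card _).trans (le_of_eq ?_))
  simp

/-- The span of an old space times monomials has at most the product dimension. -/
theorem finrank_upSpan_le (S : Submodule P.K P.D) :
    finrank P₁.K (upSpan E S) ≤ finrank P.K S * E.m := by
  let b := finBasis P.K S
  have h : upSpan E S ≤ Submodule.span P₁.K
      (Set.range fun z : Fin (finrank P.K S) × Fin E.m => E.iD (b z.1 : P.D) * E.mon z.2) := by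
    refine Submodule.span_le.2 ?_
    rintro _ ⟨⟨s, k⟩, rfl⟩
    have hs : (s : P.D) = ∑ i, b.repr s i • (b i : P.D) := by
      conv_lhs => rw [← b.sum_repr s]
      simp only [Submodule.coe_sum, Submodule.coe_smul]
    show E.iD (s : P.D) * E.mon k ∈ _
    rw [hs, map_sum, Finset.sum_mul]
    refine sum_mem fun i _ => ?_
    rw [iD_smul, smul_mul_assoc]
    exact Submodule.smul_mem _ _ (Submodule.subset_span ⟨(i, k), rfl⟩)
  refine (Submodule.finrank_mono h).trans ((finrank_range_le_card _).trans (le_of_eq ?_))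
  simp

theorem finrank_baseRows_W_le (j : Fin n) :
    finrank P₁.K ((baseRows E r).W j) ≤ finrank P.K (r.W j) * E.m := by
  refine (Submodule.finrank_mono ?_).trans (finrank_upSpan_le E (r.W j))
  rintro _ ⟨a, rfl⟩
  rw [← (basis E).sum_repr a, map_sum]
  refine sum_mem fun z _ => ?_
  rw [map_smul, PJ_basis]
  exact Submodule.smul_mem _ _ (mem_upSpan E (r.proj_mem j _) z.2)

end LiftSeries

open LiftSeries

namespace Motion

variable {P P₁ : Pt} {E : Ext P P₁} {M : Mono E} {L : Listing} {n : ℕ} {r : Rows L n P}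
  {μ : Motion M r} {T : LaurData P₁} {rE : Rows L n T.pt} {s₁ : Rows.Amb T.pt}

/-- The tangents whose motion is orthogonal to the commutant of the old element. -/
def killC (μ : Motion M r) : Submodule P₁.K (Rows.Amb P₁) where
  carrier := {v | ∀ c ∈ μ.C1, TrProj.tr (K := P₁.K) (c * Freeze.dp L n v) = 0}
  zero_mem' c _ := by simp
  add_mem' {u v} hu hv c hc := by rw [map_add, mul_add, map_add, hu c hc, hv c hc, add_zero]
  smul_mem' t v hv c hc := by rw [map_smul, mul_smul_comm, map_smul, hv c hc, smul_zero]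

theorem dp_mult (μ : Motion M r) (s : Rows.Amb P) {ν : P₁.D} (hν : ν ∈ monSpan E) :
    Freeze.dp (P := P₁) L n (fun c => E.iD (s c) * ν) = E.iD (Freeze.dp L n s) * ν := by
  show Poly.d1 P₁.val (P₁.dirVal (N := L.b n) (fun c => E.iD (s c) * ν, 0)) (L.p n) = _
  rw [dirVal_mul, val_eq E, ← Poly.map_d1 _ _ E.iD ν (comm_mem E hν)]
  rfl

/-- Few dimensions of motions: the classes times the monomials. -/
theorem finrank_baseRows_T_le_killC (μ : Motion M r) :
    finrank P₁.K (baseRows E r).T ≤
      finrank P₁.K ↥((baseRows E r).T ⊓ μ.killC) + finrank P.K μ.FS * E.m := by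
  have : CharZero P₁.K := P₁.charZero
  let F : Rows.Amb P₁ →ₗ[P₁.K] P₁.D := (TrProj.projOn μ.C1).comp (Freeze.dp (P := P₁) L n)
  set T₁ := (baseRows E r).T
  have hker : (LinearMap.ker (F.domRestrict T₁)).map T₁.subtype ≤ T₁ ⊓ μ.killC := by
    rintro _ ⟨v, hv, rfl⟩
    refine ⟨v.2, fun c hc => ?_⟩
    rw [← TrProj.tr_mul_projOn μ.C1 hc]
    have h0 : TrProj.projOn μ.C1 (Freeze.dp L n (v : Rows.Amb P₁)) = 0 := hv
    rw [show ((T₁.subtype v) : Rows.Amb P₁) = v from rfl, h0, mul_zero, map_zero]
  let S : Submodule P.K P.D := (Subalgebra.toSubmodule μ.FS).map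
    (LinearMap.mulLeft P.K (Freeze.phi L n μ.s₀))
  have himg : LinearMap.range (F.domRestrict T₁) ≤ upSpan E S := by
    rw [LinearMap.range_domRestrict, Submodule.map_le_iff_le_comap]
    refine (baseRows_T_le E r).trans (Submodule.span_le.2 ?_)
    rintro _ ⟨⟨s, k⟩, rfl⟩
    show TrProj.projOn μ.C1 (Freeze.dp (P := P₁) L n fun c => E.iD ((s : Rows.Amb P) c) * E.mon k) ∈ upSpan E S
    rw [μ.dp_mult _ (mon_mem E k), TrProj.eq_projOn μ.C1 (x := E.iD (Freeze.phi L n (s : Rows.Amb P)) * E.mon k)
      (mul_mem (μ.iD_mem (Freeze.phi_mem L n _)) (μ.monSpan_le (mon_mem E k)))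
      fun c hc => (μ.tr_dp_mon hc s.2 (mon_mem E k)).symm]
    refine mem_upSpan E (S := S) (Submodule.mem_map.2 ⟨_, μ.ratio _ s.2, ?_⟩) k
    rw [LinearMap.mulLeft_apply, ← mul_assoc, mul_inv_cancel₀ μ.ne₀, one_mul]
  have h1 := Submodule.finrank_mono himg
  have h2 := finrank_upSpan_le E S
  have h3 : finrank P.K S ≤ finrank P.K μ.FS :=
    (Submodule.finrank_map_le _ _).trans_eq (Subalgebra.finrank_toSubmodule _)
  have h4 := Submodule.finrank_mono hker
  rw [Submodule.finrank_map_subtype_eq] at h4
  have h5 := (F.domRestrict T₁).finrank_range_add_finrank_ker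
  have h6 : finrank P.K S * E.m ≤ finrank P.K μ.FS * E.m := Nat.mul_le_mul_right _ h3
  omega

/-- The base tangents exceed the old tangents of the lifted point by the identities times the monomials at most. -/
theorem Setup.finrank_baseRows_T_le (H : μ.Setup T rE s₁) :
    finrank P₁.K (baseRows E r).T ≤ finrank T.pt.K rE.T + r.corank * E.m := by
  have h1 := LiftSeries.finrank_baseRows_T_le E r
  have h2 := r.J.finrank_range_add_finrank_ker
  have h3 : finrank P.K (LinearMap.range r.J) + r.corank = ∑ j, finrank P.K (r.W j) := by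
    rw [← Module.finrank_pi_fintype]
    exact Subspace.finrank_add_finrank_dualAnnihilator_eq _
  have h4 := rE.J.finrank_range_add_finrank_ker
  have h5 := Submodule.finrank_le (LinearMap.range rE.J)
  have h6 : finrank T.pt.K ((j : Fin n) → rE.W j) ≤ (∑ j, finrank P.K (r.W j)) * E.m := by
    rw [Module.finrank_pi_fintype, Finset.sum_mul]
    exact Finset.sum_le_sum fun j _ => (H.dimW j).trans (finrank_baseRows_W_le E r j)
  have h7 : finrank T.pt.K (Rows.Amb T.pt) = finrank P.K (Rows.Amb P) * E.m := by
    show finrank T.pt.K (Bool → T.pt.D) = finrank P.K (Bool → P.D) * E.m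
    rw [Module.finrank_pi_fintype, Module.finrank_pi_fintype, T.finrank_pt, E.finrank_eq,
      Finset.sum_mul]
  have h8 : finrank P.K (LinearMap.ker r.J) = finrank P.K r.T := rfl
  have h9 : finrank T.pt.K (LinearMap.ker rE.J) = finrank T.pt.K rE.T := rfl
  rw [h9] at h4
  rw [h8] at h2
  rw [h7, ← h2, add_mul] at h4
  rw [← h3, add_mul] at h6
  omega

end Motion

end

end Vale.Agent.P199
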