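import Vale.Agent.P199.Freeze.Covector
import Vale.Agent.P199.Freeze.Spread

/-!
P199, freeze: the rank of the forms of the covectors of the new rows with a nonzero new part. A nonzero `η` is a
combination of the old identities at the monomial `1`, of rank about `R l ^ 2` against the tangents whose motion is
orthogonal to the old commutant; otherwise `ζ` pairs the poles of the monomial multiples of the reference motion with
these multiples, with rank about `l ^ 2`.
-/

namespace Vale.Agent.P199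

open Module LiftSeries Vale.P199

noncomputable section

namespace LiftSeries

variable {P : Pt} {L : Listing} {n : ℕ} (r : Rows L n P)

/-- A pencil on a space of tangents makes every pair of values attained there. -/
theorem exists_tangent_on {a b : Rows.Amb P} {S : Submodule P.K (Rows.Amb P)} (hS : S ≤ r.T)
    (hinj : ∀ y ∈ r.Y, ∀ z ∈ r.Y, (∀ s ∈ S, r.form y a s + r.form z b s = 0) → y = 0 ∧ z = 0)
    (f g : Dual P.K r.Y) : ∃ s ∈ S, ∀ y : r.Y, r.form y a s = f y ∧ r.form y b s = g y := by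
  let ι := Submodule.inclusion hS
  let Φ : (r.Y × r.Y) →ₗ[P.K] Dual P.K S :=
    (((pairing r a).comp ι).dualMap ∘ₗ r.Y.subtype).coprod
      (((pairing r b).comp ι).dualMap ∘ₗ r.Y.subtype)
  have hval : ∀ (y z : r.Y) (s : S), Φ (y, z) s = r.form y a s + r.form z b s := fun y z s => rfl
  have hker : LinearMap.ker Φ = ⊥ := by
    refine (Submodule.eq_bot_iff _).2 fun p hp => ?_
    obtain ⟨h1, h2⟩ := hinj p.1 p.1.2 p.2 p.2.2 fun s hs => by
      rw [← hval p.1 p.2 ⟨s, hs⟩, Prod.mk.eta, LinearMap.mem_ker.1 hp, LinearMap.zero_apply]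
    exact Prod.ext (Subtype.ext h1) (Subtype.ext h2)
  obtain ⟨s, hs⟩ := exists_eval (F := P.K) (A := r.Y × r.Y) (B := S) Φ
    (LinearMap.ker_eq_bot.1 hker) (f.coprod g)
  refine ⟨s, s.2, fun y => ⟨?_, ?_⟩⟩
  · have h := hs (y, 0)
    simpa [hval, Rows.form] using h
  · have h := hs (0, y)
    simpa [hval, Rows.form] using h

end LiftSeries

namespace Motion

open LaurData

variable {P P₁ : Pt} {E : Ext P P₁} {M : Mono E} {L : Listing} {n : ℕ} {r : Rows L n P}
  {μ : Motion M r} {T : LaurData P₁} {rE : Rows L n T.pt} {s₁ : Rows.Amb T.pt}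
  (H : μ.Setup T rE s₁)

include H

/-- **What commutes with the element sees a motion only through its projection.** -/
theorem Setup.tr_dp_eq {u : Rows.Amb T.pt} (hu : u ∈ rE.T) {c : T.pt.D}
    (hc : T.pt.q L n * c = c * T.pt.q L n) :
    TrProj.tr (K := T.pt.K) (c * Freeze.dp L n u) = TrProj.tr (c * Freeze.phi L n u) := by
  have : CharZero T.pt.K := T.pt.charZero
  set f := Polynomial.aeval (T.pt.q L n) (Polynomial.derivative
      (Polynomial.X ^ L.e n + ∑ i ∈ Finset.range (L.e n),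
        Polynomial.C (T.pt.c (L.b n + i)) * Polynomial.X ^ i))
  have hf : f ∈ T.pt.qAlg L n := Polynomial.aeval_mem_adjoin_singleton _ _
  have hf0 : f ≠ 0 := H.lifted.deriv_ne_zero
  have hfq : f⁻¹ * T.pt.q L n = T.pt.q L n * f⁻¹ :=
    T.pt.qAlg_comm L (TrProj.inv_mem _ hf) (Algebra.self_mem_adjoin_singleton _ _)
  have h := FreezeComm.tr_d1_eqn (K := T.pt.K) T.pt.val (T.pt.dirVal (N := L.b n) (u, 0)) (L.p n)
    (L.e n) (fun i => Sum.inr (L.b n + i)) (fun i => T.pt.c (L.b n + i)) (fun i _ => rfl)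
    (fun i _ => by simp [Pt.dirVal]) (c * f⁻¹)
    (by show c * f⁻¹ * T.pt.q L n = T.pt.q L n * (c * f⁻¹)
        rw [mul_assoc, hfq, ← mul_assoc, ← hc, mul_assoc])
  change TrProj.tr (K := T.pt.K) (c * f⁻¹ * NewRow.psi (L := L) (n := n) u) =
    TrProj.tr (c * f⁻¹ * f * Freeze.dp L n u) at h
  rw [H.psi_eq hu, mul_assoc c f⁻¹ f, inv_mul_cancel₀ hf0, mul_one, mul_assoc,
    ← mul_assoc f⁻¹, inv_mul_cancel₀ hf0, one_mul] at h
  exact h.symm

/-- A new tangent has a pole: the commutant does not see its motion. -/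
theorem Setup.tr_new {p : Bool → PowerSeries P₁.D} (hp : T.emDir p ∈ (NewRow.rows H.hyp).T)
    (c : T.pt.D) (hc : T.pt.q L n * c = c * T.pt.q L n) :
    TrProj.tr (K := T.pt.K) (c * T.em (Poly.d1 T.ser (pdir p) (L.p n))) = 0 := by
  obtain ⟨hpT, hψ⟩ := (NewRow.mem_T H.hyp).1 hp
  rw [H.psi_eq hpT] at hψ
  rw [← T.em_d1 (L.b n), ← Freeze.dp_apply, H.tr_dp_eq hpT hc,
    (mul_eq_zero.1 hψ).resolve_left H.lifted.deriv_ne_zero, mul_zero, map_zero]

/-- The new tangents have codimension at most the classes. -/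
theorem Setup.finrank_T_le_new :
    finrank T.pt.K rE.T ≤
      finrank T.pt.K (NewRow.rows H.hyp).T + finrank P.K μ.FS * M.l := by
  have h1 := NewRow.finrank_T H.hyp
  have h2 : finrank T.pt.K (rE.T.map (NewRow.psi (L := L) (n := n))) ≤
      finrank T.pt.K (NewRow.classes rE s₁) := by
    rw [← NewRow.finrank_W H.hyp, NewRow.rows_W_last H.hyp]
    refine Submodule.finrank_mono ?_
    rintro _ ⟨u, hu, rfl⟩
    exact ⟨_, NewRow.proj_psi H.hyp hu⟩
  have h3 := H.classes_le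
  omega

theorem Setup.leadAmb_new_le :
    T.leadAmb (NewRow.rows H.hyp).T ≤ (baseRows E r).T :=
  (T.leadAmb_mono fun _ hu => ((NewRow.mem_T H.hyp).1 hu).1).trans (H.lead_le.trans inf_le_left)

/-- Most monomial multiples of the reference motion are new leading tangents. -/
theorem Setup.finrank_comap_new :
    finrank P₁.K (monSpan E) ≤ finrank P₁.K ((T.leadAmb (NewRow.rows H.hyp).T).comap μ.multS) +
      (r.corank + finrank P.K μ.FS * M.l) := by
  set A := T.leadAmb (NewRow.rows H.hyp).T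
  set B := T.leadAmb rE.T
  have hAB : A ≤ B := T.leadAmb_mono fun _ hu => ((NewRow.mem_T H.hyp).1 hu).1
  have h1 := Submodule.finrank_sup_add_finrank_inf_eq A (B ⊓ LinearMap.range μ.multS)
  have h2 : finrank P₁.K ↥(A ⊔ B ⊓ LinearMap.range μ.multS) ≤ finrank P₁.K B :=
    Submodule.finrank_mono (sup_le hAB inf_le_left)
  have h3 : A ⊓ (B ⊓ LinearMap.range μ.multS) = LinearMap.range μ.multS ⊓ A := by
    rw [← inf_assoc, inf_eq_left.2 hAB, inf_comm]
  have h4 : ∀ X : Submodule P₁.K (Rows.Amb P₁),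
      finrank P₁.K (X.comap μ.multS) = finrank P₁.K ↥(LinearMap.range μ.multS ⊓ X) := fun X => by
    rw [← Submodule.map_comap_eq]
    exact (Submodule.equivMapOfInjective _ multS_injective _).finrank_eq
  have h5 : finrank P₁.K (monSpan E) ≤ finrank P₁.K (B.comap μ.multS) + r.corank := H.finrank_comap
  have h6 := H.finrank_T_le_new
  have h7 : finrank P₁.K B = finrank T.pt.K rE.T := T.finrank_leadAmb _
  have h8 : finrank P₁.K A = finrank T.pt.K (NewRow.rows H.hyp).T := T.finrank_leadAmb _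
  rw [h3, ← h4] at h1
  rw [inf_comm B] at h1 h2
  rw [← h4] at h1
  omega

/-- **Covectors with a nonzero `η`.** -/
theorem Setup.radical_old {R : ℕ} (hR : r.RankGE R) (hnd : NonDeg E) (hspec : RankSpec E.iK)
    (hpencil : ∀ y ∈ r.Y, ∀ z ∈ r.Y, (∀ s ∈ r.T, Freeze.phi L n s = 0 →
      r.form y μ.a s + r.form z μ.b s = 0) → y = 0 ∧ z = 0)
    {y : Dual T.pt.K ((j : Fin (n + 1)) → (NewRow.rows H.hyp).W j)} {η : Fin n → P₁.D} {ζ : P₁.D}
    (hl : μ.Leading T (NewRow.rows H.hyp) y η ζ) (hη : η ≠ 0)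
    (S : Submodule T.pt.K (Rows.Amb T.pt)) (hS : S ≤ (NewRow.rows H.hyp).T)
    (hrad : ∀ u ∈ S, ∀ v ∈ (NewRow.rows H.hyp).T, (NewRow.rows H.hyp).form y u v = 0) :
    finrank T.pt.K S + R * E.m ≤ finrank T.pt.K (NewRow.rows H.hyp).T +
      (2 * (r.corank * E.m) + 2 * (finrank P.K μ.FS * M.l) + finrank P.K μ.FS * E.m) := by
  classical
  have : CharZero P₁.K := P₁.charZero
  let τ : Fin n → P₁.D →ₗ[P₁.K] P₁.K := fun j =>
    (TrProj.tr (K := P₁.K)).comp (LinearMap.mulLeft P₁.K (η j))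
  let etaF : Dual P₁.K ((j : Fin n) → (baseRows E r).W j) :=
    ∑ j, (τ j).comp (((baseRows E r).W j).subtype.comp (LinearMap.proj j))
  have hG : ∀ Z : Fin n → P₁.D,
      etaF (GW₁ E r Z) = ∑ j, TrProj.tr (K := P₁.K) (η j * Z j) := fun Z => by
    simp only [etaF, LinearMap.sum_apply]
    exact Finset.sum_congr rfl fun j _ => hl.inv j (Z j)
  have hJ : ∀ z ∈ LinearMap.range (baseRows E r).J, etaF z = 0 := by
    rintro _ ⟨u, rfl⟩
    show etaF (GW₁ E r fun j : Fin n => P₁.dEq L (L.b n) j (u, 0)) = 0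
    rw [hG]
    exact hl.range u
  have heta : etaF ≠ 0 := fun h0 => by
    obtain ⟨j, hj⟩ := Function.ne_iff.1 hη
    have h1 := hG (Pi.single j (η j)⁻¹)
    rw [h0, LinearMap.zero_apply, Finset.sum_eq_single j (fun i _ hij => by
      simp [Pi.single_eq_of_ne hij]) (fun h => absurd (Finset.mem_univ _) h), Pi.single_eq_same,
      mul_inv_cancel₀ hj, TrProj.tr_one] at h1
    exact finrank_pos.ne' (Nat.cast_eq_zero.1 h1.symm)
  -- tangents without projected motion move every obstruction off the monomial `1`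
  have hmon : ∀ (d : Fin n → P.D) (k : Fin E.m), k ≠ one E →
      etaF (GW₁ E r fun j => E.iD (d j) * E.mon k) = 0 := by
    intro d k hk
    have free : ∀ e : Fin n → P.D, (∀ y ∈ r.Y, yv r y e = 0) → ∀ x ∈ monSpan E,
        ∑ j, TrProj.tr (K := P₁.K) (η j * (E.iD (e j) * x)) = 0 := fun e he x hx => by
      rw [← hG fun j => E.iD (e j) * x]
      exact hJ _ (GW₁_mem_range E r he hx)
    let f : Dual P.K r.Y :=
      { toFun := fun y => yv r (y : Dual P.K ((j : Fin n) → r.W j)) d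
        map_add' := fun y z => by simp [yv_apply]
        map_smul' := fun t y => by simp [yv_apply] }
    have hS' : r.T ⊓ LinearMap.ker (Freeze.phi (P := P) L n) ≤ r.T := inf_le_left
    have hinj : ∀ y ∈ r.Y, ∀ z ∈ r.Y, (∀ s ∈ r.T ⊓ LinearMap.ker (Freeze.phi (P := P) L n),
        r.form y μ.a s + r.form z μ.b s = 0) → y = 0 ∧ z = 0 :=
      fun y hy z hz h => hpencil y hy z hz fun s hs h0 => h s ⟨hs, h0⟩
    obtain ⟨ν, hν, hbr⟩ := H.data.comm k hk
    obtain ⟨s, ⟨hs, hs0⟩, e₁, e₂, h1, h2, he⟩ : ∃ s ∈ r.T ⊓ LinearMap.ker (Freeze.phi (P := P) L n),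
        ∃ e₁ e₂ : Fin n → P.D, (∀ y ∈ r.Y, yv r y e₁ = 0) ∧ (∀ y ∈ r.Y, yv r y e₂ = 0) ∧
          ∀ j, E.iD (D2 r μ.a s j) * ((M.U : P₁.D) * ν - ν * M.U) +
              E.iD (D2 r μ.b s j) * ((M.V : P₁.D) * ν - ν * M.V) =
            E.iD (d j) * E.mon k + E.iD (e₁ j) * ((M.U : P₁.D) * ν - ν * M.U) +
              E.iD (e₂ j) * ((M.V : P₁.D) * ν - ν * M.V) := by
      rcases hbr with hbr | hbr
      · obtain ⟨s, hs, hsf⟩ := exists_tangent_on r hS' hinj f 0
        refine ⟨s, hs, D2 r μ.a s - d, D2 r μ.b s, fun y hy => ?_, fun y hy => ?_, fun j => ?_⟩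
        · rw [map_sub, yv_D2, (hsf ⟨y, hy⟩).1]
          exact sub_self _
        · rw [yv_D2]
          exact (hsf ⟨y, hy⟩).2
        · rw [← hbr, Pi.sub_apply, map_sub, sub_mul]
          abel
      · obtain ⟨s, hs, hsf⟩ := exists_tangent_on r hS' hinj 0 f
        refine ⟨s, hs, D2 r μ.a s, D2 r μ.b s - d, fun y hy => ?_, fun y hy => ?_, fun j => ?_⟩
        · rw [yv_D2]
          exact (hsf ⟨y, hy⟩).1
        · rw [map_sub, yv_D2, (hsf ⟨y, hy⟩).2]
          exact sub_self _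
        · rw [← hbr, Pi.sub_apply, map_sub, sub_mul]
          abel
    have hu : (fun c => E.iD (s c) * ν) ∈ (baseRows E r).T :=
      LinearMap.mem_ker.2 (funext fun j => Subtype.ext (by
        show PJ E r j (P₁.dEq L (L.b n) j (fun c => E.iD (s c) * ν, 0)) = 0
        rw [dEq_tangent_mul E r H.data.tight.fixed hs hν j, map_zero]))
    have hlin := hl.linear _ hu
    rw [μ.dp_mult s hν, μ.tr_dp_mon (μ.big_le hl.mem_big) hs hν, LinearMap.mem_ker.1 hs0,
      map_zero, zero_mul, mul_zero, map_zero, add_zero] at hlin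
    have hz : ∀ u ∈ r.T, ∀ y ∈ r.Y, yv r y (D2 r u s + D2 r s u) = 0 := fun u hu y hy => by
      rw [map_add, yv_D2, yv_D2, form_swap r H.data.alt hy hu hs, neg_add_cancel]
    have hsplit : ∀ j : Fin n, Lin (L := L) (n := n) E μ.a μ.b (M.U : P₁.D) (M.V : P₁.D) j
        (fun c => E.iD (s c) * ν, 0) = E.iD (d j) * E.mon k +
          E.iD (e₁ j) * ((M.U : P₁.D) * ν - ν * M.U) + E.iD (e₂ j) * ((M.V : P₁.D) * ν - ν * M.V) +
          E.iD ((D2 r μ.a s + D2 r s μ.a) j) * (ν * M.U) +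
          E.iD ((D2 r μ.b s + D2 r s μ.b) j) * (ν * M.V) := fun j => by
      rw [Lin_mul E r s H.data.memU H.data.memV hν j, ← he j]
      simp only [Pi.add_apply, map_add, mul_sub, add_mul]
      abel
    simp only [hsplit, mul_add, map_add, Finset.sum_add_distrib] at hlin
    rw [free e₁ h1 _ (sub_mem (mul_mem_monSpan E H.data.mul H.data.memU hν)
        (mul_mem_monSpan E H.data.mul hν H.data.memU)),
      free e₂ h2 _ (sub_mem (mul_mem_monSpan E H.data.mul H.data.memV hν)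
        (mul_mem_monSpan E H.data.mul hν H.data.memV)),
      free _ (hz _ μ.memA) _ (mul_mem_monSpan E H.data.mul hν H.data.memU),
      free _ (hz _ μ.memB) _ (mul_mem_monSpan E H.data.mul hν H.data.memV)] at hlin
    rw [hG]
    simpa using hlin
  -- the radical
  set T' := (NewRow.rows H.hyp).T
  set T₁ := (baseRows E r).T
  have hkey := radical_le E r H.data.tight H.data.mul hnd hspec hR etaF hJ hmon heta (T.leadAmb S)
    (T.leadAmb T' ⊓ μ.killC) ((T.leadAmb_mono hS).trans H.leadAmb_new_le)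
    (inf_le_left.trans H.leadAmb_new_le) (by
      intro u hu v hv
      obtain ⟨p, hp, rfl⟩ := T.mem_leadAmb.1 hu
      obtain ⟨q, hq, rfl⟩ := T.mem_leadAmb.1 hv.1
      obtain ⟨π, hπ, hπ0, -⟩ := H.lifted.exists_pole H.central₁
        (Poly.d1 T.ser (pdir p) (L.p n)) (H.tr_new (hS hp))
      have h := hl.form p q (hS hp) hq (hrad _ hp _ hq) π hπ
      rw [← mul_assoc, hv.2 _ (μ.C1.mul_mem (μ.big_le hl.mem_big) hπ0), add_zero] at h
      show etaF (GW₁ E r fun j : Fin n => Poly.d2 P₁.val _ _ (L.eqn j)) = 0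
      rw [hG]
      exact h)
  rw [T.finrank_leadAmb] at hkey
  have h1 : finrank P₁.K T₁ ≤ finrank T.pt.K rE.T + r.corank * E.m := H.finrank_baseRows_T_le
  have h2 : finrank T.pt.K rE.T ≤ finrank T.pt.K T' + finrank P.K μ.FS * M.l := H.finrank_T_le_new
  change finrank T.pt.K S + R * E.m ≤ finrank P₁.K T₁ +
    (finrank P₁.K T₁ - finrank P₁.K ↥(T.leadAmb T' ⊓ μ.killC)) at hkey
  have h3 : finrank P₁.K T₁ ≤ finrank P₁.K ↥(T₁ ⊓ μ.killC) + finrank P.K μ.FS * E.m :=
    μ.finrank_baseRows_T_le_killC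
  have h4 := Submodule.finrank_sup_add_finrank_inf_eq (T.leadAmb T') (T₁ ⊓ μ.killC)
  have h5 : T.leadAmb T' ⊓ (T₁ ⊓ μ.killC) = T.leadAmb T' ⊓ μ.killC := by
    rw [← inf_assoc, inf_eq_left.2 H.leadAmb_new_le]
  have h6 : finrank P₁.K ↥(T.leadAmb T' ⊔ T₁ ⊓ μ.killC) ≤ finrank P₁.K T₁ :=
    Submodule.finrank_mono (sup_le H.leadAmb_new_le inf_le_left)
  have h7 : finrank P₁.K (T.leadAmb T') = finrank T.pt.K T' := T.finrank_leadAmb _
  rw [h5] at h4
  omega

/-- **Covectors with `η = 0`.** -/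
theorem Setup.radical_pole (hl5 : 5 * finrank P.K μ.FS ≤ M.l)
    {y : Dual T.pt.K ((j : Fin (n + 1)) → (NewRow.rows H.hyp).W j)} {η : Fin n → P₁.D} {ζ : P₁.D}
    (hl : μ.Leading T (NewRow.rows H.hyp) y η ζ) (hη : η = 0)
    (S : Submodule T.pt.K (Rows.Amb T.pt)) (hS : S ≤ (NewRow.rows H.hyp).T)
    (hrad : ∀ u ∈ S, ∀ v ∈ (NewRow.rows H.hyp).T, (NewRow.rows H.hyp).form y u v = 0) :
    finrank T.pt.K S + (M.l - 3 * finrank P.K μ.FS) * (M.l - 2 * finrank P.K μ.FS) ≤
      finrank T.pt.K (NewRow.rows H.hyp).T +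
        (3 * (finrank P.K μ.FS * M.l) + 2 * r.corank) := by
  classical
  have : CharZero P₁.K := P₁.charZero
  set φ₀ := Freeze.phi L n μ.s₀
  have hζ : ζ ≠ 0 := hl.ne.resolve_left fun h => h hη
  have hlin : ∀ u ∈ (baseRows E r).T, TrProj.tr (K := P₁.K) (ζ * Freeze.dp L n u) = 0 := fun u hu => by
    simpa [hη] using hl.linear u hu
  set z₀ := ζ * E.iD φ₀
  have hz₀ : z₀ ≠ 0 := mul_ne_zero hζ fun h => μ.ne₀ (E.iD.injective (by rw [map_zero]; exact h))
  have htr : ∀ k, TrProj.tr (K := P₁.K) (z₀ * E.mon k) = 0 := fun k => by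
    have h : TrProj.tr (K := P₁.K) (ζ * Freeze.dp L n (fun c => E.iD (μ.s₀ c) * E.mon k)) = 0 :=
      hlin _ (LinearMap.mem_ker.2 (funext fun j => Subtype.ext (by
      show PJ E r j (P₁.dEq L (L.b n) j (fun c => E.iD (μ.s₀ c) * E.mon k, 0)) = 0
      rw [dEq_tangent_mul E r H.data.tight.fixed μ.mem₀ (mon_mem E k) j, map_zero])))
    rwa [μ.dp_mult μ.s₀ (mon_mem E k), μ.tr_dp_mon (μ.big_le hl.mem_big) μ.mem₀ (mon_mem E k),
      ← mul_assoc] at h
  obtain ⟨-, -, hmodel⟩ := μ.cls.model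
  obtain ⟨W, ξ, hW, hdim, hξ, hinj⟩ := hmodel hl5 z₀ hl.mem_field hz₀ htr
  change (M.l - 3 * finrank P.K μ.FS) * (M.l - 2 * finrank P.K μ.FS) ≤
    finrank P₁.K W + finrank P.K μ.FS * M.l at hdim
  set T' := (NewRow.rows H.hyp).T
  set V' := (T.leadAmb T').comap μ.multS
  let ι : W →ₗ[P₁.K] monSpan E := Submodule.inclusion hW
  let K₀ : Submodule P₁.K W := V'.comap ι
  let mW : W →ₗ[P₁.K] Rows.Amb P₁ := μ.multS.comp ι
  let N : Submodule P₁.K W := K₀ ⊓ (T.leadAmb S).comap mW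
  have hmW : Function.Injective mW := μ.multS_injective.comp (Submodule.inclusion_injective hW)
  -- the multiples in the radical pair to zero with the new multiples
  let B : W →ₗ[P₁.K] Dual P₁.K (monSpan E) :=
    LinearMap.mk₂ P₁.K (fun (x : W) (ν : monSpan E) => TrProj.tr (K := P₁.K) (z₀ * ξ x * (ν : P₁.D)))
      (fun x x' ν => by simp [mul_add, add_mul]) (fun t x ν => by simp)
      (fun x ν ν' => by simp [mul_add]) (fun t x ν => by simp)
  have hB : Function.Injective B := (injective_iff_map_eq_zero _).2 fun x hx =>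
    hinj x fun k => LinearMap.congr_fun hx ⟨E.mon k, mon_mem E k⟩
  have hN : N.map B ≤ V'.dualAnnihilator := by
    rintro _ ⟨x, ⟨hxK, hxS⟩, rfl⟩
    refine (Submodule.mem_dualAnnihilator _).2 fun ν hν => ?_
    obtain ⟨p, hp, hp0⟩ := T.mem_leadAmb.1 (show μ.multS (ι x) ∈ T.leadAmb S from hxS)
    obtain ⟨q, hq, hq0⟩ := T.mem_leadAmb.1 (show μ.multS ν ∈ T.leadAmb T' from hν)
    obtain ⟨hξalg, hξeq⟩ := hξ x
    have hx : (x : P₁.D) ∈ monSpan E := hW x.2
    have hφc : E.iD φ₀ * ξ x = ξ x * E.iD φ₀ := μ.iD_comm_alg (Freeze.phi_mem L n _) hξalg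
    have hC : ξ x ∈ μ.C1 := μ.mem_C1.2 (μ.iD_comm_alg (Algebra.self_mem_adjoin_singleton _ _) hξalg)
    have hd : PowerSeries.constantCoeff (Poly.d1 T.ser (pdir p) (L.p n)) =
        E.iD (Freeze.dp L n μ.s₀) * (x : P₁.D) := by
      rw [← PowerSeries.coeff_zero_eq_constantCoeff_apply, Poly.coeff_zero_d1, T.cf_zero_ser,
        cf_zero_pdir (L.b n), hp0]
      exact μ.dp_mult μ.s₀ hx
    obtain ⟨π, hπ, hπ0⟩ := H.lifted.exists_pole_at H.central₁ (Poly.d1 T.ser (pdir p) (L.p n))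
      (H.tr_new (hS hp)) (p₀ := ξ x) hC (fun c hc => by
        rw [hd, μ.tr_dp_mon hc μ.mem₀ hx, μ.lead_eq, ← mul_assoc (ξ x), ← hφc,
          mul_assoc (E.iD φ₀), mul_assoc (E.iD φ₀), ← mul_sub, hξeq])
    have h := hl.form p q (hS hp) hq (hrad _ hp _ hq) π hπ
    rw [hπ0, hq0] at h
    simp only [hη, Pi.zero_apply, zero_mul, map_zero, Finset.sum_const_zero, zero_add] at h
    show TrProj.tr (K := P₁.K) (z₀ * ξ x * (ν : P₁.D)) = 0
    rw [show Freeze.dp (P := P₁) L n (μ.multS ν) = E.iD (Freeze.dp L n μ.s₀) * (ν : P₁.D) from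
      μ.dp_mult μ.s₀ ν.2, ← mul_assoc ζ,
      μ.tr_dp_mon (μ.C1.mul_mem (μ.big_le hl.mem_big) hC) μ.mem₀ ν.2] at h
    rw [show z₀ * ξ x * (ν : P₁.D) = ζ * ξ x * (E.iD φ₀ * (ν : P₁.D)) by
      show ζ * E.iD φ₀ * ξ x * (ν : P₁.D) = _
      rw [mul_assoc ζ, hφc, ← mul_assoc ζ, mul_assoc]]
    exact h
  have hV : finrank P₁.K (monSpan E) ≤ finrank P₁.K V' + (r.corank + finrank P.K μ.FS * M.l) :=
    H.finrank_comap_new
  have h1 := Submodule.finrank_mono hN
  rw [← (Submodule.equivMapOfInjective B hB N).finrank_eq] at h1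
  have h2 := Subspace.finrank_add_finrank_dualAnnihilator_eq V'
  have h3 := Submodule.finrank_sup_add_finrank_inf_eq (T.leadAmb S) (K₀.map mW)
  have h4 : finrank P₁.K ↥(T.leadAmb S ⊓ K₀.map mW) ≤ finrank P₁.K N := by
    rw [(Submodule.equivMapOfInjective mW hmW N).finrank_eq]
    refine Submodule.finrank_mono ?_
    rintro _ ⟨hu, x, hx, rfl⟩
    exact ⟨x, ⟨hx, hu⟩, rfl⟩
  have h5 : finrank P₁.K ↥(T.leadAmb S ⊔ K₀.map mW) ≤ finrank T.pt.K T' := by
    rw [← T.finrank_leadAmb T']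
    refine Submodule.finrank_mono (sup_le (T.leadAmb_mono hS) ?_)
    rintro _ ⟨x, hx, rfl⟩
    exact hx
  have h6 : finrank P₁.K W + finrank P₁.K V' ≤ finrank P₁.K K₀ + finrank P₁.K (monSpan E) := by
    have hι : Function.Injective ι := Submodule.inclusion_injective hW
    have e := Submodule.finrank_sup_add_finrank_inf_eq (LinearMap.range ι) V'
    have e1 : finrank P₁.K K₀ = finrank P₁.K ↥(LinearMap.range ι ⊓ V') := by
      rw [← Submodule.map_comap_eq]
      exact (Submodule.equivMapOfInjective ι hι _).finrank_eq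
    have e2 := Submodule.finrank_le (LinearMap.range ι ⊔ V')
    rw [LinearMap.finrank_range_of_inj hι] at e
    omega
  rw [← (Submodule.equivMapOfInjective mW hmW K₀).finrank_eq, T.finrank_leadAmb] at h3
  omega

/-- **The forms of the new covectors with nonzero new part have large rank.** -/
theorem Setup.rank_new {R : ℕ} (hR : r.RankGE R) (hnd : NonDeg E) (hspec : RankSpec E.iK)
    (hpencil : ∀ y ∈ r.Y, ∀ z ∈ r.Y, (∀ s ∈ r.T, Freeze.phi L n s = 0 →
      r.form y μ.a s + r.form z μ.b s = 0) → y = 0 ∧ z = 0)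
    (hl5 : 5 * finrank P.K μ.FS ≤ M.l)
    {y : Dual T.pt.K ((j : Fin (n + 1)) → (NewRow.rows H.hyp).W j)}
    (hy : y ∈ (NewRow.rows H.hyp).Y) (h0 : NewRow.newPart H.hyp y ≠ 0)
    (S : Submodule T.pt.K (Rows.Amb T.pt)) (hS : S ≤ (NewRow.rows H.hyp).T)
    (hrad : ∀ u ∈ S, ∀ v ∈ (NewRow.rows H.hyp).T, (NewRow.rows H.hyp).form y u v = 0) :
    finrank T.pt.K S +
        min (R * E.m - (2 * (r.corank * E.m) + 2 * (finrank P.K μ.FS * M.l) + finrank P.K μ.FS * E.m))
          ((M.l - 3 * finrank P.K μ.FS) * (M.l - 2 * finrank P.K μ.FS) -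
            (3 * (finrank P.K μ.FS * M.l) + 2 * r.corank)) ≤
      finrank T.pt.K (NewRow.rows H.hyp).T := by
  obtain ⟨η, ζ, hl⟩ := H.exists_leading hy h0
  have h1 := Submodule.finrank_mono hS
  by_cases hη : η = 0
  · have := H.radical_pole hl5 hl hη S hS hrad
    omega
  · have := H.radical_old hR hnd hspec hpencil hl hη S hS hrad
    omega

end Motion

end

end Vale.Agent.P199
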