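import Vale.Agent.P199.Freeze.Motion
import Vale.Agent.P199.Main.SetC
import Vale.Agent.P199.Main.Congr
import Vale.Agent.P199.Inv.SetC
import Vale.Agent.P199.Inv.Congr

/-!
P199, freeze: a motion does not see the symbols beyond the rows, nor the listing beyond them, so the symbols and the
degree of the new row may be set after the pair of tangents was chosen.
-/

namespace Vale.Agent.P199

open Module LiftSeries Vale.P199

noncomputable section

variable {P : Pt} {L L' : Listing} {n : ℕ} (A : L.Agree L' n) (hgn : L.Guarded n)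
  {f : ℕ → P.K} (hf : ∀ i < L.b n, f i = P.c i)

include A hgn hf

theorem Pt.qAlg_reset : (P.setC f).qAlg L' n = P.qAlg L n := by
  show Algebra.adjoin P.K {(P.setC f).q L' n} = Algebra.adjoin P.K {P.q L n}
  rw [show (P.setC f).q L' n = P.q L n from (Inv.q_congr A _).trans (Inv.q_setC_self P hgn hf)]

namespace Freeze

theorem dp_reset : dp (P := P.setC f) L' n = dp (P := P) L n := LinearMap.ext fun s => by
  show Poly.d1 (P.setC f).val (P.dirVal (N := L'.b n) (s, 0)) (L'.p n) =
    Poly.d1 P.val (P.dirVal (N := L.b n) (s, 0)) (L.p n)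
  rw [P.dirVal_ambient (L'.b n) (L.b n), A.p_eq]
  have h := hgn (fun z => Poly.tri ((P.setC f).val z) (P.dirVal (N := L.b n) (s, 0) z)
      (P.dirVal (N := L.b n) (s, 0) z) 0)
    (fun z => Poly.tri (P.val z) (P.dirVal (N := L.b n) (s, 0) z)
      (P.dirVal (N := L.b n) (s, 0) z) 0)
    (fun a => rfl) fun i hi => by rw [P.val_setC hf hi]
  exact congrFun (congrFun h 0) 1

theorem phi_reset (s : Rows.Amb P) : phi (P := P.setC f) L' n s = phi (P := P) L n s := by
  have : CharZero P.K := P.charZero
  show TrProj.projOn (K := P.K) ((P.setC f).qAlg L' n) (dp (P := P.setC f) L' n s) =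
    TrProj.projOn (K := P.K) (P.qAlg L n) (dp (P := P) L n s)
  rw [dp_reset A hgn hf, P.qAlg_reset A hgn hf]

end Freeze

open Freeze

/-- The motion over re-set symbols and listing. -/
def Motion.reset {P₁ P₁' : Pt} {E : Ext P P₁} {M : Mono E} {r : Rows L n P} (μ : Motion M r)
    (hg : ∀ j < n, L.Guarded j) {E' : Ext (P.setC f) P₁'} (M' : Mono E') :
    Motion M' ((r.setC hg hf).congr A) where
  a := μ.a
  b := μ.b
  s₀ := μ.s₀
  memA := by rw [(r.setC hg hf).T_congr A, r.T_setC hg hf]; exact μ.memA
  memB := by rw [(r.setC hg hf).T_congr A, r.T_setC hg hf]; exact μ.memB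
  mem₀ := by rw [(r.setC hg hf).T_congr A, r.T_setC hg hf]; exact μ.mem₀
  orth y hy := by
    rw [(r.setC hg hf).Y_congr A, r.Y_setC hg hf] at hy
    simp only [(r.setC hg hf).form_congr A, r.form_setC hg hf]
    exact μ.orth y hy
  FS := μ.FS
  le := by rw [P.qAlg_reset A hgn hf]; exact μ.le
  ratio s hs := by
    rw [(r.setC hg hf).T_congr A, r.T_setC hg hf] at hs
    rw [phi_reset A hgn hf, phi_reset A hgn hf]
    exact μ.ratio s hs
  ne₀ := by rw [phi_reset A hgn hf]; exact μ.ne₀
  neA := by rw [phi_reset A hgn hf]; exact μ.neA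
  span_pow := by simp only [phi_reset A hgn hf]; exact μ.span_pow
  stab s hs c hc := by
    rw [(r.setC hg hf).T_congr A, r.T_setC hg hf] at hs
    rw [phi_reset A hgn hf, dp_reset A hgn hf]
    refine μ.stab s hs c ?_
    rwa [show (P.setC f).q L' n = P.q L n from (Inv.q_congr A _).trans (Inv.q_setC_self P hgn hf)] at hc

end

end Vale.Agent.P199
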