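import Vale.Agent.P199.Freeze.Order
import Vale.Agent.P199.Inv.ImageMin
import Vale.Agent.P199.Deletion.KeyField

/-!
P199, freeze: the equation of the element at the lifted point. It is integral over the series of scalars, and its
residue is known in advance: the characteristic polynomial of the element on the powers of the leading motion over its
old field, which has coefficients in the old centre. So the symbols of the new row can be set before lifting.
-/

namespace Vale.Agent.P199

open Module LiftSeries Vale.P199 Polynomial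

noncomputable section

namespace Freeze

variable (L : Listing) (n : ℕ) (P : Pt)

/-- The element on `l` copies of the powers of itself. -/
def stepMatrix (l : ℕ) : Matrix (Fin (Minimise.degRow L n P) × Fin l)
    (Fin (Minimise.degRow L n P) × Fin l) P.K := fun a b =>
  if a.2 = b.2 then
    (Inv.exists_coeffs L (pow_mem (Algebra.self_mem_adjoin_singleton P.K (P.q L n)) ((b.1 : ℕ) + 1))).choose a.1
  else 0

/-- The symbols of the row to be frozen on the residue. -/
def resSym (l : ℕ) (i : ℕ) : P.K :=
  if i < L.b n then P.c i else (stepMatrix L n P l).charpoly.coeff (i - L.b n)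

theorem resSym_lt {l i : ℕ} (h : i < L.b n) : resSym L n P l i = P.c i := if_pos h

theorem stepMatrix_spec (l : ℕ) (b : Fin (Minimise.degRow L n P) × Fin l) :
    P.q L n ^ ((b.1 : ℕ) + 1) =
      ∑ i, stepMatrix L n P l (i, b.2) b • P.q L n ^ (i : ℕ) := by
  simp only [stepMatrix, if_pos]
  exact (Inv.exists_coeffs L (pow_mem (Algebra.self_mem_adjoin_singleton P.K (P.q L n)) ((b.1 : ℕ) + 1))).choose_spec

end Freeze

namespace Motion

open LaurData KeyField

variable {P P₁ : Pt} {E : Ext P P₁} {M : Mono E} {L : Listing} {n : ℕ} {r : Rows L n P}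
  {μ : Motion M r} {T : LaurData P₁}

/-- **The equation of the lifted element.** -/
theorem Near.exists_equation (H : μ.Near T)
    (hdeg : finrank T.pt.K (T.pt.qAlg L n) ≤ Minimise.degRow L n P * M.l) :
    Minimise.degRow L n T.pt = Minimise.degRow L n P * M.l ∧
      ∃ G : (PowerSeries P₁.K)[X],
        G.map (T.laur.eK.toRingHom.comp (HahnSeries.ofPowerSeries ℤ P₁.K)) =
          minpoly T.pt.K (T.pt.q L n) ∧
        G.map PowerSeries.constantCoeff = (Freeze.stepMatrix L n P M.l).charpoly.map E.iK := by
  classical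
  set e₀ := Minimise.degRow L n P
  have hl : 0 < M.l := by have := M.one_lt; omega
  have : Nonempty (Fin e₀ × Fin M.l) := ⟨(⟨0, Minimise.degRow_pos L n P⟩, ⟨0, hl⟩)⟩
  set φ := T.laur.eK.toRingHom.comp (HahnSeries.ofPowerSeries ℤ P₁.K)
  obtain ⟨Θ, hΘ, hΘ0⟩ := T.mem_leadAlgebra.1 H.lead_mem_lead
  let v : Fin e₀ × Fin M.l → PowerSeries P₁.D := fun z => T.qS L n ^ (z.1 : ℕ) * Θ ^ (z.2 : ℕ)
  have hq : T.em (T.qS L n) ∈ T.pt.qAlg L n := by
    rw [em_qS]; exact Algebra.self_mem_adjoin_singleton _ _
  have hv : ∀ z, T.em (v z) ∈ T.pt.qAlg L n := fun z => by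
    rw [map_mul, map_pow, map_pow]
    exact mul_mem (pow_mem hq _) (pow_mem hΘ _)
  have hv0 : ∀ z, PowerSeries.constantCoeff (v z) = E.iD (P.q L n ^ (z.1 : ℕ)) * μ.lead ^ (z.2 : ℕ) :=
    fun z => by rw [map_mul, map_pow, map_pow, H.qS_zero, hΘ0, map_pow]
  have hli₀ : LinearIndependent P.K fun i : Fin e₀ => P.q L n ^ (i : ℕ) :=
    linearIndependent_pow (P.q L n)
  have hindep : LinearIndependent P₁.K fun z => PowerSeries.constantCoeff (v z) := by
    simp only [hv0]
    exact (μ.linearIndependent_lead hli₀).comp Prod.swap Prod.swap_injective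
  -- a basis of the field of the element
  let A := T.pt.qAlg L n
  let vA : Fin e₀ × Fin M.l → A := fun z => ⟨T.em (v z), hv z⟩
  have hLI : LinearIndependent T.pt.K vA :=
    LinearIndependent.of_comp A.val.toLinearMap (T.laur.linearIndependent_emb v hindep)
  have hcard : Fintype.card (Fin e₀ × Fin M.l) = finrank T.pt.K A :=
    le_antisymm hLI.fintype_card_le_finrank
      (hdeg.trans (le_of_eq (by rw [Fintype.card_prod, Fintype.card_fin, Fintype.card_fin])))
  have hdegT : Minimise.degRow L n T.pt = e₀ * M.l := by
    rw [← Inv.finrank_qAlg L n T.pt, ← hcard, Fintype.card_prod, Fintype.card_fin, Fintype.card_fin]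
  let bas := basisOfLinearIndependentOfCardEqFinrank hLI hcard
  have hbas : ∀ z, bas z = vA z := fun z => by
    rw [coe_basisOfLinearIndependentOfCardEqFinrank]
  -- integral coordinates
  have hN : ∀ b, ∃ z : Fin e₀ × Fin M.l → PowerSeries P₁.K, T.qS L n * v b = ∑ a, sc (z a) * v a :=
    fun b => T.laur.exists_coords v hv hindep hcard.ge
      (show T.em (T.qS L n * v b) ∈ A by rw [map_mul]; exact mul_mem hq (hv b))
  choose z hz using hN
  let N : Matrix (Fin e₀ × Fin M.l) (Fin e₀ × Fin M.l) (PowerSeries P₁.K) := fun a b => z b a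
  have hres : N.map PowerSeries.constantCoeff = (Freeze.stepMatrix L n P M.l).map E.iK := by
    ext a b
    have h1 := congrArg PowerSeries.constantCoeff (hz b)
    rw [map_mul, H.qS_zero, hv0, ← mul_assoc, ← map_mul, ← pow_succ', Freeze.stepMatrix_spec L n P M.l b,
      map_sum, Finset.sum_mul, map_sum] at h1
    have h2 : ∑ a : Fin e₀ × Fin M.l, E.iK (Freeze.stepMatrix L n P M.l a b) •
        PowerSeries.constantCoeff (v a) =
          ∑ a, PowerSeries.constantCoeff (z b a) • PowerSeries.constantCoeff (v a) := by
      rw [show ∑ a, PowerSeries.constantCoeff (z b a) • PowerSeries.constantCoeff (v a) =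
        ∑ a, PowerSeries.constantCoeff (sc (z b a) * v a) from Finset.sum_congr rfl fun a _ => by
          rw [map_mul PowerSeries.constantCoeff (sc (z b a)) (v a), cc_map, Algebra.smul_def], ← h1,
        Fintype.sum_prod_type]
      refine Finset.sum_congr rfl fun i _ => ?_
      rw [Finset.sum_eq_single b.2, hv0, iD_smul, smul_mul_assoc]
      · intro m _ hm
        simp [Freeze.stepMatrix, hm]
      · exact fun h => absurd (Finset.mem_univ _) h
    rw [← sub_eq_zero, ← Finset.sum_sub_distrib] at h2
    simp only [← sub_smul] at h2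
    exact (sub_eq_zero.1 (Fintype.linearIndependent_iff.1 hindep _ h2 a)).symm
  let qA : A := ⟨T.pt.q L n, Algebra.self_mem_adjoin_singleton _ _⟩
  have hmat : LinearMap.toMatrix bas bas (Algebra.lmul T.pt.K A qA) = N.map φ := by
    ext a b
    rw [LinearMap.toMatrix_apply, Matrix.map_apply]
    have h1 : Algebra.lmul T.pt.K A qA (bas b) = ∑ a, φ (N a b) • bas a := by
      refine Subtype.ext ?_
      show T.pt.q L n * (bas b : T.pt.D) = _
      simp only [Submodule.coe_sum, AddSubmonoidClass.coe_finsetSum, hbas, SetLike.val_smul, vA]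
      rw [← em_qS, ← map_mul, hz b, map_sum]
      refine Finset.sum_congr rfl fun a _ => ?_
      rw [map_mul, Algebra.smul_def]
      exact congrArg (· * T.em (v a)) (T.em_map (z b a))
    rw [h1, Basis.repr_sum_self]
  refine ⟨hdegT, N.charpoly, ?_, by rw [← Matrix.charpoly_map, hres, Matrix.charpoly_map]⟩
  rw [← Matrix.charpoly_map, ← hmat, LinearMap.charpoly_toMatrix]
  set g := (Algebra.lmul T.pt.K A qA).charpoly
  have hg : g.Monic := LinearMap.charpoly_monic _
  have hgd : g.natDegree = Minimise.degRow L n T.pt := by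
    rw [LinearMap.charpoly_natDegree, ← hcard, hdegT, Fintype.card_prod, Fintype.card_fin,
      Fintype.card_fin]
  have hroot : Polynomial.aeval (T.pt.q L n) g = 0 := by
    have h := LinearMap.congr_fun (LinearMap.aeval_self_charpoly (Algebra.lmul T.pt.K A qA)) 1
    rw [Polynomial.aeval_algHom_apply, LinearMap.zero_apply] at h
    change Polynomial.aeval qA g * 1 = 0 at h
    rw [mul_one] at h
    have h2 := congrArg A.val h
    rwa [← Polynomial.aeval_algHom_apply, map_zero] at h2
  exact Polynomial.eq_of_monic_of_dvd_of_natDegree_le (minpoly.monic (Algebra.IsIntegral.isIntegral _)) hg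
    (minpoly.dvd _ _ hroot) hgd.le

end Motion

end

end Vale.Agent.P199
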