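import Vale.Agent.P199.Freeze.Lead
import Vale.Agent.P199.Freeze.Order
import Vale.Agent.P199.Lift.LiftRows
import Vale.Agent.P199.Stage.NewRow
import Vale.Agent.P199.Field.Tangent

/-!
P199, freeze: integral directions at a Laurent point and their differentials, leading spaces of subspaces of directions,
and the projection on a subalgebra of an integral element.
-/

namespace Vale.Agent.P199

open Module Vale.P199

noncomputable section

namespace Poly

/-- The second derivatives of the equation of a guarded row only see the symbols up to that row. -/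
theorem d2_eqn_congr {R : Type} [Ring R] (L : Listing) {j : ℕ} (hg : L.Guarded j) (x : Var → R)
    {u u' v v' : Var → R} (h1 : ∀ a, u (Sum.inl a) = u' (Sum.inl a))
    (k1 : ∀ a, v (Sum.inl a) = v' (Sum.inl a))
    (h2 : ∀ i < L.b (j + 1), u (Sum.inr i) = u' (Sum.inr i))
    (k2 : ∀ i < L.b (j + 1), v (Sum.inr i) = v' (Sum.inr i)) :
    d2 x u v (L.eqn j) = d2 x u' v' (L.eqn j) := by
  have hb : L.b j ≤ L.b (j + 1) := by rw [L.b_succ]; exact Nat.le_add_right _ _
  have key : ∀ w w' : Var → Matrix (Fin 3) (Fin 3) R, (∀ a, w (Sum.inl a) = w' (Sum.inl a)) →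
      (∀ i < L.b (j + 1), w (Sum.inr i) = w' (Sum.inr i)) →
      ev w (L.eqn j) = ev w' (L.eqn j) := fun w w' ha hi => by
    simp only [Listing.eqn, map_add, map_pow, map_sum, map_mul, ev_X,
      hg w w' ha fun i h => hi i (h.trans_le hb)]
    congr 1
    refine Finset.sum_congr rfl fun i hi' => ?_
    rw [hi (L.b j + i) (by rw [L.b_succ]; exact Nat.add_lt_add_left (Finset.mem_range.1 hi') _)]
  unfold d2 jet
  rw [key (fun z => tri (x z) (u z) (v z) 0) (fun z => tri (x z) (u' z) (v' z) 0)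
    (fun a => by simp only [h1, k1]) fun i hi => by simp only [h2 i hi, k2 i hi]]

end Poly

namespace LaurData

variable {P₁ : Pt} (T : LaurData P₁)

/-- An integral direction as series on all variables. -/
def pdir (p : Bool → PowerSeries P₁.D) : Var → PowerSeries P₁.D
  | Sum.inl c => p c
  | Sum.inr _ => 0

/-- The integral direction at the Laurent point. -/
def emDir (p : Bool → PowerSeries P₁.D) : Rows.Amb T.pt := fun c => T.em (p c)

theorem dirVal_emDir (N : ℕ) (p : Bool → PowerSeries P₁.D) :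
    T.pt.dirVal (N := N) (T.emDir p, 0) = fun z => T.em (pdir p z) := by
  funext z
  cases z with
  | inl c => rfl
  | inr i => by_cases h : i < N <;> simp [Pt.dirVal, pdir, h]

theorem cf_zero_pdir (N : ℕ) (p : Bool → PowerSeries P₁.D) :
    Poly.cf 0 (pdir p) = P₁.dirVal (N := N) (fun c => PowerSeries.constantCoeff (p c), 0) := by
  funext z
  cases z with
  | inl c => simp [Poly.cf, pdir, Pt.dirVal]
  | inr i => by_cases h : i < N <;> simp [Poly.cf, pdir, Pt.dirVal, h]

theorem cf_one_pdir (N : ℕ) (p : Bool → PowerSeries P₁.D) :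
    Poly.cf 1 (pdir p) = P₁.dirVal (N := N) (fun c => PowerSeries.coeff 1 (p c), 0) := by
  funext z
  cases z with
  | inl c => simp [Poly.cf, pdir, Pt.dirVal]
  | inr i => by_cases h : i < N <;> simp [Poly.cf, pdir, Pt.dirVal, h]

theorem em_d1 (N : ℕ) (p : Bool → PowerSeries P₁.D) (w : Poly) :
    Poly.d1 T.pt.val (T.pt.dirVal (N := N) (T.emDir p, 0)) w = T.em (Poly.d1 T.ser (pdir p) w) := by
  have h := Poly.map_d1 T.ser (pdir p) T.em 1 (fun a => by rw [mul_one, one_mul]) w
  simp only [mul_one] at h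
  rw [h, T.dirVal_emDir N p]
  exact congrArg (fun v => Poly.d1 v _ w) (funext fun z => (T.psE_ser z).symm)

theorem em_d2 (N : ℕ) (p q : Bool → PowerSeries P₁.D) (w : Poly) :
    Poly.d2 T.pt.val (T.pt.dirVal (N := N) (T.emDir p, 0)) (T.pt.dirVal (N := N) (T.emDir q, 0)) w =
      T.em (Poly.d2 T.ser (pdir p) (pdir q) w) := by
  have h := Poly.map_d2 T.ser (pdir p) (pdir q) T.em 1 1 (fun a => by rw [mul_one, one_mul])
    (fun a => by rw [mul_one, one_mul]) w
  simp only [mul_one] at h
  rw [h, T.dirVal_emDir N p, T.dirVal_emDir N q]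
  exact congrArg (fun v => Poly.d2 v _ _ w) (funext fun z => (T.psE_ser z).symm)

/-- The leading space of a space of directions. -/
def leadAmb (S : Submodule T.pt.K (Rows.Amb T.pt)) : Submodule P₁.K (Rows.Amb P₁) :=
  letI := T.alg
  LeadE.lead (K := P₁.K) (D := P₁.D) (ι := Bool) (fun _ => rfl) S

theorem finrank_leadAmb (S : Submodule T.pt.K (Rows.Amb T.pt)) :
    finrank P₁.K (T.leadAmb S) = finrank T.pt.K S :=
  letI := T.alg
  LeadE.finrank_lead (K := P₁.K) (D := P₁.D) (ι := Bool) (fun _ => rfl) S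

theorem mem_leadAmb {S : Submodule T.pt.K (Rows.Amb T.pt)} {x : Rows.Amb P₁} :
    x ∈ T.leadAmb S ↔ ∃ p : Bool → PowerSeries P₁.D, T.emDir p ∈ S ∧
      (fun c => PowerSeries.constantCoeff (p c)) = x := by
  let _ := T.alg
  constructor
  · rintro ⟨f, hf, hfi, rfl⟩
    refine ⟨fun c => PowerSeries.mk fun k : ℕ => SkewLaurent.cf (f c) k, ?_, funext fun c => ?_⟩
    · rw [show T.emDir (fun c => PowerSeries.mk fun k : ℕ => SkewLaurent.cf (f c) k) = f from
        funext fun c => LaurentAlg.exists_psE_of_neg _ (hfi c)]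
      exact hf
    · rw [← PowerSeries.coeff_zero_eq_constantCoeff_apply, PowerSeries.coeff_mk]
      rfl
  · rintro ⟨p, hp, rfl⟩
    refine ⟨T.emDir p, hp, fun c k hk => Conj.cf_psE_neg _ hk, funext fun c => ?_⟩
    show SkewLaurent.cf (LaurentAlg.psE (p c)) ((0 : ℕ) : ℤ) = _
    rw [LaurentAlg.cf_psE, PowerSeries.coeff_zero_eq_constantCoeff_apply]

theorem leadAmb_mono {S S' : Submodule T.pt.K (Rows.Amb T.pt)} (h : S ≤ S') :
    T.leadAmb S ≤ T.leadAmb S' := fun x hx => by
  obtain ⟨p, hp, he⟩ := T.mem_leadAmb.1 hx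
  exact T.mem_leadAmb.2 ⟨p, h hp, he⟩

theorem tr_coeff_eq {p q : PowerSeries P₁.D}
    (h : TrProj.tr (K := T.pt.K) (T.em p) = TrProj.tr (T.em q)) (k : ℕ) :
    TrProj.tr (K := P₁.K) (PowerSeries.coeff k p) = TrProj.tr (PowerSeries.coeff k q) := by
  rw [← sub_eq_zero, ← map_sub, ← map_sub]
  exact T.tr_coeff_eq_zero (by rw [map_sub, map_sub, h, sub_self]) k

/-- The projection of an integral element is integral, with the projection of the leading term as leading term. -/
theorem projOn_em [CharZero T.pt.K] [CharZero P₁.K] (A : Subalgebra T.pt.K T.pt.D)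
    (a : PowerSeries P₁.D) :
    ∃ w : PowerSeries P₁.D, TrProj.projOn A (T.em a) = T.em w ∧
      PowerSeries.constantCoeff w =
        TrProj.projOn (T.leadAlgebra A) (PowerSeries.constantCoeff a) := by
  set y := TrProj.projOn A (T.em a) with hy
  have hyA : y ∈ A := TrProj.projOn_mem _ _
  have hem : ∀ (k : ℕ) (w : PowerSeries P₁.D),
      T.eps ^ k • T.em w = T.em (PowerSeries.X ^ k * w) := by
    intro k w
    induction k with
    | zero => simp
    | succ k ih => rw [pow_succ', mul_smul, ih, ← T.em_X_mul, ← mul_assoc, ← pow_succ']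
  suffices h : ∀ k, ∀ w : PowerSeries P₁.D, T.eps ^ k • y = T.em w →
      ∃ w' : PowerSeries P₁.D, y = T.em w' by
    obtain ⟨k, w, hw⟩ : ∃ (k : ℕ) (w : PowerSeries P₁.D), T.eps ^ k • y = T.em w := by
      by_cases h0 : y = 0
      · exact ⟨0, 0, by rw [h0, smul_zero, map_zero]⟩
      · exact T.exists_eps_pow y
    obtain ⟨w', hw'⟩ := h k w hw
    refine ⟨w', hw', (TrProj.eq_projOn _ ?_ fun s hs => ?_).symm⟩
    · exact T.mem_leadAlgebra.2 ⟨w', hw' ▸ hyA, rfl⟩
    · obtain ⟨q, hq, rfl⟩ := T.mem_leadAlgebra.1 hs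
      have h1 := T.tr_coeff_eq (p := q * w') (q := q * a)
        (by rw [map_mul T.em, map_mul T.em, ← hw', hy, TrProj.tr_mul_projOn A hq]) 0
      simpa using h1
  intro k
  induction k with
  | zero => intro w hw; exact ⟨w, by simpa using hw⟩
  | succ k ih =>
    intro w hw
    have hwA : T.em w ∈ A := hw ▸ Subalgebra.smul_mem _ hyA _
    have h0 : PowerSeries.constantCoeff w = 0 := by
      refine by_contra fun h => ?_
      obtain ⟨c, hc, hne⟩ := TrProj.exists_tr_mul_ne_zero (T.leadAlgebra A)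
        (T.mem_leadAlgebra.2 ⟨w, hwA, rfl⟩) h
      obtain ⟨q, hq, rfl⟩ := T.mem_leadAlgebra.1 hc
      refine hne ?_
      rw [TrProj.tr_comm]
      have h1 := T.tr_coeff_eq (p := q * w) (q := q * (PowerSeries.X ^ (k + 1) * a)) (by
        rw [map_mul T.em, map_mul T.em, ← hw, ← hem, mul_smul_comm, mul_smul_comm, map_smul, map_smul, hy,
          TrProj.tr_mul_projOn A hq]) 0
      simpa [zero_pow] using h1
    obtain ⟨w', rfl⟩ := PowerSeries.X_dvd_iff.2 h0
    refine ih w' (T.eps_smul_cancel ?_)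
    rw [smul_smul, ← pow_succ', hw, T.em_X_mul]

end LaurData

end

end Vale.Agent.P199
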